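import Vale.Agent.P321.Push

/-!
# P321 module 1: norms on the algebra of laws

All proofs are finite sums; the basic tool is `Finset.sq_sum_div_le_sum_sq_div`.
-/

namespace Vale.Agent.P321

open Finset
open scoped Classical

namespace Push

theorem supp_add_subset (X Y : Law) : supp (X + Y) ⊆ supp X ∪ supp Y := by
  intro y hy
  by_contra hc
  simp only [mem_union, not_or] at hc
  exact mem_supp.1 hy (by rw [val_add, val_eq_zero hc.1, val_eq_zero hc.2, add_zero])

theorem supp_smul_subset (c : ℝ) (X : Law) : supp (c • X) ⊆ supp X := by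
  intro y hy
  by_contra hc
  exact mem_supp.1 hy (by rw [val_smul, val_eq_zero hc, mul_zero])

theorem dom_pos {X R : Law} (hR : Pos R) (hd : Dom X R) {y : TW} (hy : val X y ≠ 0) :
    0 < val R y :=
  (hR y).lt_of_ne fun h => hy (hd y h.symm)

theorem dom_supp {X R : Law} (hd : Dom X R) : supp X ⊆ supp R :=
  fun y hy => mem_supp.2 fun h => mem_supp.1 hy (hd y h)

theorem val_pushLaw_mul_le {R S : Law} (hR : Pos R) (hS : Pos S) (I : Finset (TW × TW)) (y : TW) :
    val (pushLaw I (fun p => p.1 * p.2) fun p => val R p.1 * val S p.2) y ≤ val (R * S) y := by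
  rw [mul_eq_sum R S (S := supp R ∪ I.image Prod.fst) (T := supp S ∪ I.image Prod.snd)
    subset_union_left subset_union_left]
  change _ ≤ val (pushLaw _ (fun p : TW × TW => p.1 * p.2) _) y
  rw [val_pushLaw, val_pushLaw]
  refine sum_le_sum_of_subset_of_nonneg (filter_subset_filter _ fun p hp => ?_)
    fun p _ _ => mul_nonneg (hR _) (hS _)
  exact mem_product.2 ⟨mem_union_right _ (mem_image_of_mem _ hp),
    mem_union_right _ (mem_image_of_mem _ hp)⟩

theorem pos_mul {R S : Law} (hR : Pos R) (hS : Pos S) : Pos (R * S) := fun y => by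
  rw [mul_eq_sum R S subset_rfl subset_rfl]
  change 0 ≤ val (pushLaw _ (fun p : TW × TW => p.1 * p.2) _) y
  rw [val_pushLaw]
  exact sum_nonneg fun p _ => mul_nonneg (hR _) (hS _)

theorem mass_mul' (X Y : Law) : mass (X * Y) = mass X * mass Y := by
  rw [mul_eq_sum X Y subset_rfl subset_rfl]
  change mass (pushLaw _ (fun p : TW × TW => p.1 * p.2) _) = _
  rw [mass_pushLaw, sum_product, mass, mass, sum_mul_sum]

end Push

open Push

theorem isProb_one : IsProb (1 : Law) := by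
  have e : (1 : Law) = pushLaw (ι := Unit) univ (fun _ => 1) (fun _ => 1) := by
    simp [pushLaw, MonoidAlgebra.one_def]
  refine ⟨fun y => ?_, ?_⟩
  · rw [e, val_pushLaw]; positivity
  · rw [e, mass_pushLaw]; simp
theorem IsProb.mul {A B : Law} (hA : IsProb A) (hB : IsProb B) : IsProb (A * B) := by
  exact ⟨pos_mul hA.1 hB.1, by rw [mass_mul', hA.2, hB.2, one_mul]⟩
theorem IsProb.pow {A : Law} (hA : IsProb A) (n : ℕ) : IsProb (A ^ n) := by
  induction n with
  | zero => rw [pow_zero]; exact isProb_one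
  | succ n ih => rw [pow_succ]; exact ih.mul hA
theorem isProb_lawHom {q : ℝ} (hq0 : 0 ≤ q) (hq1 : q ≤ 1) (w : TW) : IsProb (lawHom q w) := by
  induction w using FreeMonoid.inductionOn' with
  | one => rw [map_one]; exact isProb_one
  | of_mul b a ih =>
    rw [map_mul]
    refine IsProb.mul ?_ ih
    simp only [lawHom, FreeMonoid.lift_eval_of]
    have e : bitLaw q b = pushLaw (ι := Fin 2) univ ![1, FreeMonoid.of b] ![q, 1 - q] := by
      simp [pushLaw, bitLaw, Fin.sum_univ_two]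
    refine ⟨fun y => ?_, ?_⟩
    · rw [e, val_pushLaw]
      refine sum_nonneg fun i _ => ?_
      fin_cases i <;> simp <;> linarith
    · rw [e, mass_pushLaw]; simp [Fin.sum_univ_two]
theorem mass_mul (X Y : Law) : mass (X * Y) = mass X * mass Y := by
  exact mass_mul' X Y
theorem mass_add (X Y : Law) : mass (X + Y) = mass X + mass Y := by
  rw [mass, mass, mass, sum_supp_eq X subset_union_left (fun _ v => v) fun _ => rfl,
    sum_supp_eq Y subset_union_right (fun _ v => v) fun _ => rfl,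
    sum_supp_eq _ (supp_add_subset X Y) (fun _ v => v) fun _ => rfl, ← sum_add_distrib]
  simp only [val_add]
theorem mass_sub (X Y : Law) : mass (X - Y) = mass X - mass Y := by
  rw [eq_sub_iff_add_eq, ← mass_add, sub_add_cancel]

theorem l1_nonneg (X : Law) : 0 ≤ l1 X := by
  exact sum_nonneg fun y _ => abs_nonneg _
theorem l1_add (X Y : Law) : l1 (X + Y) ≤ l1 X + l1 Y := by
  rw [l1, l1, l1, sum_supp_eq X subset_union_left (fun _ v => |v|) fun _ => abs_zero,
    sum_supp_eq Y subset_union_right (fun _ v => |v|) fun _ => abs_zero,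
    sum_supp_eq _ (supp_add_subset X Y) (fun _ v => |v|) fun _ => abs_zero, ← sum_add_distrib]
  simp only [val_add]
  exact sum_le_sum fun y _ => abs_add_le _ _
theorem l1_neg (X : Law) : l1 (-X) = l1 X := by
  have : supp (-X) = supp X := by ext y; simp [mem_supp, val_neg]
  simp [l1, this, val_neg]
theorem l1_smul (c : ℝ) (X : Law) : l1 (c • X) = |c| * l1 X := by
  rw [l1, l1, sum_supp_eq _ (supp_smul_subset c X) (fun _ v => |v|) fun _ => abs_zero, mul_sum]
  simp only [val_smul, abs_mul]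
theorem l1_sum {ι : Type*} (s : Finset ι) (X : ι → Law) :
    l1 (∑ i ∈ s, X i) ≤ ∑ i ∈ s, l1 (X i) := by
  classical
  induction s using Finset.induction_on with
  | empty => simp [l1, supp]
  | insert a s ha ih =>
    rw [sum_insert ha, sum_insert ha]
    exact (l1_add _ _).trans (add_le_add le_rfl ih)
theorem l1_mul (X Y : Law) : l1 (X * Y) ≤ l1 X * l1 Y := by
  rw [mul_eq_sum X Y subset_rfl subset_rfl]
  refine (l1_pushLaw _ (fun p : TW × TW => p.1 * p.2) _).trans (le_of_eq ?_)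
  rw [sum_product, l1, l1, sum_mul_sum]
  simp only [abs_mul]
theorem l1_of_isProb {A : Law} (hA : IsProb A) : l1 A = 1 := by
  rw [← hA.2, l1, mass]
  exact sum_congr rfl fun y _ => abs_of_nonneg (hA.1 y)
theorem l1_le_sqrt_nsq {X R : Law} (hR : IsProb R) (hd : Dom X R) :
    l1 X ≤ Real.sqrt (nsq X R) := by
  refine Real.le_sqrt_of_sq_le ?_
  rcases (supp X).eq_empty_or_nonempty with h | h
  · simp [l1, nsq, h]
  have hpos : ∀ y ∈ supp X, 0 < val R y := fun y hy => dom_pos hR.1 hd (mem_supp.1 hy)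
  have hW := sum_pos hpos h
  have hle : ∑ y ∈ supp X, val R y ≤ 1 := by
    rw [← hR.2, mass]
    exact sum_le_sum_of_subset_of_nonneg (fun y hy => mem_supp.2 (hpos y hy).ne')
      fun y _ _ => hR.1 y
  have h1 := sq_sum_div_le_sum_sq_div (supp X) (fun y => |val X y|) hpos
  simp only [sq_abs] at h1
  refine le_trans ?_ h1
  rw [le_div_iff₀ hW, l1]
  exact mul_le_of_le_one_right (sq_nonneg _) hle

theorem Dom.mul {X Y R S : Law} (hR : Pos R) (hS : Pos S) (hX : Dom X R) (hY : Dom Y S) :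
    Dom (X * Y) (R * S) := by
  intro y hy
  rw [mul_eq_sum X Y (dom_supp hX) (dom_supp hY)]
  rw [mul_eq_sum R S subset_rfl subset_rfl] at hy
  change val (pushLaw _ (fun p : TW × TW => p.1 * p.2) _) y = 0 at hy ⊢
  rw [val_pushLaw] at hy ⊢
  refine sum_eq_zero fun p hp => ?_
  have h0 := (sum_eq_zero_iff_of_nonneg fun i _ => mul_nonneg (hR i.1) (hS i.2)).1 hy p hp
  rcases mul_eq_zero.1 h0 with h | h
  · rw [hX _ h, zero_mul]
  · rw [hY _ h, mul_zero]
theorem Dom.add {X Y R : Law} (hX : Dom X R) (hY : Dom Y R) : Dom (X + Y) R := by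
  intro y hy; rw [val_add, hX y hy, hY y hy, add_zero]
theorem Dom.sub {X Y R : Law} (hX : Dom X R) (hY : Dom Y R) : Dom (X - Y) R := by
  intro y hy; rw [val_sub, hX y hy, hY y hy, sub_zero]
theorem Dom.smul {X R : Law} (c : ℝ) (hX : Dom X R) : Dom (c • X) R := by
  intro y hy; rw [val_smul, hX y hy, mul_zero]
theorem dom_self (R : Law) : Dom R R := by
  exact fun y hy => hy
theorem dom_of_bdd {X R : Law} {Lam : ℝ} (h : Bdd Lam X R) : Dom X R := by
  intro y hy
  have := h y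
  rw [hy, mul_zero] at this
  exact abs_nonpos_iff.1 this

theorem nsq_nonneg {X R : Law} (hR : Pos R) : 0 ≤ nsq X R := by
  exact sum_nonneg fun y _ => div_nonneg (sq_nonneg _) (hR y)
theorem nq_nonneg {X R : Law} (hR : Pos R) : 0 ≤ nq X R := by
  exact sum_nonneg fun y _ => div_nonneg (Even.pow_nonneg (by decide) _) (pow_nonneg (hR y) 3)
theorem nsq_mul {X Y R S : Law} (hR : Pos R) (hS : Pos S) (hX : Dom X R) (hY : Dom Y S) :
    nsq (X * Y) (R * S) ≤ nsq X R * nsq Y S := by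
  rw [mul_eq_sum X Y subset_rfl subset_rfl]
  refine le_trans (nsq_pushLaw _ (fun p : TW × TW => p.1 * p.2)
    (w := fun p => val R p.1 * val S p.2) ?_ ?_ (fun y => val_pushLaw_mul_le hR hS _ y))
    (le_of_eq ?_)
  · intro p _ hp
    rcases mul_eq_zero.1 hp with h | h
    · rw [hX _ h, zero_mul]
    · rw [hY _ h, mul_zero]
  · exact fun p _ => mul_nonneg (hR _) (hS _)
  · rw [sum_product, nsq, nsq, sum_mul_sum]
    simp only [mul_pow, mul_div_mul_comm]
theorem nq_mul {X Y R S : Law} (hR : Pos R) (hS : Pos S) (hX : Dom X R) (hY : Dom Y S) :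
    nq (X * Y) (R * S) ≤ nq X R * nq Y S := by
  rw [mul_eq_sum X Y subset_rfl subset_rfl]
  refine le_trans (nq_pushLaw _ (fun p : TW × TW => p.1 * p.2)
    (w := fun p => val R p.1 * val S p.2) ?_ ?_ (fun y => val_pushLaw_mul_le hR hS _ y))
    (le_of_eq ?_)
  · intro p _ hp
    rcases mul_eq_zero.1 hp with h | h
    · rw [hX _ h, zero_mul]
    · rw [hY _ h, mul_zero]
  · exact fun p _ => mul_nonneg (hR _) (hS _)
  · rw [sum_product, nq, nq, sum_mul_sum]
    simp only [mul_pow, mul_div_mul_comm]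
theorem nsq_self {R : Law} (hR : IsProb R) : nsq R R = 1 := by
  rw [← hR.2, nsq, mass]
  exact sum_congr rfl fun y hy => by have := mem_supp.1 hy; field_simp
theorem nq_self {R : Law} (hR : IsProb R) : nq R R = 1 := by
  rw [← hR.2, nq, mass]
  exact sum_congr rfl fun y hy => by have := mem_supp.1 hy; field_simp
theorem nsq_add {X Y R : Law} (hR : Pos R) : nsq (X + Y) R ≤ 2 * nsq X R + 2 * nsq Y R := by
  rw [nsq, nsq, nsq,
    sum_supp_eq X subset_union_left (fun y v => v ^ 2 / val R y) (fun y => by simp),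
    sum_supp_eq Y subset_union_right (fun y v => v ^ 2 / val R y) (fun y => by simp),
    sum_supp_eq _ (supp_add_subset X Y) (fun y v => v ^ 2 / val R y) (fun y => by simp),
    mul_sum, mul_sum, ← sum_add_distrib]
  refine sum_le_sum fun y _ => ?_
  rw [val_add, ← mul_div_assoc, ← mul_div_assoc, ← add_div]
  refine div_le_div_of_nonneg_right ?_ (hR y)
  nlinarith [sq_nonneg (val X y - val Y y)]
theorem nq_add {X Y R : Law} (hR : Pos R) : nq (X + Y) R ≤ 8 * nq X R + 8 * nq Y R := by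
  rw [nq, nq, nq,
    sum_supp_eq X subset_union_left (fun y v => v ^ 4 / val R y ^ 3) (fun y => by simp),
    sum_supp_eq Y subset_union_right (fun y v => v ^ 4 / val R y ^ 3) (fun y => by simp),
    sum_supp_eq _ (supp_add_subset X Y) (fun y v => v ^ 4 / val R y ^ 3) (fun y => by simp),
    mul_sum, mul_sum, ← sum_add_distrib]
  refine sum_le_sum fun y _ => ?_
  rw [val_add, ← mul_div_assoc, ← mul_div_assoc, ← add_div]
  refine div_le_div_of_nonneg_right ?_ (pow_nonneg (hR y) 3)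
  have h1 : (val X y + val Y y) ^ 2 ≤ 2 * val X y ^ 2 + 2 * val Y y ^ 2 := by
    nlinarith [sq_nonneg (val X y - val Y y)]
  have h2 := pow_le_pow_left₀ (sq_nonneg _) h1 2
  nlinarith [sq_nonneg (val X y ^ 2 - val Y y ^ 2)]
theorem nsq_smul (c : ℝ) (X R : Law) : nsq (c • X) R = c ^ 2 * nsq X R := by
  rw [nsq, nsq,
    sum_supp_eq _ (supp_smul_subset c X) (fun y v => v ^ 2 / val R y) (fun y => by simp), mul_sum]
  simp only [val_smul, mul_pow, mul_div_assoc]
theorem nq_smul (c : ℝ) (X R : Law) : nq (c • X) R = c ^ 4 * nq X R := by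
  rw [nq, nq,
    sum_supp_eq _ (supp_smul_subset c X) (fun y v => v ^ 4 / val R y ^ 3) (fun y => by simp),
    mul_sum]
  simp only [val_smul, mul_pow, mul_div_assoc]
theorem nsq_sum {ι : Type*} (s : Finset ι) (X : ι → Law) {R : Law} (hR : Pos R) :
    nsq (∑ i ∈ s, X i) R ≤ (s.card : ℝ) * ∑ i ∈ s, nsq (X i) R := by
  classical
  set T := s.biUnion fun i => supp (X i)
  have hT : supp (∑ i ∈ s, X i) ⊆ T := fun y hy => by
    by_contra hc
    refine mem_supp.1 hy ?_
    rw [val_finset_sum]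
    exact sum_eq_zero fun i hi => val_eq_zero fun h => hc (mem_biUnion.2 ⟨i, hi, h⟩)
  rw [nsq, sum_supp_eq _ hT (fun y v => v ^ 2 / val R y) (fun y => by simp),
    show ∑ i ∈ s, nsq (X i) R = ∑ i ∈ s, ∑ y ∈ T, val (X i) y ^ 2 / val R y from sum_congr rfl fun i hi =>
      sum_supp_eq (X i) (fun y hy => mem_biUnion.2 ⟨i, hi, hy⟩) (fun y v => v ^ 2 / val R y)
        (fun y => by simp),
    sum_comm, mul_sum]
  refine sum_le_sum fun y _ => ?_
  rw [val_finset_sum, ← sum_div, ← mul_div_assoc]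
  exact div_le_div_of_nonneg_right sq_sum_le_card_mul_sum_sq (hR y)
theorem nsq_change {X R S : Law} {Lam : ℝ} (hL : 0 ≤ Lam) (hR : Pos R) (hd : Dom X R)
    (h : ∀ y, val R y ≤ Lam * val S y) : nsq X S ≤ Lam * nsq X R := by
  rw [nsq, nsq, mul_sum]
  refine sum_le_sum fun y hy => ?_
  have h1 := dom_pos hR hd (mem_supp.1 hy)
  have h2 : 0 < val S y := pos_of_mul_pos_right (h1.trans_le (h y)) hL
  rw [← mul_div_assoc, div_le_div_iff₀ h2 h1]
  nlinarith [h y, sq_nonneg (val X y)]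
theorem nq_change {X R S : Law} {Lam : ℝ} (hL : 0 ≤ Lam) (hR : Pos R) (hd : Dom X R)
    (h : ∀ y, val R y ≤ Lam * val S y) : nq X S ≤ Lam ^ 3 * nq X R := by
  rw [nq, nq, mul_sum]
  refine sum_le_sum fun y hy => ?_
  have h1 := dom_pos hR hd (mem_supp.1 hy)
  have h2 : 0 < val S y := pos_of_mul_pos_right (h1.trans_le (h y)) hL
  rw [← mul_div_assoc, div_le_div_iff₀ (pow_pos h2 3) (pow_pos h1 3)]
  have h3 := pow_le_pow_left₀ h1.le (h y) 3
  rw [mul_pow] at h3
  have h4 : (0 : ℝ) ≤ val X y ^ 4 := Even.pow_nonneg (by decide) _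
  nlinarith
theorem nsq_le_of_bdd {X R : Law} {Lam : ℝ} (hR : Pos R) (h : Bdd Lam X R) :
    nsq X R ≤ Lam * l1 X := by
  rw [nsq, l1, mul_sum]
  refine sum_le_sum fun y hy => ?_
  have h1 := dom_pos hR (dom_of_bdd h) (mem_supp.1 hy)
  rw [div_le_iff₀ h1, ← sq_abs]
  nlinarith [h y, abs_nonneg (val X y)]
theorem nsq_interp {X R : Law} (hR : Pos R) (hd : Dom X R) :
    nsq X R ≤ l1 X ^ ((2 : ℝ) / 3) * nq X R ^ ((1 : ℝ) / 3) := by
  set B := ∑ y ∈ supp X, |val X y| ^ 3 / val R y ^ 2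
  have hN := nsq_nonneg (X := X) hR
  have hQ := nq_nonneg (X := X) hR
  have hl := l1_nonneg X
  have h1 : nsq X R ^ 2 ≤ l1 X * B := by
    refine sum_sq_le_sum_mul_sum_of_sq_le_mul _ (fun y _ => abs_nonneg _) (fun y _ => ?_)
      fun y hy => ?_
    · exact div_nonneg (pow_nonneg (abs_nonneg _) 3) (sq_nonneg _)
    · refine le_of_eq ?_
      have := (dom_pos hR hd (mem_supp.1 hy)).ne'
      rw [← sq_abs (val X y)]
      field_simp
  have h2 : B ^ 2 ≤ nsq X R * nq X R := by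
    refine sum_sq_le_sum_mul_sum_of_sq_le_mul _ (fun y _ => div_nonneg (sq_nonneg _) (hR y))
      (fun y _ => div_nonneg (Even.pow_nonneg (by decide) _) (pow_nonneg (hR y) 3)) fun y hy => ?_
    refine le_of_eq ?_
    have := (dom_pos hR hd (mem_supp.1 hy)).ne'
    rw [div_pow, ← pow_mul, show 3 * 2 = 6 from rfl, Even.pow_abs (by decide)]
    field_simp
  have h3 : nsq X R ^ 3 ≤ l1 X ^ 2 * nq X R := by
    rcases hN.eq_or_lt with h0 | h0
    · rw [← h0]; simp only [ne_eq, OfNat.ofNat_ne_zero, not_false_eq_true, zero_pow]; positivity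
    · refine le_of_mul_le_mul_left ?_ h0
      have h4 := pow_le_pow_left₀ (sq_nonneg _) h1 2
      have h5 := mul_le_mul_of_nonneg_left h2 (sq_nonneg (l1 X))
      nlinarith
  calc nsq X R = (nsq X R ^ 3) ^ ((3 : ℕ) : ℝ)⁻¹ :=
        (Real.pow_rpow_inv_natCast hN (by norm_num)).symm
    _ ≤ (l1 X ^ 2 * nq X R) ^ ((3 : ℕ) : ℝ)⁻¹ :=
        Real.rpow_le_rpow (pow_nonneg hN 3) h3 (by norm_num)
    _ = _ := by
      rw [Real.mul_rpow (sq_nonneg _) hQ, ← Real.rpow_natCast, ← Real.rpow_mul hl]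
      norm_num
theorem nsq_probability {A R : Law} (hA : IsProb A) (hR : IsProb R) (hd : Dom A R) :
    nsq A R = 1 + nsq (A - R) R := by
  have h1 : nsq A R = ∑ y ∈ supp R, val A y ^ 2 / val R y :=
    sum_supp_eq A (dom_supp hd) (fun y v => v ^ 2 / val R y) (fun y => by simp)
  have h2 : nsq (A - R) R = ∑ y ∈ supp R, (val A y - val R y) ^ 2 / val R y := by
    rw [nsq, sum_supp_eq _ (dom_supp (hd.sub (dom_self R))) (fun y v => v ^ 2 / val R y)
      (fun y => by simp)]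
    simp only [val_sub]
  have h3 : ∑ y ∈ supp R, val A y = 1 := by
    rw [← hA.2]; exact (sum_supp_eq A (dom_supp hd) (fun _ v => v) fun _ => rfl).symm
  have h4 : ∑ y ∈ supp R, val R y = 1 := hR.2
  have h5 : ∀ y ∈ supp R, (val A y - val R y) ^ 2 / val R y =
      val A y ^ 2 / val R y - 2 * val A y + val R y := fun y hy => by
    have := mem_supp.1 hy; field_simp; ring
  rw [h1, h2, sum_congr rfl h5, sum_add_distrib, sum_sub_distrib, ← mul_sum, h3, h4]
  ring
theorem nq_probability {A R : Law} {Lam : ℝ} (hL : 1 ≤ Lam) (hA : IsProb A) (hR : IsProb R)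
    (h : Bdd Lam A R) : nq A R ≤ 1 + (6 + 4 * Lam + Lam ^ 2) * nsq (A - R) R := by
  have hd := dom_of_bdd h
  have h1 : nq A R = ∑ y ∈ supp R, val A y ^ 4 / val R y ^ 3 :=
    sum_supp_eq A (dom_supp hd) (fun y v => v ^ 4 / val R y ^ 3) (fun y => by simp)
  have h2 : nsq (A - R) R = ∑ y ∈ supp R, (val A y - val R y) ^ 2 / val R y := by
    rw [nsq, sum_supp_eq _ (dom_supp (hd.sub (dom_self R))) (fun y v => v ^ 2 / val R y)
      (fun y => by simp)]
    simp only [val_sub]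
  have h3 : ∑ y ∈ supp R, val A y = 1 := by
    rw [← hA.2]; exact (sum_supp_eq A (dom_supp hd) (fun _ v => v) fun _ => rfl).symm
  have h4 : ∑ y ∈ supp R, val R y = 1 := hR.2
  have h5 : ∀ y ∈ supp R, val A y ^ 4 / val R y ^ 3 ≤ (4 * val A y - 3 * val R y) +
      (6 + 4 * Lam + Lam ^ 2) * ((val A y - val R y) ^ 2 / val R y) := fun y hy => by
    have hr : 0 < val R y := dom_pos hR.1 (dom_self R) (mem_supp.1 hy)
    have ha := hA.1 y
    have hb : val A y ≤ Lam * val R y := (le_abs_self _).trans (h y)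
    have e : val A y ^ 4 / val R y ^ 3 = (4 * val A y - 3 * val R y) +
        (6 + 4 * (val A y / val R y - 1) + (val A y / val R y - 1) ^ 2) *
          ((val A y - val R y) ^ 2 / val R y) := by
      field_simp; ring
    rw [e]
    refine add_le_add le_rfl (mul_le_mul_of_nonneg_right ?_ (div_nonneg (sq_nonneg _) hr.le))
    have hd0 : 0 ≤ val A y / val R y := div_nonneg ha hr.le
    have hd1 : val A y / val R y ≤ Lam := (div_le_iff₀ hr).2 hb
    nlinarith
  rw [h1, h2]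
  refine (sum_le_sum h5).trans (le_of_eq ?_)
  rw [sum_add_distrib, sum_sub_distrib, ← mul_sum, ← mul_sum, ← mul_sum, h3, h4]
  ring
theorem inn_self (X R : Law) : inn X X R = nsq X R := by
  exact sum_congr rfl fun y _ => by rw [sq]
theorem inn_ref {h R : Law} (hd : Dom h R) : inn h R R = mass h ∧ inn R h R = mass h := by
  constructor
  · refine sum_congr rfl fun y hy => ?_
    have : val R y ≠ 0 := fun h0 => mem_supp.1 hy (hd y h0)
    field_simp
  · rw [mass, sum_supp_eq h (dom_supp hd) (fun _ v => v) fun _ => rfl]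
    refine sum_congr rfl fun y hy => ?_
    have := mem_supp.1 hy
    field_simp

theorem Bdd.mul {X Y R S : Law} {a b : ℝ} (ha : 0 ≤ a) (hb : 0 ≤ b) (hX : Bdd a X R)
    (hY : Bdd b Y S) : Bdd (a * b) (X * Y) (R * S) := by
  intro y
  rcases ha.eq_or_lt with ha0 | ha0
  · have : X = 0 := MonoidAlgebra.coeff_injective (Finsupp.ext fun z => by
      have := hX z
      rw [← ha0, zero_mul, abs_nonpos_iff] at this
      simpa [val] using this)
    simp [this, ← ha0, val_zero]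
  rcases hb.eq_or_lt with hb0 | hb0
  · have : Y = 0 := MonoidAlgebra.coeff_injective (Finsupp.ext fun z => by
      have := hY z
      rw [← hb0, zero_mul, abs_nonpos_iff] at this
      simpa [val] using this)
    simp [this, ← hb0, val_zero]
  have hR : Pos R := fun z => nonneg_of_mul_nonneg_right ((abs_nonneg _).trans (hX z)) ha0
  have hS : Pos S := fun z => nonneg_of_mul_nonneg_right ((abs_nonneg _).trans (hY z)) hb0
  rw [mul_eq_sum X Y (dom_supp (dom_of_bdd hX)) (dom_supp (dom_of_bdd hY)),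
    mul_eq_sum R S subset_rfl subset_rfl]
  change |val (pushLaw _ (fun p : TW × TW => p.1 * p.2) _) y| ≤
    a * b * val (pushLaw _ (fun p : TW × TW => p.1 * p.2) _) y
  rw [val_pushLaw, val_pushLaw, mul_sum]
  refine (abs_sum_le_sum_abs _ _).trans (sum_le_sum fun p _ => ?_)
  rw [abs_mul]
  refine (mul_le_mul (hX _) (hY _) (abs_nonneg _) (mul_nonneg ha (hR _))).trans (le_of_eq ?_)
  ring
theorem Bdd.add {X Y R : Law} {a b : ℝ} (hX : Bdd a X R) (hY : Bdd b Y R) :
    Bdd (a + b) (X + Y) R := by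
  intro y
  rw [val_add, add_mul]
  exact (abs_add_le _ _).trans (add_le_add (hX y) (hY y))
theorem Ratio.mul {A B A' B' : Law} {a b : ℝ} (ha : 0 ≤ a) (hb : 0 ≤ b) (hA : IsProb A)
    (hB : IsProb B) (hA' : IsProb A') (hB' : IsProb B') (h : Ratio a A B) (h' : Ratio b A' B') :
    Ratio (a * b) (A * A') (B * B') := by
  have key : ∀ {U V U' V' : Law}, Pos U → Pos U' → (∀ z, val U z ≤ a * val V z) →
      (∀ z, val U' z ≤ b * val V' z) → ∀ y, val (U * U') y ≤ a * b * val (V * V') y :=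
    fun hU hU' h1 h2 y => (le_abs_self _).trans (Bdd.mul ha hb
      (fun z => by rw [abs_of_nonneg (hU z)]; exact h1 z)
      (fun z => by rw [abs_of_nonneg (hU' z)]; exact h2 z) y)
  exact fun y => ⟨key hA.1 hA'.1 (fun z => (h z).1) (fun z => (h' z).1) y,
    key hB.1 hB'.1 (fun z => (h z).2) (fun z => (h' z).2) y⟩

namespace Push

theorem val_triple_le {R M T : Law} (hR : Pos R) (hM : Pos M) (hT : Pos T)
    (I : Finset ((TW × TW) × TW)) (y : TW) :
    val (pushLaw I (fun p => p.1.1 * p.1.2 * p.2)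
      fun p => val R p.1.1 * val M p.1.2 * val T p.2) y ≤ val (R * M * T) y := by
  rw [mul_mul_eq_sum R M T (S := supp R ∪ I.image fun p => p.1.1)
    (T := supp M ∪ I.image fun p => p.1.2) (U := supp T ∪ I.image fun p => p.2)
    subset_union_left subset_union_left subset_union_left]
  change _ ≤ val (pushLaw _ (fun p : (TW × TW) × TW => p.1.1 * p.1.2 * p.2) _) y
  rw [val_pushLaw, val_pushLaw]
  refine sum_le_sum_of_subset_of_nonneg (filter_subset_filter _ fun p hp => ?_)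
    fun p _ _ => mul_nonneg (mul_nonneg (hR _) (hM _)) (hT _)
  exact mem_product.2 ⟨mem_product.2 ⟨mem_union_right _ (mem_image_of_mem _ hp),
    mem_union_right _ (mem_image_of_mem _ hp)⟩, mem_union_right _ (mem_image_of_mem _ hp)⟩

theorem sum_pairs_interp {ι : Type*} (I : Finset ι) {v z w : ι → ℝ} (hw : ∀ i ∈ I, 0 ≤ w i)
    (hv : ∀ i ∈ I, |v i| ≤ z i) (hd : ∀ i ∈ I, w i = 0 → v i = 0) :
    ∑ i ∈ I, v i ^ 2 / w i ≤ (∑ i ∈ I, |v i|) ^ ((2 : ℝ) / 3) *
      (∑ i ∈ I, z i ^ 4 / w i ^ 3) ^ ((1 : ℝ) / 3) := by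
  set N := ∑ i ∈ I, v i ^ 2 / w i
  set B := ∑ i ∈ I, |v i| ^ 3 / w i ^ 2
  set Q := ∑ i ∈ I, z i ^ 4 / w i ^ 3
  have hN : 0 ≤ N := sum_nonneg fun i hi => div_nonneg (sq_nonneg _) (hw i hi)
  have hl : 0 ≤ ∑ i ∈ I, |v i| := sum_nonneg fun i _ => abs_nonneg _
  have h4 : ∀ i ∈ I, v i ^ 4 / w i ^ 3 ≤ z i ^ 4 / w i ^ 3 := fun i hi => by
    refine div_le_div_of_nonneg_right ?_ (pow_nonneg (hw i hi) 3)
    calc v i ^ 4 = |v i| ^ 4 := (Even.pow_abs (by decide) _).symm
      _ ≤ z i ^ 4 := pow_le_pow_left₀ (abs_nonneg _) (hv i hi) 4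
  have hQ : 0 ≤ Q := sum_nonneg fun i hi =>
    div_nonneg (Even.pow_nonneg (by decide) _) (pow_nonneg (hw i hi) 3)
  have h1 : N ^ 2 ≤ (∑ i ∈ I, |v i|) * B := by
    refine sum_sq_le_sum_mul_sum_of_sq_le_mul _ (fun i _ => abs_nonneg _) (fun i _ => ?_)
      fun i hi => le_of_eq ?_
    · exact div_nonneg (pow_nonneg (abs_nonneg _) 3) (sq_nonneg _)
    · rcases eq_or_ne (w i) 0 with h0 | h0
      · simp [h0, hd i hi h0]
      · rw [← sq_abs (v i)]
        field_simp
  have h2 : B ^ 2 ≤ N * Q := by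
    refine (sum_sq_le_sum_mul_sum_of_sq_le_mul _ (g := fun i => v i ^ 4 / w i ^ 3)
      (fun i hi => div_nonneg (sq_nonneg _) (hw i hi)) (fun i hi => div_nonneg
        (Even.pow_nonneg (by decide) _) (pow_nonneg (hw i hi) 3)) fun i hi => le_of_eq ?_).trans
      (mul_le_mul_of_nonneg_left (sum_le_sum h4) hN)
    rcases eq_or_ne (w i) 0 with h0 | h0
    · simp [h0, hd i hi h0]
    · rw [div_pow, ← pow_mul, show 3 * 2 = 6 from rfl, Even.pow_abs (by decide)]
      field_simp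
  have h3 : N ^ 3 ≤ (∑ i ∈ I, |v i|) ^ 2 * Q := by
    rcases hN.eq_or_lt with h0 | h0
    · rw [← h0]; simp only [ne_eq, OfNat.ofNat_ne_zero, not_false_eq_true, zero_pow]; positivity
    · refine le_of_mul_le_mul_left ?_ h0
      have h5 := pow_le_pow_left₀ (sq_nonneg _) h1 2
      have h6 := mul_le_mul_of_nonneg_left h2 (sq_nonneg (∑ i ∈ I, |v i|))
      nlinarith
  calc N = (N ^ 3) ^ ((3 : ℕ) : ℝ)⁻¹ := (Real.pow_rpow_inv_natCast hN (by norm_num)).symm
    _ ≤ ((∑ i ∈ I, |v i|) ^ 2 * Q) ^ ((3 : ℕ) : ℝ)⁻¹ :=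
        Real.rpow_le_rpow (pow_nonneg hN 3) h3 (by norm_num)
    _ = _ := by
      rw [Real.mul_rpow (sq_nonneg _) hQ, ← Real.rpow_natCast, ← Real.rpow_mul hl]
      norm_num

end Push

/-- Joint change of the two sides of a middle factor, with two decompositions of the reference. -/
theorem nsq_sandwich {L₀ R₀ L₁ R₁ h RL₀ RR₀ RL₁ RR₁ m₀ m₁ X : Law}
    (hL₀ : IsProb L₀) (hR₀ : IsProb R₀) (hL₁ : IsProb L₁) (hR₁ : IsProb R₁)
    (hRL₀ : IsProb RL₀) (hRR₀ : IsProb RR₀) (hRL₁ : IsProb RL₁) (hRR₁ : IsProb RR₁)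
    (hm₀ : IsProb m₀) (hm₁ : IsProb m₁) (d₁ : Dom L₀ RL₀) (d₂ : Dom R₀ RR₀) (d₃ : Dom L₁ RL₁)
    (d₄ : Dom R₁ RR₁) (d₅ : Dom h m₀) (d₆ : Dom h m₁)
    (e₀ : RL₀ * m₀ * RR₀ = X) (e₁ : RL₁ * m₁ * RR₁ = X) :
    nsq (L₀ * h * R₀ - L₁ * h * R₁) X ≤
      16 * (l1 (L₀ - L₁) + l1 (R₀ - R₁)) ^ ((2 : ℝ) / 3) *
        (nq L₀ RL₀ * nq R₀ RR₀ + nq L₁ RL₁ * nq R₁ RR₁) ^ ((1 : ℝ) / 3) *
        (nsq h m₀ + nsq h m₁) := by
  set A := supp L₀ ∪ supp L₁
  set C := supp R₀ ∪ supp R₁
  set I := (A ×ˢ supp h) ×ˢ C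
  set J := A ×ˢ C
  set z₀ : TW × TW → ℝ := fun p => val L₀ p.1 * val R₀ p.2
  set z₁ : TW × TW → ℝ := fun p => val L₁ p.1 * val R₁ p.2
  have hz₀ : ∀ p, 0 ≤ z₀ p := fun p => mul_nonneg (hL₀.1 _) (hR₀.1 _)
  have hz₁ : ∀ p, 0 ≤ z₁ p := fun p => mul_nonneg (hL₁.1 _) (hR₁.1 _)
  set u : TW × TW → ℝ := fun p => max (z₀ p - z₁ p) 0
  set v : TW × TW → ℝ := fun p => max (z₁ p - z₀ p) 0
  set φ : (TW × TW) × TW → TW := fun p => p.1.1 * p.1.2 * p.2
  set xu : (TW × TW) × TW → ℝ := fun p => u (p.1.1, p.2) * val h p.1.2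
  set xv : (TW × TW) × TW → ℝ := fun p => v (p.1.1, p.2) * val h p.1.2
  have e : L₀ * h * R₀ - L₁ * h * R₁ = pushLaw I φ xu + (-1 : ℝ) • pushLaw I φ xv := by
    rw [mul_mul_eq_sum L₀ h R₀ (S := A) (T := supp h) (U := C) subset_union_left subset_rfl
      subset_union_left, mul_mul_eq_sum L₁ h R₁ (S := A) (T := supp h) (U := C) subset_union_right
      subset_rfl subset_union_right, neg_one_smul, ← sub_eq_add_neg, pushLaw, pushLaw,
      ← sum_sub_distrib, ← sum_sub_distrib]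
    refine sum_congr rfl fun p _ => ?_
    rw [← MonoidAlgebra.single_sub, ← MonoidAlgebra.single_sub]
    congr 1
    simp only [xu, xv, u, v, z₀, z₁]
    rcases le_total (val L₀ p.1.1 * val R₀ p.2) (val L₁ p.1.1 * val R₁ p.2) with hh | hh
    · rw [max_eq_right (by linarith), max_eq_left (by linarith)]; ring
    · rw [max_eq_left (by linarith), max_eq_right (by linarith)]; ring
  have hu : ∀ p, |u p| ≤ z₀ p := fun p => by
    rw [abs_of_nonneg (le_max_right _ _)]
    exact max_le (by linarith [hz₁ p]) (hz₀ p)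
  have hv : ∀ p, |v p| ≤ z₁ p := fun p => by
    rw [abs_of_nonneg (le_max_right _ _)]
    exact max_le (by linarith [hz₀ p]) (hz₁ p)
  have main : ∀ (L R RL RR m : Law) (w : TW × TW → ℝ), IsProb L → IsProb R → IsProb RL →
      IsProb RR → IsProb m → Dom L RL → Dom R RR → Dom h m → supp L ⊆ A → supp R ⊆ C →
      RL * m * RR = X → (∀ p, |w p| ≤ val L p.1 * val R p.2) →
      nsq (pushLaw I φ fun p => w (p.1.1, p.2) * val h p.1.2) X ≤
        (∑ p ∈ J, |w p|) ^ ((2 : ℝ) / 3) * (nq L RL * nq R RR) ^ ((1 : ℝ) / 3) * nsq h m := by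
    intro L R RL RR m w hL hR hRL hRR hm dL dR dh sL sR eX hw
    have hwd : ∀ p : TW × TW, val RL p.1 * val RR p.2 = 0 → w p = 0 := fun p hp => by
      refine abs_nonpos_iff.1 ((hw p).trans (le_of_eq ?_))
      rcases mul_eq_zero.1 hp with h' | h'
      · rw [dL _ h', zero_mul]
      · rw [dR _ h', mul_zero]
    refine (nsq_pushLaw I φ (w := fun p => val RL p.1.1 * val m p.1.2 * val RR p.2) ?_ ?_
      (fun y => eX ▸ val_triple_le hRL.1 hm.1 hRR.1 I y)).trans ?_
    · intro p _ hp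
      rcases mul_eq_zero.1 hp with h' | h'
      · rcases mul_eq_zero.1 h' with h'' | h''
        · rw [hwd (p.1.1, p.2) (by rw [h'', zero_mul]), zero_mul]
        · rw [dh _ h'', mul_zero]
      · rw [hwd (p.1.1, p.2) (by rw [h', mul_zero]), zero_mul]
    · exact fun p _ => mul_nonneg (mul_nonneg (hRL.1 _) (hm.1 _)) (hRR.1 _)
    have eI : ∑ p ∈ I, (w (p.1.1, p.2) * val h p.1.2) ^ 2 /
        (val RL p.1.1 * val m p.1.2 * val RR p.2) =
        (∑ p ∈ J, w p ^ 2 / (val RL p.1 * val RR p.2)) * nsq h m := by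
      simp only [I, J, nsq, sum_product, sum_mul]
      refine sum_congr rfl fun a _ => ?_
      rw [sum_comm]
      refine sum_congr rfl fun c _ => ?_
      rw [mul_sum]
      refine sum_congr rfl fun b _ => ?_
      rw [mul_pow, ← mul_div_mul_comm]
      congr 1
      ring
    rw [eI]
    refine mul_le_mul_of_nonneg_right ?_ (nsq_nonneg hm.1)
    refine (sum_pairs_interp J (z := fun p => val L p.1 * val R p.2)
      (fun p _ => mul_nonneg (hRL.1 _) (hRR.1 _)) (fun p _ => hw p)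
      fun p _ hp => hwd p hp).trans (le_of_eq ?_)
    congr 2
    rw [nq, nq, sum_supp_eq L sL (fun y t => t ^ 4 / val RL y ^ 3) (fun y => by simp),
      sum_supp_eq R sR (fun y t => t ^ 4 / val RR y ^ 3) (fun y => by simp), sum_mul_sum,
      sum_product]
    simp only [mul_pow, mul_div_mul_comm]
  set δ := l1 (L₀ - L₁) + l1 (R₀ - R₁)
  have hδ : ∑ p ∈ J, |z₀ p - z₁ p| ≤ δ := by
    have sA : supp (L₀ - L₁) ⊆ A := fun y hy => by
      by_contra hc
      simp only [A, mem_union, not_or] at hc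
      exact mem_supp.1 hy (by rw [val_sub, val_eq_zero hc.1, val_eq_zero hc.2, sub_zero])
    have sC : supp (R₀ - R₁) ⊆ C := fun y hy => by
      by_contra hc
      simp only [C, mem_union, not_or] at hc
      exact mem_supp.1 hy (by rw [val_sub, val_eq_zero hc.1, val_eq_zero hc.2, sub_zero])
    have eA : ∑ a ∈ A, val L₁ a = 1 := by
      rw [← hL₁.2]; exact (sum_supp_eq L₁ subset_union_right (fun _ t => t) fun _ => rfl).symm
    have eC : ∑ c ∈ C, val R₀ c = 1 := by
      rw [← hR₀.2]; exact (sum_supp_eq R₀ subset_union_left (fun _ t => t) fun _ => rfl).symm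
    have hpt : ∀ p : TW × TW, |z₀ p - z₁ p| ≤
        |val (L₀ - L₁) p.1| * val R₀ p.2 + val L₁ p.1 * |val (R₀ - R₁) p.2| := fun p => by
      have e' : z₀ p - z₁ p =
          val (L₀ - L₁) p.1 * val R₀ p.2 + val L₁ p.1 * val (R₀ - R₁) p.2 := by
        simp only [z₀, z₁, val_sub]; ring
      rw [e']
      refine (abs_add_le _ _).trans (le_of_eq ?_)
      rw [abs_mul, abs_mul, abs_of_nonneg (hR₀.1 _), abs_of_nonneg (hL₁.1 _)]
    refine (sum_le_sum fun p _ => hpt p).trans (le_of_eq ?_)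
    rw [sum_add_distrib, sum_product, sum_product]
    simp only [← mul_sum, eC, mul_one, ← sum_mul, eA, one_mul]
    simp only [δ, l1]
    rw [sum_supp_eq _ sA (fun _ t => |t|) fun _ => abs_zero,
      sum_supp_eq _ sC (fun _ t => |t|) fun _ => abs_zero]
  set P := (nq L₀ RL₀ * nq R₀ RR₀ + nq L₁ RL₁ * nq R₁ RR₁) ^ ((1 : ℝ) / 3)
  have hδ0 : 0 ≤ δ := add_nonneg (l1_nonneg _) (l1_nonneg _)
  have q₀ := mul_nonneg (nq_nonneg (X := L₀) hRL₀.1) (nq_nonneg (X := R₀) hRR₀.1)
  have q₁ := mul_nonneg (nq_nonneg (X := L₁) hRL₁.1) (nq_nonneg (X := R₁) hRR₁.1)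
  have hP : 0 ≤ P := Real.rpow_nonneg (add_nonneg q₀ q₁) _
  have hu1 : (∑ p ∈ J, |u p|) ^ ((2 : ℝ) / 3) ≤ δ ^ ((2 : ℝ) / 3) :=
    Real.rpow_le_rpow (sum_nonneg fun _ _ => abs_nonneg _) ((sum_le_sum fun p _ => by
      rw [abs_of_nonneg (le_max_right _ _)]
      exact max_le (le_abs_self _) (abs_nonneg _)).trans hδ) (by norm_num)
  have hv1 : (∑ p ∈ J, |v p|) ^ ((2 : ℝ) / 3) ≤ δ ^ ((2 : ℝ) / 3) :=
    Real.rpow_le_rpow (sum_nonneg fun _ _ => abs_nonneg _) ((sum_le_sum fun p _ => by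
      rw [abs_of_nonneg (le_max_right _ _)]
      exact max_le ((le_abs_self _).trans (abs_sub_comm _ _).le) (abs_nonneg _)).trans hδ)
      (by norm_num)
  have m0 := main L₀ R₀ RL₀ RR₀ m₀ u hL₀ hR₀ hRL₀ hRR₀ hm₀ d₁ d₂ d₅ subset_union_left
    subset_union_left e₀ hu
  have m1 := main L₁ R₁ RL₁ RR₁ m₁ v hL₁ hR₁ hRL₁ hRR₁ hm₁ d₃ d₄ d₆ subset_union_right
    subset_union_right e₁ hv
  have k0 : nsq (pushLaw I φ xu) X ≤ δ ^ ((2 : ℝ) / 3) * P * nsq h m₀ :=
    m0.trans (mul_le_mul_of_nonneg_right (mul_le_mul hu1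
      (Real.rpow_le_rpow q₀ (le_add_of_nonneg_right q₁) (by norm_num)) (Real.rpow_nonneg q₀ _)
      (Real.rpow_nonneg hδ0 _)) (nsq_nonneg hm₀.1))
  have k1 : nsq (pushLaw I φ xv) X ≤ δ ^ ((2 : ℝ) / 3) * P * nsq h m₁ :=
    m1.trans (mul_le_mul_of_nonneg_right (mul_le_mul hv1
      (Real.rpow_le_rpow q₁ (le_add_of_nonneg_left q₀) (by norm_num)) (Real.rpow_nonneg q₁ _)
      (Real.rpow_nonneg hδ0 _)) (nsq_nonneg hm₁.1))
  have hX : Pos X := e₀ ▸ pos_mul (pos_mul hRL₀.1 hm₀.1) hRR₀.1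
  rw [e]
  refine (nsq_add hX).trans ?_
  rw [nsq_smul]
  have c0 := mul_nonneg (mul_nonneg (Real.rpow_nonneg hδ0 ((2 : ℝ) / 3)) hP)
    (add_nonneg (nsq_nonneg (X := h) hm₀.1) (nsq_nonneg (X := h) hm₁.1))
  nlinarith

end Vale.Agent.P321
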