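import Mathlib

/-!
# P321: binomial weights

Sup bounds, moments and a bound on the product of two binomial weights by a binomial weight of the
total times a fair binomial weight of the split.
-/

namespace Vale.Agent.P321

open Finset

/-- Binomial weight. -/
noncomputable def bin (n : ℕ) (x : ℝ) (k : ℕ) : ℝ := (n.choose k : ℝ) * x ^ k * (1 - x) ^ (n - k)

/-- Binomial expectation. -/
noncomputable def binE (n : ℕ) (x : ℝ) (f : ℕ → ℝ) : ℝ :=
  ∑ k ∈ range (n + 1), bin n x k * f k

variable {n : ℕ} {x : ℝ}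

theorem bin_nonneg (hx0 : 0 ≤ x) (hx1 : x ≤ 1) (k : ℕ) : 0 ≤ bin n x k :=
  mul_nonneg (mul_nonneg (Nat.cast_nonneg _) (pow_nonneg hx0 _)) (pow_nonneg (by linarith) _)

theorem bin_eq_zero {k : ℕ} (h : n < k) : bin n x k = 0 := by
  simp [bin, Nat.choose_eq_zero_of_lt h]

theorem binE_eq_sum {m : ℕ} (h : n ≤ m) (f : ℕ → ℝ) :
    binE n x f = ∑ k ∈ range (m + 1), bin n x k * f k := by
  refine sum_subset (range_mono (by omega)) fun k _ hk => ?_
  rw [bin_eq_zero (by simpa using hk), zero_mul]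

theorem bin_succ_succ (n : ℕ) (x : ℝ) (k : ℕ) :
    bin (n + 1) x (k + 1) = x * bin n x k + (1 - x) * bin n x (k + 1) := by
  rcases Nat.lt_or_ge n (k + 1) with h | h
  · rw [bin_eq_zero (k := k + 1) h]
    unfold bin
    rw [Nat.choose_succ_succ', Nat.choose_eq_zero_of_lt h]
    simp [Nat.succ_sub_succ]
    ring
  · unfold bin
    rw [Nat.choose_succ_succ', Nat.succ_sub_succ, show n - k = n - (k + 1) + 1 by omega]
    push_cast
    ring

theorem bin_succ_zero (n : ℕ) (x : ℝ) : bin (n + 1) x 0 = (1 - x) * bin n x 0 := by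
  simp [bin, pow_succ, mul_comm]

theorem binE_succ (n : ℕ) (x : ℝ) (f : ℕ → ℝ) :
    binE (n + 1) x f = x * binE n x (fun k => f (k + 1)) + (1 - x) * binE n x f := by
  have h1 : binE (n + 1) x f =
      ∑ k ∈ range (n + 1), bin (n + 1) x (k + 1) * f (k + 1) + bin (n + 1) x 0 * f 0 := by
    rw [binE, sum_range_succ']
  have h2 : binE n x f =
      ∑ k ∈ range (n + 1), bin n x (k + 1) * f (k + 1) + bin n x 0 * f 0 := by
    rw [binE_eq_sum (Nat.le_succ n), sum_range_succ']
  rw [h1, h2, binE, mul_add, mul_sum, mul_sum, bin_succ_zero]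
  simp only [bin_succ_succ, add_mul, sum_add_distrib]
  simp only [mul_assoc]
  ring

theorem binE_zero (x : ℝ) (f : ℕ → ℝ) : binE 0 x f = f 0 := by
  simp [binE, bin]

theorem binE_congr {f g : ℕ → ℝ} (h : ∀ k ≤ n, f k = g k) : binE n x f = binE n x g :=
  sum_congr rfl fun k hk => by rw [h k (Nat.lt_succ_iff.1 (mem_range.1 hk))]

theorem binE_linear (a b : ℝ) (f g : ℕ → ℝ) :
    binE n x (fun k => a * f k + b * g k) = a * binE n x f + b * binE n x g := by
  simp only [binE, mul_add, sum_add_distrib, mul_sum]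
  congr 1 <;> exact sum_congr rfl fun k _ => by ring

theorem binE_mono (hx0 : 0 ≤ x) (hx1 : x ≤ 1) {f g : ℕ → ℝ} (h : ∀ k ≤ n, f k ≤ g k) :
    binE n x f ≤ binE n x g :=
  sum_le_sum fun k hk =>
    mul_le_mul_of_nonneg_left (h k (Nat.lt_succ_iff.1 (mem_range.1 hk))) (bin_nonneg hx0 hx1 k)

theorem binE_const (n : ℕ) (x c : ℝ) : binE n x (fun _ => c) = c := by
  induction n with
  | zero => rw [binE_zero]
  | succ n ih => rw [binE_succ, ih]; ring

theorem binE_add (m n : ℕ) (x : ℝ) (f : ℕ → ℝ) :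
    binE (m + n) x f = binE m x fun i => binE n x fun j => f (i + j) := by
  induction m generalizing f with
  | zero => simp [binE_zero]
  | succ m ih =>
    rw [show m + 1 + n = m + n + 1 by omega, binE_succ, binE_succ, ih, ih]
    simp only [show ∀ i j : ℕ, i + 1 + j = i + j + 1 by intros; omega]

theorem binE_indicator (k : ℕ) :
    binE n x (fun i => if i = k then 1 else 0) = bin n x k := by
  rcases Nat.lt_or_ge n k with h | h
  · rw [bin_eq_zero h]
    exact sum_eq_zero fun i hi => by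
      simp only
      rw [if_neg (by rw [mem_range] at hi; omega), mul_zero]
  · simp only [binE, mul_ite, mul_one, mul_zero, sum_ite_eq', mem_range]
    rw [if_pos (by omega)]

theorem bin_conv (m n N : ℕ) (x : ℝ) :
    bin (m + n) x N = ∑ i ∈ range (N + 1), bin m x i * bin n x (N - i) := by
  rw [← binE_indicator, binE_add]
  have : ∀ i, (binE n x fun j => if i + j = N then 1 else 0) =
      if i ≤ N then bin n x (N - i) else 0 := by
    intro i
    by_cases h : i ≤ N
    · rw [if_pos h, ← binE_indicator]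
      refine binE_congr fun j _ => ?_
      congr 1
      exact propext ⟨fun e => by omega, fun e => by omega⟩
    · rw [if_neg h]
      exact sum_eq_zero fun j _ => by simp only; rw [if_neg (by omega), mul_zero]
  simp only [this]
  rw [binE_eq_sum (m := m + N) (by omega)]
  simp only [mul_ite, mul_zero, ← sum_filter]
  refine sum_congr ?_ fun _ _ => rfl
  ext i
  simp
  omega

theorem bin_le_one (hx0 : 0 ≤ x) (hx1 : x ≤ 1) (k : ℕ) : bin n x k ≤ 1 := by
  rw [← binE_indicator]
  refine (binE_mono hx0 hx1 (g := fun _ => 1) fun i _ => ?_).trans_eq (binE_const _ _ _)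
  split_ifs <;> norm_num

theorem sum_bin_le (hx0 : 0 ≤ x) (hx1 : x ≤ 1) (s : Finset ℕ) : ∑ k ∈ s, bin n x k ≤ 1 := by
  obtain ⟨m, hm⟩ : ∃ m, s ⊆ range (m + 1) := ⟨s.sup id, fun k hk => mem_range.2
    (Nat.lt_succ_iff.2 (le_sup (f := id) hk))⟩
  calc ∑ k ∈ s, bin n x k ≤ ∑ k ∈ range (max m n + 1), bin n x k :=
        sum_le_sum_of_subset_of_nonneg (hm.trans (range_mono (by omega)))
          fun k _ _ => bin_nonneg hx0 hx1 k
    _ = binE n x fun _ => 1 := by rw [binE_eq_sum (le_max_right m n)]; simp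
    _ = 1 := binE_const _ _ _

theorem bin_symm {k : ℕ} (hk : k ≤ n) : bin n x k = bin n (1 - x) (n - k) := by
  rw [bin, bin, Nat.choose_symm hk, Nat.sub_sub_self hk, sub_sub_cancel]
  ring

/-! ### Moments -/

theorem binE_id (n : ℕ) (x : ℝ) : binE n x (fun k => (k : ℝ)) = n * x := by
  induction n with
  | zero => simp [binE_zero]
  | succ n ih =>
    rw [binE_succ, ih, binE_congr (g := fun k => (1 : ℝ) * k + 1 * 1) (fun k _ => by push_cast; ring),
      binE_linear, ih, binE_const]
    push_cast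
    ring

theorem binE_var (n : ℕ) (x : ℝ) :
    binE n x (fun k => ((k : ℝ) - n * x) ^ 2) = n * x * (1 - x) := by
  induction n with
  | zero => simp [binE_zero]
  | succ n ih =>
    have h0 : binE n x (fun k => (k : ℝ) - n * x) = 0 := by
      rw [binE_congr (g := fun k => (1 : ℝ) * k + (-(n * x)) * 1) (fun k _ => by ring),
        binE_linear, binE_id, binE_const]
      ring
    have h : ∀ c : ℝ, binE n x (fun k => ((k : ℝ) - n * x + c) ^ 2) = n * x * (1 - x) + c ^ 2 := by
      intro c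
      rw [binE_congr (g := fun k => 1 * ((k : ℝ) - n * x) ^ 2 +
        1 * ((2 * c) * ((k : ℝ) - n * x) + c ^ 2 * 1)) (fun k _ => by ring), binE_linear,
        binE_linear, ih, h0, binE_const]
      ring
    rw [binE_succ,
      binE_congr (g := fun k => ((k : ℝ) - n * x + (1 - x)) ^ 2) (fun k _ => by push_cast; ring),
      h, binE_congr (f := fun k => ((k : ℝ) - (n + 1 : ℕ) * x) ^ 2)
        (g := fun k => ((k : ℝ) - n * x + -x) ^ 2) (fun k _ => by push_cast; ring), h]
    push_cast
    ring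

theorem binE_fourth (n : ℕ) :
    binE n (1 / 2) (fun k => (2 * (k : ℝ) - n) ^ 4) ≤ 3 * (n : ℝ) ^ 2 := by
  induction n with
  | zero => simp [binE_zero]
  | succ n ih =>
    have h2 : binE n (1 / 2) (fun k => (2 * (k : ℝ) - n) ^ 2) = n := by
      rw [binE_congr (g := fun k => (4 : ℝ) * ((k : ℝ) - n * (1 / 2)) ^ 2 + 0 * 1)
        (fun k _ => by ring), binE_linear, binE_var]
      ring
    rw [binE_succ]
    have : (1 / 2 : ℝ) * binE n (1 / 2) (fun k => (2 * ((k + 1 : ℕ) : ℝ) - (n + 1 : ℕ)) ^ 4) +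
        (1 - 1 / 2) * binE n (1 / 2) (fun k => (2 * (k : ℝ) - (n + 1 : ℕ)) ^ 4) =
        binE n (1 / 2) (fun k => (2 * (k : ℝ) - n) ^ 4) +
          6 * binE n (1 / 2) (fun k => (2 * (k : ℝ) - n) ^ 2) + 1 := by
      rw [← binE_linear, binE_congr (g := fun k => 1 * (2 * (k : ℝ) - n) ^ 4 +
        1 * (6 * (2 * (k : ℝ) - n) ^ 2 + 1 * 1)) (fun k _ => by push_cast; ring), binE_linear,
        binE_linear, binE_const]
      ring
    rw [this, h2]
    push_cast
    nlinarith

theorem binE_half_sq (n : ℕ) : binE n (1 / 2) (fun k => (2 * (k : ℝ) - n) ^ 2) = n := by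
  rw [binE_congr (g := fun k => (4 : ℝ) * ((k : ℝ) - n * (1 / 2)) ^ 2 + 0 * 1)
    (fun k _ => by ring), binE_linear, binE_var]
  ring

theorem binE_exp (n : ℕ) (x t : ℝ) :
    binE n x (fun k => Real.exp (t * k)) = (x * Real.exp t + (1 - x)) ^ n := by
  induction n with
  | zero => simp [binE_zero]
  | succ n ih =>
    rw [binE_succ, binE_congr (g := fun k => Real.exp t * Real.exp (t * k) + 0 * 1)
      (fun k _ => by rw [← Real.exp_add, zero_mul, add_zero]; push_cast; ring_nf), binE_linear, ih]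
    ring

/-! ### Sup bounds -/

theorem centralBinom_bounds (m : ℕ) :
    m.centralBinom ^ 2 * (2 * m + 1) ≤ 16 ^ m ∧ (1 ≤ m → 16 ^ m ≤ m.centralBinom ^ 2 * (4 * m)) := by
  induction m with
  | zero => simp
  | succ m ih =>
    have h : (m + 1) * (m + 1).centralBinom = 2 * (2 * m + 1) * m.centralBinom :=
      Nat.succ_mul_centralBinom_succ m
    have hpos : 0 < (m + 1) ^ 2 := by positivity
    refine ⟨Nat.le_of_mul_le_mul_left ?_ hpos, fun _ => ?_⟩
    · calc (m + 1) ^ 2 * ((m + 1).centralBinom ^ 2 * (2 * (m + 1) + 1))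
          = ((m + 1) * (m + 1).centralBinom) ^ 2 * (2 * m + 3) := by ring
        _ = (m.centralBinom ^ 2 * (2 * m + 1)) * (4 * ((2 * m + 1) * (2 * m + 3))) := by
          rw [h]; ring
        _ ≤ 16 ^ m * (4 * ((2 * m + 1) * (2 * m + 3))) := Nat.mul_le_mul_right _ ih.1
        _ ≤ 16 ^ m * (16 * (m + 1) ^ 2) := Nat.mul_le_mul_left _ (by nlinarith)
        _ = _ := by ring
    · rcases Nat.eq_zero_or_pos m with rfl | hm
      · decide
      · refine Nat.le_of_mul_le_mul_left ?_ hpos
        calc (m + 1) ^ 2 * 16 ^ (m + 1) = 16 ^ m * (16 * (m + 1) ^ 2) := by ring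
          _ ≤ m.centralBinom ^ 2 * (4 * m) * (16 * (m + 1) ^ 2) :=
              Nat.mul_le_mul_right _ (ih.2 hm)
          _ = m.centralBinom ^ 2 * (4 * (m * (m + 1))) * (16 * (m + 1)) := by ring
          _ ≤ m.centralBinom ^ 2 * (2 * m + 1) ^ 2 * (16 * (m + 1)) :=
              Nat.mul_le_mul_right _ (Nat.mul_le_mul_left _ (by nlinarith))
          _ = ((m + 1) * (m + 1).centralBinom) ^ 2 * (4 * (m + 1)) := by rw [h]; ring
          _ = _ := by ring

theorem choose_sq_le (n k : ℕ) : n.choose k ^ 2 * (n + 1) ≤ 2 * 4 ^ n := by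
  refine (Nat.mul_le_mul_right _ (Nat.pow_le_pow_left (Nat.choose_le_middle k n) 2)).trans ?_
  rcases Nat.even_or_odd' n with ⟨m, rfl | rfl⟩
  · rw [show 2 * m / 2 = m by omega, ← Nat.centralBinom_eq_two_mul_choose, pow_mul]
    have := (centralBinom_bounds m).1
    norm_num
    omega
  · have e : (m + 1).centralBinom = 2 * (2 * m + 1).choose m := by
      rw [Nat.centralBinom_eq_two_mul_choose, show 2 * (m + 1) = 2 * m + 1 + 1 by omega,
        Nat.choose_succ_succ', Nat.choose_symm_half]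
      omega
    have h := (centralBinom_bounds (m + 1)).1
    rw [e] at h
    rw [show (2 * m + 1) / 2 = m by omega]
    have : (16 : ℕ) ^ (m + 1) = 4 * 4 ^ (2 * m + 1) := by
      rw [show (16 : ℕ) = 4 ^ 2 by norm_num, ← pow_mul]; ring
    rw [this] at h
    nlinarith

theorem bin_half_eq (n k : ℕ) (hk : k ≤ n) : bin n (1 / 2) k = n.choose k / 2 ^ n := by
  rw [bin, show (1 : ℝ) - 1 / 2 = 1 / 2 by norm_num, mul_assoc, ← pow_add,
    Nat.add_sub_cancel' hk, one_div_pow, mul_one_div]

theorem bin_half_le (n k : ℕ) : bin n (1 / 2) k ≤ 2 / Real.sqrt (n + 1) := by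
  rcases Nat.lt_or_ge n k with h | h
  · rw [bin_eq_zero h]; positivity
  rw [bin_half_eq n k h, div_le_div_iff₀ (by positivity) (by positivity)]
  refine pow_le_pow_iff_left₀ (by positivity) (by positivity) two_ne_zero |>.1 ?_
  rw [mul_pow, mul_pow, Real.sq_sqrt (by positivity), ← pow_mul, pow_mul' (2 : ℝ)]
  have := choose_sq_le n k
  have : ((n.choose k : ℝ)) ^ 2 * (n + 1) ≤ 2 * 4 ^ n := by exact_mod_cast this
  norm_num
  have : (0 : ℝ) ≤ 4 ^ n := by positivity
  linarith

theorem bin_thin (n : ℕ) (x y : ℝ) (k : ℕ) :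
    bin n (x * y) k = binE n x fun j => bin j y k := by
  induction n generalizing k with
  | zero => rw [binE_zero]; rcases k with _ | k <;> simp [bin]
  | succ n ih =>
    rw [binE_succ]
    rcases k with _ | k
    · rw [bin_succ_zero, ih, binE_congr (f := fun j => bin (j + 1) y 0)
        (g := fun j => (1 - y) * bin j y 0 + 0 * 1) (fun j _ => by rw [bin_succ_zero]; ring),
        binE_linear]
      ring
    · rw [bin_succ_succ, ih, ih, binE_congr (f := fun j => bin (j + 1) y (k + 1))
        (g := fun j => y * bin j y k + (1 - y) * bin j y (k + 1))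
        (fun j _ => bin_succ_succ j y k), binE_linear]
      ring

theorem binE_inv_succ (hx0 : 0 < x) (hx1 : x ≤ 1) :
    binE n x (fun k => 1 / ((k : ℝ) + 1)) ≤ 1 / (((n : ℝ) + 1) * x) := by
  have h : ∀ k, bin n x k * (1 / ((k : ℝ) + 1)) =
      bin (n + 1) x (k + 1) * (1 / (((n : ℝ) + 1) * x)) := by
    intro k
    have e : ((n : ℝ) + 1) * n.choose k = (n + 1).choose (k + 1) * ((k : ℝ) + 1) := by
      exact_mod_cast Nat.add_one_mul_choose_eq n k
    unfold bin
    rw [Nat.succ_sub_succ, pow_succ]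
    field_simp
    linear_combination ((1 - x) ^ (n - k)) * e
  rw [binE, sum_congr rfl fun k _ => h k, ← sum_mul]
  refine mul_le_of_le_one_left (by positivity) ?_
  calc ∑ k ∈ range (n + 1), bin (n + 1) x (k + 1)
      = ∑ k ∈ (range (n + 1)).image (· + 1), bin (n + 1) x k := by
        rw [sum_image fun a _ b _ h => by simpa using h]
    _ ≤ 1 := sum_bin_le hx0.le hx1 _

theorem bin_le_sqrt_half (hx0 : 0 < x) (hx1 : x ≤ 1 / 2) (k : ℕ) :
    bin n x k ≤ 2 / Real.sqrt (((n : ℝ) + 1) * x) := by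
  set a := 1 / Real.sqrt (((n : ℝ) + 1) * x) with ha
  have hapos : 0 < a := by positivity
  rw [show x = 2 * x * (1 / 2) by ring, bin_thin, show 2 * x * (1 / 2) = x by ring]
  refine (binE_mono (by linarith) (by linarith) (g := fun j => a * 1 + 1 / a * (1 / ((j : ℝ) + 1)))
    fun j _ => ?_).trans ?_
  · refine (bin_half_le j k).trans ?_
    have hs : 0 < Real.sqrt ((j : ℝ) + 1) := Real.sqrt_pos.2 (by positivity)
    have hq := Real.sq_sqrt (show (0 : ℝ) ≤ (j : ℝ) + 1 by positivity)
    have key : 2 * (Real.sqrt ((j : ℝ) + 1))⁻¹ ≤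
        a + a⁻¹ * (Real.sqrt ((j : ℝ) + 1))⁻¹ ^ 2 := by
      have := sq_nonneg (a - (Real.sqrt ((j : ℝ) + 1))⁻¹)
      rw [inv_mul_eq_div, ← sub_nonneg]
      have h2 : a + (Real.sqrt ((j : ℝ) + 1))⁻¹ ^ 2 / a - 2 * (Real.sqrt ((j : ℝ) + 1))⁻¹ =
          (a - (Real.sqrt ((j : ℝ) + 1))⁻¹) ^ 2 / a := by field_simp; ring
      rw [h2]
      positivity
    rw [inv_pow, hq] at key
    simpa [div_eq_mul_inv] using key
  · rw [binE_linear, binE_const]
    have h2 : binE n (2 * x) (fun k => 1 / ((k : ℝ) + 1)) ≤ 1 / (((n : ℝ) + 1) * x) :=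
      (binE_inv_succ (by linarith) (by linarith)).trans
        (one_div_le_one_div_of_le (by positivity) (by nlinarith))
    have h3 : 1 / (((n : ℝ) + 1) * x) = a * a := by
      rw [ha, div_mul_div_comm, one_mul, Real.mul_self_sqrt (by positivity)]
    rw [h3] at h2
    calc a * 1 + 1 / a * _ ≤ a * 1 + 1 / a * (a * a) :=
          add_le_add le_rfl (mul_le_mul_of_nonneg_left h2 (by positivity))
      _ = 2 * a := by field_simp; ring
      _ = _ := by rw [ha, mul_one_div]

theorem bin_le_sqrt (hx0 : 0 < x) (hx1 : x < 1) (k : ℕ) :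
    bin n x k ≤ 2 / Real.sqrt (((n : ℝ) + 1) * min x (1 - x)) := by
  rcases le_total x (1 / 2) with h | h
  · rw [min_eq_left (by linarith)]
    exact bin_le_sqrt_half hx0 h k
  · rcases Nat.lt_or_ge n k with hk | hk
    · rw [bin_eq_zero hk]; positivity
    rw [min_eq_right (by linarith), bin_symm hk]
    exact bin_le_sqrt_half (by linarith) (by linarith) _

/-- The fair binomial weight times the squared imbalance is at most of order `√n`. -/
theorem bin_half_mul_sq (n k : ℕ) :
    bin n (1 / 2) k * (2 * (k : ℝ) - n) ^ 2 ≤ 16 * Real.sqrt (n + 1) := by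
  set a := n / 2 with ha
  set b := n - n / 2 with hb
  have hn : a + b = n := by omega
  have hbn : ∀ j : ℕ, 0 ≤ bin j (1 / 2) k := fun j => bin_nonneg (by norm_num) (by norm_num) k
  have h1 : bin n (1 / 2) k * (2 * (k : ℝ) - n) ^ 2 ≤
      2 * ∑ i ∈ range (k + 1), bin a (1 / 2) i * (2 * (i : ℝ) - a) ^ 2 * bin b (1 / 2) (k - i) +
      2 * ∑ i ∈ range (k + 1), bin a (1 / 2) i *
        (bin b (1 / 2) (k - i) * (2 * ((k - i : ℕ) : ℝ) - b) ^ 2) := by
    rw [← hn, bin_conv, sum_mul, mul_sum, mul_sum, ← sum_add_distrib]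
    refine sum_le_sum fun i hi => ?_
    have hik : i ≤ k := Nat.lt_succ_iff.1 (mem_range.1 hi)
    have hd : (2 * (k : ℝ) - ((a + b : ℕ) : ℝ)) ^ 2 ≤
        2 * (2 * (i : ℝ) - a) ^ 2 + 2 * (2 * ((k - i : ℕ) : ℝ) - b) ^ 2 := by
      rw [Nat.cast_sub hik]; push_cast
      nlinarith [sq_nonneg ((2 * (i : ℝ) - a) - (2 * ((k : ℝ) - i) - b))]
    have hw : 0 ≤ bin a (1 / 2) i * bin b (1 / 2) (k - i) :=
      mul_nonneg (bin_nonneg (by norm_num) (by norm_num) _) (bin_nonneg (by norm_num) (by norm_num) _)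
    nlinarith [mul_le_mul_of_nonneg_left hd hw]
  have hab : ∀ j : ℕ, j = a ∨ j = b → 2 / Real.sqrt ((j : ℝ) + 1) * (n : ℝ) ≤
      4 * Real.sqrt ((n : ℝ) + 1) := by
    intro j hj
    have h4 : ((n : ℝ) + 1) ≤ 4 * ((j : ℝ) + 1) := by
      have : n + 1 ≤ 4 * (j + 1) := by omega
      exact_mod_cast this
    have h5 : Real.sqrt ((n : ℝ) + 1) ≤ 2 * Real.sqrt ((j : ℝ) + 1) := by
      rw [Real.sqrt_le_iff]
      refine ⟨by positivity, ?_⟩
      rw [mul_pow, Real.sq_sqrt (by positivity)]; linarith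
    have hs : 0 < Real.sqrt ((j : ℝ) + 1) := Real.sqrt_pos.2 (by positivity)
    rw [div_mul_eq_mul_div, div_le_iff₀ hs]
    nlinarith [Real.mul_self_sqrt (show (0 : ℝ) ≤ (n : ℝ) + 1 by positivity),
      Real.sqrt_nonneg ((n : ℝ) + 1)]
  have hA : ∑ i ∈ range (k + 1), bin a (1 / 2) i * (2 * (i : ℝ) - a) ^ 2 * bin b (1 / 2) (k - i)
      ≤ 2 / Real.sqrt ((b : ℝ) + 1) * n := by
    calc _ ≤ ∑ i ∈ range (k + 1), bin a (1 / 2) i * (2 * (i : ℝ) - a) ^ 2 *
          (2 / Real.sqrt ((b : ℝ) + 1)) := sum_le_sum fun i _ => mul_le_mul_of_nonneg_left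
            (bin_half_le _ _) (mul_nonneg (bin_nonneg (by norm_num) (by norm_num) _) (sq_nonneg _))
      _ ≤ binE a (1 / 2) (fun i => (2 * (i : ℝ) - a) ^ 2) * (2 / Real.sqrt ((b : ℝ) + 1)) := by
        rw [← sum_mul, binE_eq_sum (m := max a k) (le_max_left _ _)]
        refine mul_le_mul_of_nonneg_right (sum_le_sum_of_subset_of_nonneg
          (range_mono (by omega)) fun i _ _ => mul_nonneg (bin_nonneg (by norm_num) (by norm_num) _)
            (sq_nonneg _)) (by positivity)
      _ ≤ _ := by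
        rw [binE_half_sq, mul_comm]
        exact mul_le_mul_of_nonneg_left (Nat.cast_le.2 (by omega)) (by positivity)
  have hB : ∑ i ∈ range (k + 1), bin a (1 / 2) i *
      (bin b (1 / 2) (k - i) * (2 * ((k - i : ℕ) : ℝ) - b) ^ 2) ≤
      2 / Real.sqrt ((a : ℝ) + 1) * n := by
    calc _ ≤ ∑ i ∈ range (k + 1), 2 / Real.sqrt ((a : ℝ) + 1) *
          (bin b (1 / 2) (k - i) * (2 * ((k - i : ℕ) : ℝ) - b) ^ 2) :=
          sum_le_sum fun i _ => mul_le_mul_of_nonneg_right
            (bin_half_le _ _) (mul_nonneg (bin_nonneg (by norm_num) (by norm_num) _) (sq_nonneg _))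
      _ ≤ 2 / Real.sqrt ((a : ℝ) + 1) * binE b (1 / 2) (fun i => (2 * (i : ℝ) - b) ^ 2) := by
        rw [← mul_sum]
        refine mul_le_mul_of_nonneg_left ?_ (by positivity)
        have := sum_range_reflect (fun j => bin b (1 / 2) j * (2 * (j : ℝ) - b) ^ 2) (k + 1)
        simp only [Nat.add_sub_cancel] at this
        rw [this, binE_eq_sum (m := max b k) (le_max_left _ _)]
        exact sum_le_sum_of_subset_of_nonneg (range_mono (by omega)) fun i _ _ =>
          mul_nonneg (bin_nonneg (by norm_num) (by norm_num) _) (sq_nonneg _)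
      _ ≤ _ := by
        rw [binE_half_sq]
        exact mul_le_mul_of_nonneg_left (Nat.cast_le.2 (by omega)) (by positivity)
  linarith [hab a (Or.inl rfl), hab b (Or.inr rfl)]

/-! ### Changing the number of trials; products -/

theorem bin_succ_mul (n k : ℕ) (x : ℝ) :
    bin n x k * ((n + 1) * (1 - x)) = bin (n + 1) x k * ((n : ℝ) + 1 - k) := by
  rcases Nat.lt_or_ge n k with h | h
  · rw [bin_eq_zero h, zero_mul]
    rcases Nat.lt_or_ge (n + 1) k with h' | h'
    · rw [bin_eq_zero h', zero_mul]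
    · rw [show k = n + 1 by omega]; push_cast; ring
  · have e : (n.choose k : ℝ) * ((n : ℝ) + 1) = (n + 1).choose k * ((n : ℝ) + 1 - k) := by
      have := congrArg (Nat.cast (R := ℝ)) (Nat.choose_mul_succ_eq n k)
      rw [Nat.cast_mul, Nat.cast_mul, Nat.cast_sub (by omega)] at this
      push_cast at this
      exact this
    unfold bin
    rw [show n + 1 - k = n - k + 1 by omega, pow_succ]
    linear_combination (x ^ k * (1 - x) ^ (n - k) * (1 - x)) * e

theorem bin_right_mul (n k : ℕ) (x : ℝ) :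
    bin n x (k + 1) * (((k : ℝ) + 1) * (1 - x)) = bin n x k * (((n : ℝ) - k) * x) := by
  rcases Nat.lt_or_ge n (k + 1) with h | h
  · rw [bin_eq_zero h, zero_mul]
    rcases Nat.lt_or_ge n k with h' | h'
    · rw [bin_eq_zero h', zero_mul]
    · rw [show k = n by omega]; ring
  · have e : (n.choose (k + 1) : ℝ) * ((k : ℝ) + 1) = n.choose k * ((n : ℝ) - k) := by
      have := congrArg (Nat.cast (R := ℝ)) (Nat.choose_succ_right_eq n k)
      rw [Nat.cast_mul, Nat.cast_mul, Nat.cast_sub (by omega)] at this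
      push_cast at this
      exact this
    unfold bin
    rw [show n - k = n - (k + 1) + 1 by omega, pow_succ (1 - x), pow_succ x]
    linear_combination (x ^ k * x * ((1 - x) ^ (n - (k + 1)) * (1 - x))) * e

theorem choose_triple (M k l : ℕ) (hk : k ≤ M) (hl : l ≤ M) :
    M.choose k * M.choose l * (2 * M).choose M =
      (2 * M).choose (k + l) * (k + l).choose k * (2 * M - (k + l)).choose (M - k) := by
  have hp : 0 < k.factorial * (M - k).factorial * (l.factorial * (M - l).factorial) := by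
    positivity
  refine Nat.eq_of_mul_eq_mul_right hp ?_
  have e1 := Nat.choose_mul_factorial_mul_factorial hk
  have e2 := Nat.choose_mul_factorial_mul_factorial hl
  have e3 := Nat.choose_mul_factorial_mul_factorial (show M ≤ 2 * M by omega)
  have e4 := Nat.choose_mul_factorial_mul_factorial (show k + l ≤ 2 * M by omega)
  have e5 := Nat.choose_mul_factorial_mul_factorial (show k ≤ k + l by omega)
  have e6 := Nat.choose_mul_factorial_mul_factorial (show M - k ≤ 2 * M - (k + l) by omega)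
  rw [show 2 * M - M = M by omega] at e3
  rw [show k + l - k = l by omega] at e5
  rw [show 2 * M - (k + l) - (M - k) = M - l by omega] at e6
  generalize M.choose k = a, M.choose l = b, (2 * M).choose M = c, (2 * M).choose (k + l) = d,
    (k + l).choose k = f, (2 * M - (k + l)).choose (M - k) = g, k.factorial = fk,
    (M - k).factorial = fMk, l.factorial = fl, (M - l).factorial = fMl at *
  calc a * b * c * (fk * fMk * (fl * fMl)) = (a * fk * fMk) * (b * fl * fMl) * c := by ring
    _ = c * M.factorial * M.factorial := by rw [e1, e2]; ring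
    _ = d * (k + l).factorial * (2 * M - (k + l)).factorial := by rw [e3, e4]
    _ = d * (f * fk * fl) * (g * fMk * fMl) := by rw [e5, e6]
    _ = _ := by ring

/-- A product of two binomial weights: total times fair split. -/
theorem bin_mul_bin_le (hx0 : 0 ≤ x) (hx1 : x ≤ 1) {M k l : ℕ} {K : ℝ} (hM : 1 ≤ M)
    (hK : (M : ℝ) ≤ K * (2 * M - (k + l) + 1)) :
    bin M x k * bin M x l ≤
      4 * Real.sqrt K * bin (2 * M) x (k + l) * bin (k + l) (1 / 2) k := by
  have hr : 0 ≤ 4 * Real.sqrt K * bin (2 * M) x (k + l) * bin (k + l) (1 / 2) k :=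
    mul_nonneg (mul_nonneg (by positivity) (bin_nonneg hx0 hx1 _))
      (bin_nonneg (by norm_num) (by norm_num) _)
  rcases Nat.lt_or_ge M k with hk | hk
  · rw [bin_eq_zero hk, zero_mul]; exact hr
  rcases Nat.lt_or_ge M l with hl | hl
  · rw [bin_eq_zero hl, mul_zero]; exact hr
  have hid : ((M.choose k : ℝ) * M.choose l) * (2 * M).choose M =
      (2 * M).choose (k + l) * (k + l).choose k * (2 * M - (k + l)).choose (M - k) := by
    exact_mod_cast choose_triple M k l hk hl
  set n := 2 * M - (k + l) with hn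
  have hnr : (n : ℝ) = 2 * M - (k + l) := by
    rw [hn, Nat.cast_sub (by omega)]; push_cast; ring
  have hn1 : (0 : ℝ) < (n : ℝ) + 1 := by positivity
  have hKn : (M : ℝ) ≤ K * ((n : ℝ) + 1) := by rw [hnr]; exact hK
  have hK0 : 0 ≤ K := by
    have : (1 : ℝ) ≤ M := by exact_mod_cast hM
    nlinarith
  have hg := bin_half_le n (M - k)
  rw [bin_half_eq n _ (by omega)] at hg
  have hc : (2 : ℝ) ^ (2 * M) ≤ (2 * M).choose M * (2 * Real.sqrt M) := by
    refine pow_le_pow_iff_left₀ (by positivity) (by positivity) two_ne_zero |>.1 ?_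
    rw [mul_pow, mul_pow, Real.sq_sqrt (by positivity), ← pow_mul, ← Nat.centralBinom_eq_two_mul_choose]
    have h := (centralBinom_bounds M).2 hM
    have h' : ((16 : ℝ)) ^ M ≤ (M.centralBinom : ℝ) ^ 2 * (4 * M) := by exact_mod_cast h
    rw [show 2 * M * 2 = 4 * M by ring, pow_mul]
    norm_num at h' ⊢
    linarith
  have hsq : Real.sqrt M ≤ Real.sqrt K * Real.sqrt ((n : ℝ) + 1) := by
    rw [← Real.sqrt_mul hK0]; exact Real.sqrt_le_sqrt hKn
  have hs : 0 < Real.sqrt ((n : ℝ) + 1) := Real.sqrt_pos.2 hn1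
  rw [div_le_div_iff₀ (by positivity) hs] at hg
  have hch : (M.choose k : ℝ) * M.choose l * 2 ^ (k + l) ≤
      4 * Real.sqrt K * (2 * M).choose (k + l) * (k + l).choose k := by
    have hpow : (2 : ℝ) ^ (2 * M) = 2 ^ (k + l) * 2 ^ n := by
      rw [← pow_add]; congr 1; omega
    have hZ : 0 ≤ ((2 * M).choose (k + l) : ℝ) * (k + l).choose k := by positivity
    have h1 : (M.choose k : ℝ) * M.choose l * 2 ^ (2 * M) * Real.sqrt ((n : ℝ) + 1) ≤
        4 * ((2 * M).choose (k + l) * (k + l).choose k) * 2 ^ n *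
          (Real.sqrt K * Real.sqrt ((n : ℝ) + 1)) :=
      calc (M.choose k : ℝ) * M.choose l * 2 ^ (2 * M) * Real.sqrt ((n : ℝ) + 1)
          ≤ (M.choose k : ℝ) * M.choose l * ((2 * M).choose M * (2 * Real.sqrt M)) *
              Real.sqrt ((n : ℝ) + 1) :=
            mul_le_mul_of_nonneg_right (mul_le_mul_of_nonneg_left hc (by positivity)) hs.le
        _ = ((2 * M).choose (k + l) * (k + l).choose k) * (n.choose (M - k) *
              Real.sqrt ((n : ℝ) + 1)) * (2 * Real.sqrt M) := by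
            rw [← mul_assoc, hid]; ring
        _ ≤ ((2 * M).choose (k + l) * (k + l).choose k) * (2 * 2 ^ n) *
              (2 * (Real.sqrt K * Real.sqrt ((n : ℝ) + 1))) :=
            mul_le_mul (mul_le_mul_of_nonneg_left hg hZ) (by linarith) (by positivity)
              (by positivity)
        _ = _ := by ring
    rw [hpow] at h1
    refine le_of_mul_le_mul_right ?_ (mul_pos (pow_pos (two_pos : (0 : ℝ) < 2) n) hs)
    linarith
  calc bin M x k * bin M x l
      = (M.choose k : ℝ) * M.choose l * 2 ^ (k + l) *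
          (x ^ (k + l) * (1 - x) ^ n / 2 ^ (k + l)) := by
        unfold bin
        rw [show n = (M - k) + (M - l) by omega, pow_add, pow_add]
        field_simp
        ring
    _ ≤ 4 * Real.sqrt K * (2 * M).choose (k + l) * (k + l).choose k *
          (x ^ (k + l) * (1 - x) ^ n / 2 ^ (k + l)) :=
        mul_le_mul_of_nonneg_right hch
          (div_nonneg (mul_nonneg (pow_nonneg hx0 _) (pow_nonneg (by linarith) _)) (by positivity))
    _ = _ := by
        rw [bin_half_eq _ _ (Nat.le_add_right k l)]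
        unfold bin
        rw [← hn]
        ring

end Vale.Agent.P321
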