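import Vale.Agent.P321.LawDefs

/-!
# P321: the words used by the base of the recursion
-/

namespace Vale.Agent.P321

/-- The period `01`. -/
def perW : TW := FreeMonoid.of false * FreeMonoid.of true

/-- A token `1` between `a` and `b` periods. -/
def tokW (a b : ℕ) : TW := perW ^ a * FreeMonoid.of true * perW ^ b

/-- The law of one period. -/
noncomputable def perLaw (q : ℝ) : Law := lawHom q perW

end Vale.Agent.P321
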