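import Vale.Agent.P321.BaseNorms

/-!
# P321 module 5, helper: the hypotheses of the smearing bound for the token blocks
-/

namespace Vale.Agent.P321.Blk

open Finset Push

variable {q : ℝ} {L : ℕ}

theorem marg_le (hq0 : 0 < q) (hq1 : q < 1) (φ : ℕ → ℝ) (hφ0 : ∀ k, 0 ≤ φ k)
    (hφ : ∑ k ∈ range (2 * L + 1), φ k ≤ 1) :
    ∑ p ∈ winP q L, b1 q L (p.1 + p.2) * φ p.1 ≤ 1 ∧
      ∑ p ∈ winP q L, b1 q L (p.1 + p.2) * φ p.2 ≤ 1 := by
  have hnn : ∀ N, 0 ≤ b1 q L N := fun N => bin_sP_nonneg hq0 hq1 _ _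
  have hin : ∀ k, ∑ l ∈ range (2 * L + 1), b1 q L (k + l) ≤ 1 := fun k => by
    refine le_trans (le_of_eq ?_) (sum_b1_le hq0 hq1 L ((range (2 * L + 1)).image (k + ·)))
    rw [sum_image fun a _ b _ h => by simpa using h]
  constructor
  · refine (sum_le_sum_of_subset_of_nonneg (filter_subset _ _)
      fun p _ _ => mul_nonneg (hnn _) (hφ0 _)).trans ?_
    rw [sum_product]
    refine le_trans (sum_le_sum fun k _ => ?_) hφ
    simp only
    rw [← sum_mul]
    exact mul_le_of_le_one_left (hφ0 k) (hin k)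
  · refine (sum_le_sum_of_subset_of_nonneg (filter_subset _ _)
      fun p _ _ => mul_nonneg (hnn _) (hφ0 _)).trans ?_
    rw [sum_product_right]
    refine le_trans (sum_le_sum fun l _ => ?_) hφ
    simp only
    rw [← sum_mul]
    refine mul_le_of_le_one_left (hφ0 l) ?_
    simp only [add_comm _ l]
    exact hin l

theorem shifted_bin_le (hq0 : 0 < q) (hq1 : q < 1) (m J t n : ℕ) :
    ∑ k ∈ range n, (if t + k ≤ J then bin m (1 - q ^ 2) (J - (t + k)) else 0) ≤ 1 := by
  rw [← sum_filter]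
  calc ∑ k ∈ (range n).filter (fun k => t + k ≤ J), bin m (1 - q ^ 2) (J - (t + k))
      = ∑ i ∈ ((range n).filter fun k => t + k ≤ J).image (fun k => J - (t + k)),
          bin m (1 - q ^ 2) i := by
        rw [sum_image]
        intro a ha b hb h
        simp only [coe_filter, Set.mem_setOf_eq] at ha hb
        simp only at h
        omega
    _ ≤ 1 := sum_bin_le (sP_pos hq0 hq1).le (sP_lt_one hq0).le _

/-- The norms of the coefficients that enter the smearing bound. -/
theorem smear_data (hq0 : 0 < q) (hq1 : q < 1) : ∃ Z : ℝ, 0 < Z ∧ ∀ L : ℕ, 4 / q ^ 2 ≤ L →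
    (∑ p ∈ winP q L, |cO q L p| ≤ Z / Real.sqrt L ∧
      ∑ p ∈ winP q L, |cE q L p| ≤ Z / L ∧
      ∑ p ∈ winP q L, |cO q L p| * (((p.1 + p.2 : ℕ) : ℝ) - 2 * L * sP q) ^ 2 ≤
        Z / Real.sqrt L * L ∧
      ∑ p ∈ winP q L, |cE q L p| * (((p.1 + p.2 : ℕ) : ℝ) - 2 * L * sP q) ^ 2 ≤ Z / L * L) ∧
    ∀ p ∈ winP q L, |cE q L p| ≤ Z / (L * Real.sqrt L) * b1 q L (p.1 + p.2) := by
  obtain ⟨K, hK1, hK⟩ := coef_bounds hq0 hq1
  have hK0 : 0 ≤ K := by linarith
  have hs := sP_pos hq0 hq1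
  refine ⟨18 * K + K * (32 + 2 / Real.sqrt (sP q)), by positivity, fun L hL => ?_⟩
  set Z := 18 * K + K * (32 + 2 / Real.sqrt (sP q)) with hZ
  have hK2 : 0 ≤ K * (32 + 2 / Real.sqrt (sP q)) := by positivity
  have hLpos : (0 : ℝ) < L := by
    have : 0 < 4 / q ^ 2 := by positivity
    linarith
  have hL1 : 1 ≤ L := by exact_mod_cast hLpos
  have hsq : 0 < Real.sqrt (L : ℝ) := Real.sqrt_pos.2 hLpos
  have hb1 : ∀ N, 0 ≤ b1 q L N := fun N => bin_sP_nonneg hq0 hq1 _ _
  have hmem : ∀ {N k : ℕ}, N ∈ win q L → k ∈ range (N + 1) →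
      k + (N - k) = N := fun {N k} _ hk => by have := mem_range.1 hk; omega
  have hO : ∀ N ∈ win q L, ∑ k ∈ range (N + 1), |cO q L (k, N - k)| ≤
      3 * K / Real.sqrt L * b1 q L N := by
    intro N hN
    obtain ⟨-, -, -, h4, -⟩ := win_facts hq0 hL hN
    have hl := Real.mul_self_sqrt hLpos.le
    calc ∑ k ∈ range (N + 1), |cO q L (k, N - k)|
        ≤ ∑ k ∈ range (N + 1), K / L * b1 q L N * (bin N (1 / 2) k * |2 * (k : ℝ) - N|) := by
          refine sum_le_sum fun k hk => ?_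
          have e := hmem hN hk
          have h := (hK L hL (k, N - k) (by simp only [e]; exact hN)).2.1
          simp only [e] at h
          exact h.trans_eq (by ring)
      _ = K / L * b1 q L N * ∑ k ∈ range (N + 1), bin N (1 / 2) k * |2 * (k : ℝ) - N| := by
          rw [mul_sum]
      _ ≤ K / L * b1 q L N * (2 * L / (2 * Real.sqrt L) + Real.sqrt L / 2) := by
          refine mul_le_mul_of_nonneg_left ((sum_split_abs N hsq).trans ?_)
            (mul_nonneg (by positivity) (hb1 N))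
          linarith [div_le_div_of_nonneg_right h4 (show 0 ≤ 2 * Real.sqrt (L : ℝ) by positivity)]
      _ = K / L * b1 q L N * (3 / 2 * Real.sqrt L) := by
          rw [show 2 * (L : ℝ) / (2 * Real.sqrt L) = Real.sqrt L by
            rw [mul_div_mul_left _ _ (two_ne_zero), Real.div_sqrt]]
          ring
      _ = 3 / 2 * K * (Real.sqrt L / L) * b1 q L N := by ring
      _ = 3 / 2 * K / Real.sqrt L * b1 q L N := by rw [Real.sqrt_div_self, ← div_eq_mul_inv]
      _ ≤ _ := mul_le_mul_of_nonneg_right (div_le_div_of_nonneg_right (by linarith) hsq.le) (hb1 N)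
  have hE : ∀ N ∈ win q L, ∑ k ∈ range (N + 1), |cE q L (k, N - k)| ≤ 3 * K / L * b1 q L N := by
    intro N hN
    obtain ⟨-, -, -, h4, -⟩ := win_facts hq0 hL hN
    calc ∑ k ∈ range (N + 1), |cE q L (k, N - k)|
        ≤ ∑ k ∈ range (N + 1), K / (L : ℝ) ^ 2 * b1 q L N *
            (bin N (1 / 2) k * (1 * (2 * (k : ℝ) - N) ^ 2 + L * 1)) := by
          refine sum_le_sum fun k hk => ?_
          have e := hmem hN hk
          have h := (hK L hL (k, N - k) (by simp only [e]; exact hN)).2.2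
          simp only [e] at h
          exact h.trans_eq (by ring)
      _ = K / (L : ℝ) ^ 2 * b1 q L N *
            binE N (1 / 2) (fun k => 1 * (2 * (k : ℝ) - N) ^ 2 + L * 1) := by rw [binE, mul_sum]
      _ ≤ K / (L : ℝ) ^ 2 * b1 q L N * (3 * L) := by
          refine mul_le_mul_of_nonneg_left ?_ (mul_nonneg (by positivity) (hb1 N))
          rw [binE_linear, binE_half_sq, binE_const]
          linarith
      _ = _ := by field_simp
  have hsum : ∀ (c : ℕ × ℕ → ℝ) (a : ℝ), 0 ≤ a →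
      (∀ N ∈ win q L, ∑ k ∈ range (N + 1), |c (k, N - k)| ≤ a * b1 q L N) →
      ∑ p ∈ winP q L, |c p| ≤ a ∧
      ∑ p ∈ winP q L, |c p| * (((p.1 + p.2 : ℕ) : ℝ) - 2 * L * sP q) ^ 2 ≤ a * (6 * L) := by
    intro c a ha hc
    constructor
    · rw [sum_winP]
      refine (sum_le_sum hc).trans ?_
      rw [← mul_sum]
      exact mul_le_of_le_one_right ha (sum_b1_le hq0 hq1 L _)
    · rw [sum_winP]
      calc _ ≤ ∑ N ∈ win q L, a * (b1 q L N * ((N : ℝ) - 2 * L * sP q) ^ 2) := by
            refine sum_le_sum fun N hN => ?_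
            calc _ = (∑ k ∈ range (N + 1), |c (k, N - k)|) * ((N : ℝ) - 2 * L * sP q) ^ 2 := by
                  rw [sum_mul]
                  exact sum_congr rfl fun k hk => by rw [hmem hN hk]
              _ ≤ _ := by
                  rw [← mul_assoc]
                  exact mul_le_mul_of_nonneg_right (hc N hN) (sq_nonneg _)
        _ ≤ _ := by
            rw [← mul_sum]
            exact mul_le_mul_of_nonneg_left (sum_b1_var_le hq0 hq1 hL1) ha
  obtain ⟨o1, o2⟩ := hsum (cO q L) (3 * K / Real.sqrt L) (by positivity) hO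
  obtain ⟨e1, e2⟩ := hsum (cE q L) (3 * K / L) (by positivity) hE
  refine ⟨⟨o1.trans (div_le_div_of_nonneg_right (by linarith) hsq.le),
    e1.trans (div_le_div_of_nonneg_right (by linarith) hLpos.le), o2.trans ?_, e2.trans ?_⟩,
    fun p hp => ?_⟩
  · calc 3 * K / Real.sqrt L * (6 * L) = 18 * K / Real.sqrt L * L := by ring
      _ ≤ _ := mul_le_mul_of_nonneg_right (div_le_div_of_nonneg_right (by linarith) hsq.le) hLpos.le
  · calc 3 * K / L * (6 * L) = 18 * K / L * L := by ring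
      _ ≤ _ := mul_le_mul_of_nonneg_right (div_le_div_of_nonneg_right (by linarith) hLpos.le) hLpos.le
  · have hN := (mem_filter.1 hp).2
    refine ((hK L hL p hN).2.2).trans ?_
    calc _ = K / (L : ℝ) ^ 2 * b1 q L (p.1 + p.2) * (bin (p.1 + p.2) (1 / 2) p.1 *
          ((2 * (p.1 : ℝ) - (p.1 + p.2 : ℕ)) ^ 2 + L)) := by ring
      _ ≤ K / (L : ℝ) ^ 2 * b1 q L (p.1 + p.2) * ((32 + 2 / Real.sqrt (sP q)) * Real.sqrt L) :=
          mul_le_mul_of_nonneg_left (even_point hq0 hq1 hL hN p.1)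
            (mul_nonneg (by positivity) (hb1 _))
      _ = K * (32 + 2 / Real.sqrt (sP q)) / L * (Real.sqrt L / L) * b1 q L (p.1 + p.2) := by ring
      _ = K * (32 + 2 / Real.sqrt (sP q)) / (L * Real.sqrt L) * b1 q L (p.1 + p.2) := by
          rw [Real.sqrt_div_self, ← div_eq_mul_inv, div_div]
      _ ≤ _ := mul_le_mul_of_nonneg_right
          (div_le_div_of_nonneg_right (by linarith) (by positivity)) (hb1 _)

end Vale.Agent.P321.Blk
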