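import Vale.Agent.P321.Algebra
import Vale.Agent.P321.BaseDefs
import Vale.Agent.P321.BaseSmearUse

/-!
# P321 module 5: the token blocks

A deleted period is empty with probability `q^2`, so `perLaw q ^ a` is a binomial mixture of powers
of the law `Q` of a nonempty period. Write the token as `Q + psi` (`psi` has mass zero). The
surrogates drop the token when the number of nonempty periods leaves a window of width linear in
`L` about its mean; this makes them comparable with `perLaw q ^ (2 L)`.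
-/

namespace Vale.Agent.P321

open Filter Finset Blk Push

/-- Surrogates of the three token blocks of half-length `L`, with all the bounds needed later. -/
structure Blocks (q C Lam C' : ℝ) (J L : ℕ) (W₀ Wp Wm : Law) : Prop where
  prob₀ : IsProb W₀
  probp : IsProb Wp
  probm : IsProb Wm
  ratio₀ : Ratio Lam W₀ (perLaw q ^ (2 * L))
  ratiop : Ratio Lam Wp (perLaw q ^ (2 * L))
  ratiom : Ratio Lam Wm (perLaw q ^ (2 * L))
  approx₀ : l1 (W₀ - lawHom q (tokW L L)) ≤ C' / (L : ℝ) ^ J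
  approxp : l1 (Wp - lawHom q (tokW (L + 1) (L - 1))) ≤ C' / (L : ℝ) ^ J
  approxm : l1 (Wm - lawHom q (tokW (L - 1) (L + 1))) ≤ C' / (L : ℝ) ^ J
  odd_nq : nq (Wp - Wm) (perLaw q ^ (2 * L)) ≤ C / (L : ℝ) ^ 3
  even_nq : nq (Wp + Wm - (2 : ℝ) • W₀) (perLaw q ^ (2 * L)) ≤ C / (L : ℝ) ^ 5
  zero_nsq : nsq (W₀ - perLaw q ^ (2 * L)) (perLaw q ^ (2 * L)) ≤ C / Real.sqrt L
  smear_oe : ∀ Gam m : ℕ, L ≤ Gam → m ≤ Gam →
    l1 (perLaw q ^ Gam * (Wp - Wm) * perLaw q ^ m * (Wp + Wm - (2 : ℝ) • W₀) * perLaw q ^ Gam) ≤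
      C / (L : ℝ) ^ 2 * ((L : ℝ) / Gam) ^ ((1 : ℝ) / 4)
  smear_eo : ∀ Gam m : ℕ, L ≤ Gam → m ≤ Gam →
    l1 (perLaw q ^ Gam * (Wp + Wm - (2 : ℝ) • W₀) * perLaw q ^ m * (Wp - Wm) * perLaw q ^ Gam) ≤
      C / (L : ℝ) ^ 2 * ((L : ℝ) / Gam) ^ ((1 : ℝ) / 4)

/-- The chi norms of the differences. -/
theorem block_norms (q : ℝ) (hq0 : 0 < q) (hq1 : q < 1) : ∃ C : ℝ, 0 ≤ C ∧ ∀ L : ℕ, 4 / q ^ 2 ≤ L →
    nq (surr q L (L + 1) (L - 1) - surr q L (L - 1) (L + 1)) (perLaw q ^ (2 * L)) ≤ C / (L : ℝ) ^ 3 ∧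
    nq (surr q L (L + 1) (L - 1) + surr q L (L - 1) (L + 1) - (2 : ℝ) • surr q L L L)
      (perLaw q ^ (2 * L)) ≤ C / (L : ℝ) ^ 5 ∧
    nsq (surr q L L L - perLaw q ^ (2 * L)) (perLaw q ^ (2 * L)) ≤ C / Real.sqrt L := by
  obtain ⟨K, hK1, hK⟩ := coef_bounds hq0 hq1
  have hs := sP_pos hq0 hq1
  have hV := aV_nonneg hq0 hq1
  have hU := aU_nonneg hq0 hq1
  set Kd := 1 / (q ^ 2 * sP q) + (2 / sP q + 2) / th q with hKd
  set U4 := 3 * aV q ^ 2 + aU q with hU4
  set g0 := K ^ 2 * (2 / Real.sqrt (sP q)) with hg0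
  set gO := K ^ 2 * (4 / Real.sqrt (sP q)) with hgO
  set gE := K ^ 2 * (52 / Real.sqrt (sP q)) with hgE
  set C := U4 * gO ^ 2 + U4 * gE ^ 2 + 16 * Kd ^ 2 + 2 * aV q * g0 with hC
  have hU4n : 0 ≤ U4 := by positivity
  have hn1 : 0 ≤ U4 * gO ^ 2 := by positivity
  have hn2 : 0 ≤ U4 * gE ^ 2 := by positivity
  have hn3 : 0 ≤ 16 * Kd ^ 2 := by positivity
  have hn4 : 0 ≤ 2 * aV q * g0 := by positivity
  refine ⟨C, by linarith, fun L hL => ?_⟩
  have hLpos : (0 : ℝ) < L := by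
    have : 0 < 4 / q ^ 2 := by positivity
    linarith
  have hL1 : 1 ≤ L := by exact_mod_cast hLpos
  have hLr : (1 : ℝ) ≤ L := by exact_mod_cast hL1
  have hsq : 0 < Real.sqrt (L : ℝ) := Real.sqrt_pos.2 hLpos
  have hp0 : 0 ≤ 1 - q := by linarith
  have hp4 : (1 - q) ^ 4 ≤ 1 := pow_le_one₀ hp0 (by linarith)
  have hp2 : (1 - q) ^ 2 ≤ 1 := pow_le_one₀ hp0 (by linarith)
  have hPP : IsProb (perLaw q ^ (2 * L)) := (perLaw_isProb hq0 hq1).pow _
  have hpair : ∀ {N k : ℕ}, N ∈ win q L → k ∈ range (N + 1) → k + (N - k) = N :=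
    fun {N k} _ hk => by have := mem_range.1 hk; omega
  have hG0 : ∀ N ∈ win q L, ∑ k ∈ range (N + 1), cof q L L (k, N - k) ^ 2 ≤
      g0 / Real.sqrt L * b1 q L N ^ 2 := by
    intro N hN
    calc _ ≤ ∑ k ∈ range (N + 1), (K * b1 q L N) ^ 2 * bin N (1 / 2) k ^ 2 := by
          refine sum_le_sum fun k hk => ?_
          have e := hpair hN hk
          have h := (hK L hL (k, N - k) (by simp only [e]; exact hN)).1
          simp only [e] at h
          rw [← sq_abs]
          refine (pow_le_pow_left₀ (abs_nonneg _) h 2).trans_eq ?_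
          ring
      _ ≤ (K * b1 q L N) ^ 2 * (2 / Real.sqrt (sP q) / Real.sqrt L) := by
          rw [← mul_sum]
          exact mul_le_mul_of_nonneg_left (split_sums hq0 hq1 hL hN).1 (sq_nonneg _)
      _ = _ := by ring
  have hGO : ∀ N ∈ win q L, ∑ k ∈ range (N + 1), cO q L (k, N - k) ^ 2 ≤
      gO * Real.sqrt L / (L : ℝ) ^ 2 * b1 q L N ^ 2 := by
    intro N hN
    calc _ ≤ ∑ k ∈ range (N + 1),
          (K / L * b1 q L N) ^ 2 * (bin N (1 / 2) k * |2 * (k : ℝ) - N|) ^ 2 := by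
          refine sum_le_sum fun k hk => ?_
          have e := hpair hN hk
          have h := (hK L hL (k, N - k) (by simp only [e]; exact hN)).2.1
          simp only [e] at h
          rw [← sq_abs]
          refine (pow_le_pow_left₀ (abs_nonneg _) h 2).trans_eq ?_
          ring
      _ ≤ (K / L * b1 q L N) ^ 2 * (4 / Real.sqrt (sP q) * Real.sqrt L) := by
          rw [← mul_sum]
          exact mul_le_mul_of_nonneg_left (split_sums hq0 hq1 hL hN).2.1 (sq_nonneg _)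
      _ = _ := by ring
  have hGE : ∀ N ∈ win q L, ∑ k ∈ range (N + 1), cE q L (k, N - k) ^ 2 ≤
      gE * (L * Real.sqrt L) / (L : ℝ) ^ 4 * b1 q L N ^ 2 := by
    intro N hN
    calc _ ≤ ∑ k ∈ range (N + 1),
          (K / (L : ℝ) ^ 2 * b1 q L N) ^ 2 * (bin N (1 / 2) k * ((2 * (k : ℝ) - N) ^ 2 + L)) ^ 2 := by
          refine sum_le_sum fun k hk => ?_
          have e := hpair hN hk
          have h := (hK L hL (k, N - k) (by simp only [e]; exact hN)).2.2
          simp only [e] at h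
          rw [← sq_abs]
          refine (pow_le_pow_left₀ (abs_nonneg _) h 2).trans_eq ?_
          ring
      _ ≤ (K / (L : ℝ) ^ 2 * b1 q L N) ^ 2 * (52 / Real.sqrt (sP q) * (L * Real.sqrt L)) := by
          rw [← mul_sum]
          exact mul_le_mul_of_nonneg_left (split_sums hq0 hq1 hL hN).2.2 (sq_nonneg _)
      _ = _ := by ring
  refine ⟨?_, ?_, ?_⟩
  · rw [odd_eq hq0 hq1 hL1, nq_smul]
    refine (mul_le_of_le_one_left (nq_nonneg hPP.1) hp4).trans
      (((defect_norms hq0 hq1 hL _ (by positivity) hGO).2).trans ?_)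
    calc U4 * (gO * Real.sqrt L / (L : ℝ) ^ 2) ^ 2 = U4 * gO ^ 2 / (L : ℝ) ^ 3 := by
          field_simp; rw [Real.sq_sqrt hLpos.le]
      _ ≤ _ := div_le_div_of_nonneg_right (by linarith) (by positivity)
  · rw [even_eq hq0 hq1 hL1, nq_smul]
    refine (mul_le_of_le_one_left (nq_nonneg hPP.1) hp4).trans
      (((defect_norms hq0 hq1 hL _ (by positivity) hGE).2).trans ?_)
    calc U4 * (gE * (L * Real.sqrt L) / (L : ℝ) ^ 4) ^ 2 = U4 * gE ^ 2 / (L : ℝ) ^ 5 := by
          field_simp; rw [Real.sq_sqrt hLpos.le]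
      _ ≤ _ := div_le_div_of_nonneg_right (by linarith) (by positivity)
  · rw [zero_eq hq0 hq1 hL, nsq_smul]
    refine (mul_le_of_le_one_left (nsq_nonneg hPP.1) hp2).trans ((nsq_add hPP.1).trans ?_)
    have hshift : nsq (∑ N ∈ range (2 * L + 1), shiftC q L N • Qlaw q ^ N) (perLaw q ^ (2 * L)) ≤
        8 * Kd ^ 2 / Real.sqrt L := by
      have e : ∑ N ∈ range (2 * L + 1), shiftC q L N • Qlaw q ^ N =
          ∑ N ∈ range (2 * L + 1), tupL N fun f => tupP q f * shiftC q L N := by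
        refine sum_congr rfl fun N _ => ?_
        rw [Qlaw_pow, tupL, pushLaw_smul, tupL]
        simp only [mul_comm]
      rw [e]
      refine (nsq_tupL_le hq0 hq1 _ (fun N => N) (bin (2 * L) (sP q)) _
        (fun N hN => bin_sP_pos hq0 hq1 (Nat.lt_succ_iff.1 (mem_range.1 hN)))
        (val_ref_le hq0 hq1 _ subset_rfl)).trans ?_
      calc _ ≤ ∑ N ∈ range (2 * L + 1), (Kd / L) ^ 2 * (bin (2 * L) (sP q) N *
            (2 * ((N : ℝ) - 2 * L * sP q) ^ 2 + 2 * 1)) := by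
            refine sum_le_sum fun N hN => ?_
            have hb := bin_sP_pos hq0 hq1 (n := 2 * L) (Nat.lt_succ_iff.1 (mem_range.1 hN))
            rw [← sum_mul, sum_tupP hq0 hq1, one_mul, div_le_iff₀ hb, ← sq_abs]
            refine (pow_le_pow_left₀ (abs_nonneg _) (shiftC_bound hq0 hq1 hL hN) 2).trans ?_
            have h2 : (|(N : ℝ) - 2 * L * sP q| + 1) ^ 2 ≤
                2 * ((N : ℝ) - 2 * L * sP q) ^ 2 + 2 * 1 := by
              rw [← sq_abs ((N : ℝ) - _)]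
              nlinarith [sq_nonneg (|(N : ℝ) - 2 * L * sP q| - 1)]
            calc _ = (Kd / L) ^ 2 * bin (2 * L) (sP q) N ^ 2 *
                  (|(N : ℝ) - 2 * L * sP q| + 1) ^ 2 := by rw [hKd]; ring
              _ ≤ (Kd / L) ^ 2 * bin (2 * L) (sP q) N ^ 2 *
                  (2 * ((N : ℝ) - 2 * L * sP q) ^ 2 + 2 * 1) :=
                  mul_le_mul_of_nonneg_left h2 (by positivity)
              _ = _ := by ring
        _ = (Kd / L) ^ 2 *
            binE (2 * L) (sP q) (fun N => 2 * ((N : ℝ) - 2 * L * sP q) ^ 2 + 2 * 1) := by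
            rw [binE, mul_sum]
        _ ≤ (Kd / L) ^ 2 * (8 * L) := by
            refine mul_le_mul_of_nonneg_left ?_ (sq_nonneg _)
            have hv := binE_var (2 * L) (sP q)
            push_cast at hv
            rw [binE_linear, hv, binE_const]
            have h1 : sP q * (1 - sP q) ≤ 1 :=
              mul_le_one₀ (sP_lt_one hq0).le (sub_nonneg.2 (sP_lt_one hq0).le) (by linarith)
            have := mul_le_mul_of_nonneg_left h1 hLpos.le
            linarith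
        _ = 8 * Kd ^ 2 / L := by field_simp
        _ ≤ _ := div_le_div_of_nonneg_left (by positivity) hsq
            (Real.sqrt_le_iff.2 ⟨hLpos.le, by nlinarith⟩)
    have h0 := (defect_norms hq0 hq1 hL _ (by positivity) hG0).1
    calc _ ≤ 2 * (8 * Kd ^ 2 / Real.sqrt L) + 2 * (aV q * (g0 / Real.sqrt L)) := by linarith
      _ = (16 * Kd ^ 2 + 2 * aV q * g0) / Real.sqrt L := by ring
      _ ≤ _ := div_le_div_of_nonneg_right (by linarith) hsq.le

/-- The smearing bounds. -/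
theorem block_smear (q : ℝ) (hq0 : 0 < q) (hq1 : q < 1) : ∃ C : ℝ, 0 ≤ C ∧ ∀ L : ℕ, 4 / q ^ 2 ≤ L →
    ∀ Gam m : ℕ, L ≤ Gam → m ≤ Gam →
    l1 (perLaw q ^ Gam * ((1 - q) • defectL q (winP q L) (cO q L)) * perLaw q ^ m *
          ((1 - q) • defectL q (winP q L) (cE q L)) * perLaw q ^ Gam) ≤
        C / (L : ℝ) ^ 2 * ((L : ℝ) / Gam) ^ ((1 : ℝ) / 4) ∧
    l1 (perLaw q ^ Gam * ((1 - q) • defectL q (winP q L) (cE q L)) * perLaw q ^ m *
          ((1 - q) • defectL q (winP q L) (cO q L)) * perLaw q ^ Gam) ≤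
        C / (L : ℝ) ^ 2 * ((L : ℝ) / Gam) ^ ((1 : ℝ) / 4) := by
  obtain ⟨Z, hZ, hdata⟩ := smear_data hq0 hq1
  obtain ⟨Ks, hKs, hsmear⟩ := smear_generic q hq0 hq1
  set cs := Ks * Real.sqrt (Z * Z * (Z * Z)) with hcs
  have hcsn : 0 ≤ cs := by positivity
  refine ⟨cs, hcsn, fun L hL => ?_⟩
  have hLpos : (0 : ℝ) < L := by
    have : 0 < 4 / q ^ 2 := by positivity
    linarith
  have hL1 : 1 ≤ L := by exact_mod_cast hLpos
  have hLr : (1 : ℝ) ≤ L := by exact_mod_cast hL1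
  have hsq : 0 < Real.sqrt (L : ℝ) := Real.sqrt_pos.2 hLpos
  have hp0 : 0 ≤ 1 - q := by linarith
  obtain ⟨⟨dO, dE, vO, vE⟩, hmax⟩ := hdata L hL
  have hquarter : ∀ Gam : ℕ, L ≤ Gam →
      Real.sqrt (Z / Real.sqrt L * (Z / L) * (Z * Z / (L : ℝ) ^ 2)) / (Gam : ℝ) ^ ((1 : ℝ) / 4) =
        Real.sqrt (Z * Z * (Z * Z)) / (L : ℝ) ^ 2 * ((L : ℝ) / Gam) ^ ((1 : ℝ) / 4) := by
    intro Gam _
    have e1 : Z / Real.sqrt L * (Z / L) * (Z * Z / (L : ℝ) ^ 2) =
        Z * Z * (Z * Z) * Real.sqrt L / ((L : ℝ) ^ 2) ^ 2 := by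
      field_simp
      rw [Real.sq_sqrt hLpos.le]
    have e2 : Real.sqrt (Real.sqrt L) = (L : ℝ) ^ ((1 : ℝ) / 4) := by
      rw [Real.sqrt_eq_rpow, Real.sqrt_eq_rpow, ← Real.rpow_mul hLpos.le]
      norm_num
    rw [e1, Real.sqrt_div' _ (by positivity), Real.sqrt_sq (by positivity),
      Real.sqrt_mul (mul_self_nonneg Z |> fun h => mul_nonneg h h), e2,
      Real.div_rpow hLpos.le (Nat.cast_nonneg _)]
    field_simp
  have hD : ∀ (m j : ℕ) (t : ℕ),
      0 ≤ if t ≤ j then bin m (1 - q ^ 2) (j - t) else 0 := fun m j t => by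
    split_ifs
    · exact bin_sP_nonneg hq0 hq1 m _
    · exact le_rfl
  have hA0 : 0 ≤ Z / Real.sqrt L := by positivity
  have hB0 : 0 ≤ Z / (L : ℝ) := by positivity
  have hsm : ∀ (c d : ℕ × ℕ → ℝ) (A B : ℝ) (Gam m : ℕ), L ≤ Gam → m ≤ Gam →
      A * B = Z / Real.sqrt L * (Z / L) →
      ∑ p ∈ winP q L, |c p| ≤ A → ∑ p ∈ winP q L, |d p| ≤ B → 0 ≤ A → 0 ≤ B →
      ∑ p ∈ winP q L, |c p| * (((p.1 + p.2 : ℕ) : ℝ) - 2 * L * sP q) ^ 2 ≤ A * L →
      ∑ p ∈ winP q L, |d p| * (((p.1 + p.2 : ℕ) : ℝ) - 2 * L * sP q) ^ 2 ≤ B * L →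
      (∀ j : ℕ, ∑ p ∈ winP q L, ∑ p' ∈ winP q L, |c p| * |d p'| *
        (if p.2 + p'.1 ≤ j then bin m (1 - q ^ 2) (j - (p.2 + p'.1)) else 0) ≤
          Z * Z / (L : ℝ) ^ 2) →
      l1 (perLaw q ^ Gam * ((1 - q) • defectL q (winP q L) c) * perLaw q ^ m *
          ((1 - q) • defectL q (winP q L) d) * perLaw q ^ Gam) ≤
        cs / (L : ℝ) ^ 2 * ((L : ℝ) / Gam) ^ ((1 : ℝ) / 4) := by
    intro c d A B Gam m hG hm hAB h1 h2 hA hB h3 h4 h5
    have hGr : (L : ℝ) ≤ Gam := by exact_mod_cast hG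
    have hmain := hsmear L Gam m (winP q L) (winP q L) c d A B (Z * Z / (L : ℝ) ^ 2) hL1 hG hm h1 h2
      (h3.trans (mul_le_mul_of_nonneg_left hGr hA)) (h4.trans (mul_le_mul_of_nonneg_left hGr hB)) h5
    rw [hAB, mul_div_assoc, hquarter Gam hG] at hmain
    simp only [mul_smul_comm, smul_mul_assoc, smul_smul, l1_smul]
    refine (mul_le_of_le_one_left (l1_nonneg _) ?_).trans (hmain.trans ?_)
    · rw [abs_of_nonneg (mul_nonneg hp0 hp0)]
      exact mul_le_one₀ (by linarith) hp0 (by linarith)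
    · calc _ = cs / (L : ℝ) ^ 2 * ((L : ℝ) / Gam) ^ ((1 : ℝ) / 4) := by rw [hcs]; ring
        _ ≤ _ := mul_le_mul_of_nonneg_right
            (div_le_div_of_nonneg_right (by linarith) (by positivity)) (by positivity)
  intro Gam m hG hm
  refine ⟨?_, ?_⟩
  · refine hsm _ _ _ _ Gam m hG hm rfl dO dE hA0 hB0 vO vE fun j => ?_
    calc _ ≤ ∑ p ∈ winP q L, |cO q L p| * (Z / (L * Real.sqrt L)) := by
          refine sum_le_sum fun p _ => ?_
          calc _ ≤ ∑ p' ∈ winP q L, |cO q L p| * (Z / (L * Real.sqrt L)) *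
                (b1 q L (p'.1 + p'.2) *
                  (if p.2 + p'.1 ≤ j then bin m (1 - q ^ 2) (j - (p.2 + p'.1)) else 0)) := by
                refine sum_le_sum fun p' hp' => ?_
                calc _ ≤ |cO q L p| * (Z / (L * Real.sqrt L) * b1 q L (p'.1 + p'.2)) * _ :=
                      mul_le_mul_of_nonneg_right
                        (mul_le_mul_of_nonneg_left (hmax p' hp') (abs_nonneg _)) (hD m j _)
                  _ = _ := by ring
            _ ≤ _ := by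
                rw [← mul_sum]
                refine mul_le_of_le_one_right (by positivity) ?_
                exact (marg_le hq0 hq1 (fun k => if p.2 + k ≤ j then
                  bin m (1 - q ^ 2) (j - (p.2 + k)) else 0) (fun k => hD m j _)
                  (shifted_bin_le hq0 hq1 m j p.2 _)).1
      _ ≤ Z / Real.sqrt L * (Z / (L * Real.sqrt L)) := by
          rw [← sum_mul]; exact mul_le_mul_of_nonneg_right dO (by positivity)
      _ = _ := by field_simp; rw [Real.sq_sqrt hLpos.le]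
  · refine hsm _ _ _ _ Gam m hG hm (mul_comm _ _) dE dO hB0 hA0 vE vO fun j => ?_
    rw [sum_comm]
    calc _ ≤ ∑ p' ∈ winP q L, |cO q L p'| * (Z / (L * Real.sqrt L)) := by
          refine sum_le_sum fun p' _ => ?_
          calc _ ≤ ∑ p ∈ winP q L, |cO q L p'| * (Z / (L * Real.sqrt L)) *
                (b1 q L (p.1 + p.2) *
                  (if p'.1 + p.2 ≤ j then bin m (1 - q ^ 2) (j - (p'.1 + p.2)) else 0)) := by
                refine sum_le_sum fun p hp => ?_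
                rw [add_comm p.2 p'.1]
                calc _ ≤ Z / (L * Real.sqrt L) * b1 q L (p.1 + p.2) * |cO q L p'| * _ :=
                      mul_le_mul_of_nonneg_right
                        (mul_le_mul_of_nonneg_right (hmax p hp) (abs_nonneg _)) (hD m j _)
                  _ = _ := by ring
            _ ≤ _ := by
                rw [← mul_sum]
                refine mul_le_of_le_one_right (by positivity) ?_
                exact (marg_le hq0 hq1 (fun k => if p'.1 + k ≤ j then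
                  bin m (1 - q ^ 2) (j - (p'.1 + k)) else 0) (fun k => hD m j _)
                  (shifted_bin_le hq0 hq1 m j p'.1 _)).2
      _ ≤ Z / Real.sqrt L * (Z / (L * Real.sqrt L)) := by
          rw [← sum_mul]; exact mul_le_mul_of_nonneg_right dO (by positivity)
      _ = _ := by field_simp; rw [Real.sq_sqrt hLpos.le]

theorem base_blocks (q : ℝ) (hq0 : 0 < q) (hq1 : q < 1) : ∃ C Lam : ℝ, 1 ≤ C ∧ 1 ≤ Lam ∧
    ∀ J : ℕ, ∃ C' : ℝ, ∀ᶠ L : ℕ in atTop, ∃ W₀ Wp Wm : Law, Blocks q C Lam C' J L W₀ Wp Wm := by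
  obtain ⟨C₁, hC₁, hnorm⟩ := block_norms q hq0 hq1
  obtain ⟨C₂, hC₂, hsmear⟩ := block_smear q hq0 hq1
  have hs := sP_pos hq0 hq1
  have hw1 := wQ_pos hq0 hq1 1
  refine ⟨1 + C₁ + C₂, ratioC q, by linarith, ?_, fun J => ⟨4, ?_⟩⟩
  · unfold ratioC
    have : 0 ≤ 1 / q := by positivity
    have : 0 ≤ 3 / sP q * (1 / wQ q 1) := by positivity
    linarith
  have hev : ∀ᶠ L : ℕ in atTop, Real.exp (-(th q ^ 2 / 8) * L) * (L : ℝ) ^ J ≤ 1 := by
    have ht := tendsto_pow_const_mul_const_pow_of_lt_one J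
      (Real.exp_pos (-(th q ^ 2 / 8))).le
      (Real.exp_lt_one_iff.2 (by have := th_pos hq0 hq1; nlinarith))
    filter_upwards [ht.eventually_le_const zero_lt_one] with L hL
    rwa [mul_comm, mul_comm _ (L : ℝ), Real.exp_nat_mul]
  have hbig : ∀ᶠ L : ℕ in atTop, 4 / q ^ 2 ≤ (L : ℝ) :=
    tendsto_natCast_atTop_atTop.eventually (eventually_ge_atTop _)
  filter_upwards [hev, hbig, eventually_ge_atTop 1] with L hexp hL hL1
  have hLpos : (0 : ℝ) < L := by exact_mod_cast hL1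
  have happ : ∀ {a b : ℕ}, a + b = 2 * L →
      l1 (surr q L a b - lawHom q (tokW a b)) ≤ 4 / (L : ℝ) ^ J := fun {a b} hab => by
    refine (surr_approx hq0 hq1 hab).trans ?_
    rw [le_div_iff₀ (by positivity)]
    linarith
  obtain ⟨n1, n2, n3⟩ := hnorm L hL
  have hmono : ∀ c D : ℝ, c ≤ 1 + C₁ + C₂ → 0 < D → c / D ≤ (1 + C₁ + C₂) / D :=
    fun c D h hD => div_le_div_of_nonneg_right h hD.le
  refine ⟨surr q L L L, surr q L (L + 1) (L - 1), surr q L (L - 1) (L + 1),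
    surr_isProb hq0 hq1 (by omega), surr_isProb hq0 hq1 (by omega),
    surr_isProb hq0 hq1 (by omega), surr_ratio hq0 hq1 hL (by omega),
    surr_ratio hq0 hq1 hL (by omega), surr_ratio hq0 hq1 hL (by omega), happ (by omega),
    happ (by omega), happ (by omega), n1.trans (hmono _ _ (by linarith) (by positivity)),
    n2.trans (hmono _ _ (by linarith) (by positivity)),
    n3.trans (hmono _ _ (by linarith) (by positivity)), fun Gam m hG hm => ?_,
    fun Gam m hG hm => ?_⟩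
  · rw [odd_eq hq0 hq1 hL1, even_eq hq0 hq1 hL1]
    exact (hsmear L hL Gam m hG hm).1.trans
      (mul_le_mul_of_nonneg_right (hmono _ _ (by linarith) (by positivity)) (by positivity))
  · rw [odd_eq hq0 hq1 hL1, even_eq hq0 hq1 hL1]
    exact (hsmear L hL Gam m hG hm).2.trans
      (mul_le_mul_of_nonneg_right (hmono _ _ (by linarith) (by positivity)) (by positivity))

end Vale.Agent.P321
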