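import Vale.Agent.P321.BaseBin

/-!
# P321 module 5, helper: the coefficients of the token blocks

Inside a window of width linear in `L` around the mean of the number of nonempty periods, products of
two binomial weights are bounded by the weight of the total times a fair split, and the odd and the
even differences of the splits `(L+1, L-1)`, `(L, L)`, `(L-1, L+1)` gain a first and a second power
of the imbalance over `L`.
-/

namespace Vale.Agent.P321.Blk

open Finset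

variable {q : ℝ} {L : ℕ}

/-- The probability that a period is not deleted. -/
def sP (q : ℝ) : ℝ := 1 - q ^ 2

/-- The relative half-width of the window. -/
noncomputable def th (q : ℝ) : ℝ := min (sP q) (q ^ 2)

/-- The window of totals. -/
noncomputable def win (q : ℝ) (L : ℕ) : Finset ℕ :=
  (range (2 * L + 1)).filter fun N => |(N : ℝ) - 2 * L * sP q| ≤ th q * L

/-- The weight of the next total. -/
noncomputable def b1 (q : ℝ) (L N : ℕ) : ℝ := bin (2 * L) (sP q) (N + 1)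

/-- The split coefficient of the pair `(a, b)`. -/
noncomputable def cof (q : ℝ) (a b : ℕ) (p : ℕ × ℕ) : ℝ :=
  bin a (sP q) p.1 * bin b (sP q) p.2

/-- The odd difference of coefficients. -/
noncomputable def cO (q : ℝ) (L : ℕ) (p : ℕ × ℕ) : ℝ :=
  cof q (L + 1) (L - 1) p - cof q (L - 1) (L + 1) p

/-- The even difference of coefficients. -/
noncomputable def cE (q : ℝ) (L : ℕ) (p : ℕ × ℕ) : ℝ :=
  cof q (L + 1) (L - 1) p + cof q (L - 1) (L + 1) p - 2 * cof q L L p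

/-- The pairs whose total lies in the window. -/
noncomputable def winP (q : ℝ) (L : ℕ) : Finset (ℕ × ℕ) :=
  (range (2 * L + 1) ×ˢ range (2 * L + 1)).filter fun p => p.1 + p.2 ∈ win q L

theorem sP_pos (hq0 : 0 < q) (hq1 : q < 1) : 0 < sP q := by unfold sP; nlinarith

theorem sP_lt_one (hq0 : 0 < q) : sP q < 1 := by unfold sP; nlinarith

theorem one_sub_sP (q : ℝ) : 1 - sP q = q ^ 2 := by unfold sP; ring

theorem th_pos (hq0 : 0 < q) (hq1 : q < 1) : 0 < th q :=
  lt_min (sP_pos hq0 hq1) (by positivity)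

theorem bin_sP_nonneg (hq0 : 0 < q) (hq1 : q < 1) (n k : ℕ) : 0 ≤ bin n (sP q) k :=
  bin_nonneg (sP_pos hq0 hq1).le (sP_lt_one hq0).le k

theorem bin_sP_pos (hq0 : 0 < q) (hq1 : q < 1) {n k : ℕ} (h : k ≤ n) : 0 < bin n (sP q) k := by
  have h1 := sP_pos hq0 hq1
  have h2 : 0 < 1 - sP q := by rw [one_sub_sP]; positivity
  have h3 : 0 < (n.choose k : ℝ) := by exact_mod_cast Nat.choose_pos h
  unfold bin
  positivity

/-- All the numerical facts used inside the window. -/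
theorem win_facts (hq0 : 0 < q) (hL : 4 / q ^ 2 ≤ L) {N : ℕ} (hN : N ∈ win q L) :
    sP q * L ≤ N ∧ q ^ 2 * L ≤ 2 * (L : ℝ) - N ∧ N + 1 ≤ 2 * L ∧ (N : ℝ) ≤ 2 * L ∧ 4 ≤ (L : ℝ) * q ^ 2 := by
  simp only [win, mem_filter, abs_le] at hN
  obtain ⟨-, h1, h2⟩ := hN
  have h3 : th q * L ≤ sP q * L := mul_le_mul_of_nonneg_right (min_le_left _ _) (Nat.cast_nonneg _)
  have h4 : th q * L ≤ q ^ 2 * L :=
    mul_le_mul_of_nonneg_right (min_le_right _ _) (Nat.cast_nonneg _)
  have h5 : 4 ≤ (L : ℝ) * q ^ 2 := (div_le_iff₀ (by positivity)).1 hL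
  have h6 : q ^ 2 * L ≤ 2 * (L : ℝ) - N := by
    have : sP q = 1 - q ^ 2 := rfl
    rw [this] at h2
    nlinarith
  refine ⟨by linarith, h6, ?_, by nlinarith, h5⟩
  have : (N : ℝ) + 1 ≤ 2 * (L : ℝ) := by linarith
  exact_mod_cast this

theorem bin_le_b1 (hq0 : 0 < q) (hq1 : q < 1) (hL : 4 / q ^ 2 ≤ L) {N : ℕ} (hN : N ∈ win q L) :
    bin (2 * L) (sP q) N ≤ 3 / sP q * b1 q L N ∧
      b1 q L N ≤ 2 / q ^ 2 * bin (2 * L) (sP q) N := by
  obtain ⟨h1, h2, h3, h4, h5⟩ := win_facts hq0 hL hN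
  have hs := sP_pos hq0 hq1
  have e := bin_right_mul (2 * L) N (sP q)
  rw [one_sub_sP] at e
  push_cast at e
  have hb := bin_sP_nonneg hq0 hq1 (2 * L) N
  have hb1 := bin_sP_nonneg hq0 hq1 (2 * L) (N + 1)
  have hLpos : (0 : ℝ) < L := by nlinarith
  unfold b1
  constructor
  · rw [div_mul_eq_mul_div, le_div_iff₀ hs]
    refine le_of_mul_le_mul_right ?_ (show 0 < q ^ 2 * (L : ℝ) by positivity)
    have hA : bin (2 * L) (sP q) N * sP q * (q ^ 2 * L) ≤
        bin (2 * L) (sP q) N * sP q * (2 * L - N) :=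
      mul_le_mul_of_nonneg_left h2 (by positivity)
    have hB : bin (2 * L) (sP q) (N + 1) * q ^ 2 * ((N : ℝ) + 1) ≤
        bin (2 * L) (sP q) (N + 1) * q ^ 2 * (3 * L) :=
      mul_le_mul_of_nonneg_left (by nlinarith) (by positivity)
    linarith
  · rw [div_mul_eq_mul_div, le_div_iff₀ (by positivity)]
    refine le_of_mul_le_mul_right ?_ (show 0 < sP q * (L : ℝ) by positivity)
    have hA : bin (2 * L) (sP q) (N + 1) * q ^ 2 * (sP q * L) ≤
        bin (2 * L) (sP q) (N + 1) * q ^ 2 * ((N : ℝ) + 1) :=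
      mul_le_mul_of_nonneg_left (by linarith) (by positivity)
    have hB : bin (2 * L) (sP q) N * sP q * (2 * L - N) ≤
        bin (2 * L) (sP q) N * sP q * (2 * L) :=
      mul_le_mul_of_nonneg_left (by linarith [(Nat.cast_nonneg N : (0 : ℝ) ≤ N)]) (by positivity)
    linarith

theorem bin_two_more (hq0 : 0 < q) (hq1 : q < 1) (hL : 4 / q ^ 2 ≤ L) {N : ℕ} (hN : N ∈ win q L) :
    bin (2 * L + 2) (sP q) N ≤ 9 * bin (2 * L) (sP q) N := by
  obtain ⟨h1, h2, h3, h4, h5⟩ := win_facts hq0 hL hN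
  have hLpos : (0 : ℝ) < L := by nlinarith
  have step : ∀ n : ℕ, 2 * L ≤ n → (n : ℝ) + 1 ≤ 3 * L →
      bin (n + 1) (sP q) N ≤ 3 * bin n (sP q) N := by
    intro n hn hn3
    have e := bin_succ_mul n N (sP q)
    rw [one_sub_sP] at e
    have hn' : 2 * (L : ℝ) ≤ n := by exact_mod_cast hn
    refine le_of_mul_le_mul_right ?_ (show 0 < q ^ 2 * (L : ℝ) by positivity)
    have hA : bin (n + 1) (sP q) N * (q ^ 2 * L) ≤ bin (n + 1) (sP q) N * ((n : ℝ) + 1 - N) :=
      mul_le_mul_of_nonneg_left (by linarith) (bin_sP_nonneg hq0 hq1 _ _)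
    have hB : bin n (sP q) N * (((n : ℝ) + 1) * q ^ 2) ≤ bin n (sP q) N * (3 * L * q ^ 2) :=
      mul_le_mul_of_nonneg_left (mul_le_mul_of_nonneg_right hn3 (by positivity))
        (bin_sP_nonneg hq0 hq1 _ _)
    linarith
  have hL2 : (2 : ℝ) ≤ L := by nlinarith
  have a1 := step (2 * L) le_rfl (by push_cast; linarith)
  have a2 := step (2 * L + 1) (by omega) (by push_cast; linarith)
  linarith

theorem pair_facts (hq0 : 0 < q) (hq1 : q < 1) (hL : 4 / q ^ 2 ≤ L) {p : ℕ × ℕ}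
    (hp : p.1 + p.2 ∈ win q L) :
    cof q L L p ≤ 108 * Real.sqrt (2 / q ^ 2) / sP q * (b1 q L (p.1 + p.2) *
        bin (p.1 + p.2) (1 / 2) p.1) ∧
      cof q (L + 1) (L + 1) p ≤ 108 * Real.sqrt (2 / q ^ 2) / sP q * (b1 q L (p.1 + p.2) *
        bin (p.1 + p.2) (1 / 2) p.1) := by
  obtain ⟨h1, h2, h3, h4, h5⟩ := win_facts hq0 hL hp
  have hs := sP_pos hq0 hq1
  have hbb := (bin_le_b1 hq0 hq1 hL hp).1
  have hβ : 0 ≤ bin (p.1 + p.2) (1 / 2 : ℝ) p.1 := bin_nonneg (by norm_num) (by norm_num) _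
  have hb1 : 0 ≤ b1 q L (p.1 + p.2) := bin_sP_nonneg hq0 hq1 _ _
  have hL1 : 1 ≤ L := by
    rcases Nat.eq_zero_or_pos L with rfl | h
    · simp at h5; linarith
    · exact h
  have hLr : (1 : ℝ) ≤ L := by exact_mod_cast hL1
  push_cast at h2
  have hKb : ∀ M : ℕ, L ≤ M → M ≤ L + 1 →
      (M : ℝ) ≤ 2 / q ^ 2 * (2 * M - ((p.1 : ℝ) + p.2) + 1) := by
    intro M hM hM'
    have a : (L : ℝ) ≤ M := by exact_mod_cast hM
    have b : (M : ℝ) ≤ L + 1 := by exact_mod_cast hM'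
    rw [div_mul_eq_mul_div, le_div_iff₀ (by positivity)]
    nlinarith
  unfold cof
  constructor
  · refine (bin_mul_bin_le hs.le (sP_lt_one hq0).le hL1 (hKb L le_rfl (by omega))).trans ?_
    calc 4 * Real.sqrt (2 / q ^ 2) * bin (2 * L) (sP q) (p.1 + p.2) *
          bin (p.1 + p.2) (1 / 2) p.1
        ≤ 36 * Real.sqrt (2 / q ^ 2) * (3 / sP q * b1 q L (p.1 + p.2)) *
          bin (p.1 + p.2) (1 / 2) p.1 := by
          refine mul_le_mul_of_nonneg_right ?_ hβ
          refine mul_le_mul ?_ hbb (bin_sP_nonneg hq0 hq1 _ _) (by positivity)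
          linarith [Real.sqrt_nonneg (2 / q ^ 2)]
      _ = _ := by ring
  · refine (bin_mul_bin_le hs.le (sP_lt_one hq0).le (by omega) (hKb (L + 1) (by omega) le_rfl)).trans ?_
    calc 4 * Real.sqrt (2 / q ^ 2) * bin (2 * (L + 1)) (sP q) (p.1 + p.2) *
          bin (p.1 + p.2) (1 / 2) p.1
        ≤ 4 * Real.sqrt (2 / q ^ 2) * (9 * (3 / sP q * b1 q L (p.1 + p.2))) *
          bin (p.1 + p.2) (1 / 2) p.1 := by
          refine mul_le_mul_of_nonneg_right (mul_le_mul_of_nonneg_left ?_ (by positivity)) hβ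
          exact (bin_two_more hq0 hq1 hL hp).trans (by linarith)
      _ = _ := by ring

/-- The odd and even differences against the product at `(L+1, L+1)`. -/
theorem diff_bounds (hq0 : 0 < q) (hq1 : q < 1) (hL : 1 ≤ L) {p : ℕ × ℕ}
    (hp : p.1 + p.2 ≤ 2 * L) :
    |cO q L p| ≤ cof q (L + 1) (L + 1) p * (2 / (L * q ^ 4)) * |(p.1 : ℝ) - p.2| ∧
      |cE q L p| ≤ cof q (L + 1) (L + 1) p * (1 / (L ^ 2 * q ^ 4)) *
        (((p.1 : ℝ) - p.2) ^ 2 + 2 * L) := by
  obtain ⟨L', rfl⟩ : ∃ L', L = L' + 1 := ⟨L - 1, by omega⟩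
  obtain ⟨k, l⟩ := p
  simp only at hp ⊢
  have e1 := bin_succ_mul (L' + 1) k (sP q)
  have e2 := bin_succ_mul (L' + 1) l (sP q)
  have e3 := bin_succ_mul L' k (sP q)
  have e4 := bin_succ_mul L' l (sP q)
  rw [one_sub_sP] at e1 e2 e3 e4
  have hn1 : 0 ≤ bin (L' + 1 + 1) (sP q) k := bin_sP_nonneg hq0 hq1 _ _
  have hn2 : 0 ≤ bin (L' + 1 + 1) (sP q) l := bin_sP_nonneg hq0 hq1 _ _
  simp only [cO, cE, cof, Nat.add_sub_cancel]
  generalize bin (L' + 1 + 1) (sP q) k = B, bin (L' + 1 + 1) (sP q) l = B',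
    bin (L' + 1) (sP q) k = A, bin (L' + 1) (sP q) l = A',
    bin L' (sP q) k = Z, bin L' (sP q) l = Z' at *
  push_cast at e1 e2
  have hkl : (k : ℝ) + l ≤ 2 * ((L' : ℝ) + 1) := by exact_mod_cast hp
  push_cast
  set Lr : ℝ := (L' : ℝ) + 1 with hLr
  set Mr : ℝ := Lr + 1 with hMr
  have hLp : 0 < Lr := by positivity
  have hMp : 0 < Mr := by positivity
  have f1 : Z * (Lr * Mr * q ^ 4) = B * ((Mr - k) * (Lr - k)) := by
    linear_combination (Mr * q ^ 2) * e3 + (Lr - k) * e1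
  have f2 : Z' * (Lr * Mr * q ^ 4) = B' * ((Mr - l) * (Lr - l)) := by
    linear_combination (Mr * q ^ 2) * e4 + (Lr - l) * e2
  have hk0 : (0 : ℝ) ≤ k := Nat.cast_nonneg k
  have hl0 : (0 : ℝ) ≤ l := Nat.cast_nonneg l
  have hBB : 0 ≤ B * B' := mul_nonneg hn1 hn2
  constructor
  · have g : (B * Z' - Z * B') * (Lr * Mr * q ^ 4) =
        B * B' * (((k : ℝ) - l) * (2 * Mr - (k + l) - 1)) := by
      linear_combination B * f2 - B' * f1
    have hb : |2 * Mr - ((k : ℝ) + l) - 1| ≤ 2 * Mr := abs_le.2 ⟨by linarith, by linarith⟩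
    refine le_of_mul_le_mul_right ?_ (show 0 < Lr * Mr * q ^ 4 by positivity)
    calc |B * Z' - Z * B'| * (Lr * Mr * q ^ 4)
        = B * B' * (|(k : ℝ) - l| * |2 * Mr - (k + l) - 1|) := by
          rw [← abs_of_pos (show 0 < Lr * Mr * q ^ 4 by positivity), ← abs_mul, g, abs_mul,
            abs_of_nonneg hBB, abs_mul]
      _ ≤ B * B' * (|(k : ℝ) - l| * (2 * Mr)) :=
          mul_le_mul_of_nonneg_left (mul_le_mul_of_nonneg_left hb (abs_nonneg _)) hBB
      _ = _ := by field_simp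
  · have f3 : A * A' * (Mr ^ 2 * q ^ 4) = B * B' * ((Mr - k) * (Mr - l)) := by
      linear_combination (A' * (Mr * q ^ 2)) * e1 + (B * (Mr - k)) * e2
    have g : (B * Z' + Z * B' - 2 * (A * A')) * (Lr * Mr ^ 2 * q ^ 4) =
        B * B' * ((Mr - 1 / 2) * ((k : ℝ) - l) ^ 2 - (k + l) * (2 * Mr - (k + l)) / 2) := by
      linear_combination (B * Mr) * f2 + (B' * Mr) * f1 - 2 * Lr * f3
    have hb : |(Mr - 1 / 2) * ((k : ℝ) - l) ^ 2 - (k + l) * (2 * Mr - (k + l)) / 2| ≤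
        Mr * (((k : ℝ) - l) ^ 2 + Mr) := by
      have h0 : 0 ≤ ((k : ℝ) + l) * (2 * Mr - (k + l)) := mul_nonneg (by positivity) (by linarith)
      have h1 : ((k : ℝ) + l) * (2 * Mr - (k + l)) ≤ Mr ^ 2 := by
        nlinarith [sq_nonneg ((k : ℝ) + l - Mr)]
      have h2 : 0 ≤ (Mr - 1 / 2) * ((k : ℝ) - l) ^ 2 := mul_nonneg (by linarith) (sq_nonneg _)
      have h3 : 0 ≤ ((k : ℝ) - l) ^ 2 := sq_nonneg _
      rw [abs_le]
      constructor <;> linarith [mul_nonneg hMp.le h3, sq_nonneg Mr]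
    refine le_of_mul_le_mul_right ?_ (show 0 < Lr * Mr ^ 2 * q ^ 4 by positivity)
    calc |B * Z' + Z * B' - 2 * (A * A')| * (Lr * Mr ^ 2 * q ^ 4)
        = B * B' * |(Mr - 1 / 2) * ((k : ℝ) - l) ^ 2 - (k + l) * (2 * Mr - (k + l)) / 2| := by
          rw [← abs_of_pos (show 0 < Lr * Mr ^ 2 * q ^ 4 by positivity), ← abs_mul, g, abs_mul,
            abs_of_nonneg hBB]
      _ ≤ B * B' * (Mr * (((k : ℝ) - l) ^ 2 + Mr)) := mul_le_mul_of_nonneg_left hb hBB
      _ ≤ B * B' * (Mr ^ 2 / Lr * (((k : ℝ) - l) ^ 2 + 2 * Lr)) := by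
          refine mul_le_mul_of_nonneg_left ?_ hBB
          refine mul_le_mul ?_ (by linarith [(Nat.cast_nonneg L' : (0 : ℝ) ≤ L')]) (by positivity)
            (by positivity)
          rw [le_div_iff₀ hLp]
          nlinarith
      _ = _ := by field_simp

/-- Pointwise bounds of the coefficients inside the window. -/
theorem coef_bounds (hq0 : 0 < q) (hq1 : q < 1) : ∃ K : ℝ, 1 ≤ K ∧ ∀ L : ℕ, 4 / q ^ 2 ≤ L →
    ∀ p : ℕ × ℕ, p.1 + p.2 ∈ win q L →
      |cof q L L p| ≤ K * (b1 q L (p.1 + p.2) * bin (p.1 + p.2) (1 / 2) p.1) ∧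
      |cO q L p| ≤ K / L * (b1 q L (p.1 + p.2) * bin (p.1 + p.2) (1 / 2) p.1 *
        |2 * (p.1 : ℝ) - (p.1 + p.2 : ℕ)|) ∧
      |cE q L p| ≤ K / L ^ 2 * (b1 q L (p.1 + p.2) * bin (p.1 + p.2) (1 / 2) p.1 *
        ((2 * (p.1 : ℝ) - (p.1 + p.2 : ℕ)) ^ 2 + L)) := by
  set K0 := 108 * Real.sqrt (2 / q ^ 2) / sP q with hK0
  have hK0n : 0 ≤ K0 := by have := sP_pos hq0 hq1; positivity
  have hK4 : 0 ≤ 2 * K0 / q ^ 4 := by positivity
  refine ⟨1 + K0 + 2 * K0 / q ^ 4, by linarith, fun L hL p hp => ?_⟩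
  set K := 1 + K0 + 2 * K0 / q ^ 4 with hK
  have hq4 : 0 ≤ 2 * K0 / q ^ 4 := by positivity
  obtain ⟨h0, h1⟩ := pair_facts hq0 hq1 hL hp
  obtain ⟨w1, w2, w3, w4, w5⟩ := win_facts hq0 hL hp
  have hL1 : 1 ≤ L := by
    rcases Nat.eq_zero_or_pos L with rfl | h
    · simp at w5; linarith
    · exact h
  obtain ⟨hO, hE⟩ := diff_bounds hq0 hq1 hL1 (p := p) (by omega)
  set X := b1 q L (p.1 + p.2) * bin (p.1 + p.2) (1 / 2) p.1 with hX
  have hX0 : 0 ≤ X :=
    mul_nonneg (bin_sP_nonneg hq0 hq1 _ _) (bin_nonneg (by norm_num) (by norm_num) _)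
  have hd : 2 * (p.1 : ℝ) - (p.1 + p.2 : ℕ) = (p.1 : ℝ) - p.2 := by push_cast; ring
  rw [hd]
  refine ⟨?_, ?_, ?_⟩
  · rw [abs_of_nonneg (show 0 ≤ cof q L L p from
      mul_nonneg (bin_sP_nonneg hq0 hq1 _ _) (bin_sP_nonneg hq0 hq1 _ _))]
    exact h0.trans (mul_le_mul_of_nonneg_right (by linarith) hX0)
  · refine hO.trans ?_
    calc cof q (L + 1) (L + 1) p * (2 / (L * q ^ 4)) * |(p.1 : ℝ) - p.2|
        ≤ K0 * X * (2 / (L * q ^ 4)) * |(p.1 : ℝ) - p.2| :=
          mul_le_mul_of_nonneg_right (mul_le_mul_of_nonneg_right h1 (by positivity)) (abs_nonneg _)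
      _ = (2 * K0 / q ^ 4) / L * (X * |(p.1 : ℝ) - p.2|) := by ring
      _ ≤ _ := mul_le_mul_of_nonneg_right
          (div_le_div_of_nonneg_right (by linarith) (Nat.cast_nonneg _))
          (mul_nonneg hX0 (abs_nonneg _))
  · refine hE.trans ?_
    calc cof q (L + 1) (L + 1) p * (1 / ((L : ℝ) ^ 2 * q ^ 4)) * (((p.1 : ℝ) - p.2) ^ 2 + 2 * L)
        ≤ K0 * X * (1 / ((L : ℝ) ^ 2 * q ^ 4)) * (2 * (((p.1 : ℝ) - p.2) ^ 2 + L)) := by
          refine mul_le_mul (mul_le_mul_of_nonneg_right h1 (by positivity))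
            (by linarith [sq_nonneg ((p.1 : ℝ) - p.2)]) (by positivity) (by positivity)
      _ = (2 * K0 / q ^ 4) / (L : ℝ) ^ 2 * (X * (((p.1 : ℝ) - p.2) ^ 2 + L)) := by ring
      _ ≤ _ := mul_le_mul_of_nonneg_right
          (div_le_div_of_nonneg_right (by linarith) (by positivity))
          (mul_nonneg hX0 (by positivity))

/-! ### Sums over the window -/

theorem sum_winP (q : ℝ) (L : ℕ) {β : Type*} [AddCommMonoid β] (g : ℕ × ℕ → β) :
    ∑ p ∈ winP q L, g p = ∑ N ∈ win q L, ∑ k ∈ range (N + 1), g (k, N - k) := by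
  rw [sum_sigma' (win q L) (fun N => range (N + 1))]
  refine sum_nbij' (fun p => ⟨p.1 + p.2, p.1⟩) (fun z => (z.2, z.1 - z.2)) ?_ ?_ ?_ ?_ ?_
  · intro p hp
    simp only [winP, mem_filter] at hp
    simp [hp.2]
  · intro z hz
    simp only [mem_sigma, mem_range] at hz
    have : z.1 ∈ range (2 * L + 1) := (mem_filter.1 hz.1).1
    rw [mem_range] at this
    simp only [winP, mem_filter, mem_product, mem_range]
    exact ⟨⟨by omega, by omega⟩, by rw [show z.2 + (z.1 - z.2) = z.1 by omega]; exact hz.1⟩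
  · intro p _
    simp
  · intro z hz
    simp only [mem_sigma, mem_range] at hz
    obtain ⟨N, k⟩ := z
    simp only at hz ⊢
    rw [show k + (N - k) = N by omega]
  · intro p _
    simp

theorem cof_sum (q : ℝ) (a b N : ℕ) :
    ∑ k ∈ range (N + 1), cof q a b (k, N - k) = bin (a + b) (sP q) N :=
  (bin_conv a b N (sP q)).symm

theorem cO_sum (q : ℝ) {L : ℕ} (hL : 1 ≤ L) (N : ℕ) :
    ∑ k ∈ range (N + 1), cO q L (k, N - k) = 0 := by
  simp only [cO, sum_sub_distrib, cof_sum]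
  rw [show L + 1 + (L - 1) = L - 1 + (L + 1) by omega, sub_self]

theorem cE_sum (q : ℝ) {L : ℕ} (hL : 1 ≤ L) (N : ℕ) :
    ∑ k ∈ range (N + 1), cE q L (k, N - k) = 0 := by
  simp only [cE, sum_sub_distrib, sum_add_distrib, ← mul_sum, cof_sum]
  rw [show L + 1 + (L - 1) = L + L by omega, show L - 1 + (L + 1) = L + L by omega]
  ring

theorem sum_b1_le (hq0 : 0 < q) (hq1 : q < 1) (L : ℕ) (s : Finset ℕ) : ∑ N ∈ s, b1 q L N ≤ 1 := by
  calc ∑ N ∈ s, b1 q L N = ∑ N ∈ s.image (· + 1), bin (2 * L) (sP q) N := by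
        rw [sum_image fun a _ b _ h => by simpa using h]; rfl
    _ ≤ 1 := sum_bin_le (sP_pos hq0 hq1).le (sP_lt_one hq0).le _

theorem sum_b1_var_le (hq0 : 0 < q) (hq1 : q < 1) {L : ℕ} (hL : 1 ≤ L) :
    ∑ N ∈ win q L, b1 q L N * ((N : ℝ) - 2 * L * sP q) ^ 2 ≤ 6 * (L : ℝ) := by
  have hs := sP_pos hq0 hq1
  have hv := binE_var (2 * L) (sP q)
  push_cast at hv
  calc ∑ N ∈ win q L, b1 q L N * ((N : ℝ) - 2 * L * sP q) ^ 2
      ≤ ∑ N ∈ win q L, b1 q L N * (2 * (((N + 1 : ℕ) : ℝ) - 2 * L * sP q) ^ 2 + 2) := by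
        refine sum_le_sum fun N _ => mul_le_mul_of_nonneg_left ?_ (bin_sP_nonneg hq0 hq1 _ _)
        push_cast
        nlinarith [sq_nonneg ((N : ℝ) + 2 - 2 * L * sP q)]
    _ = ∑ M ∈ (win q L).image (· + 1),
          bin (2 * L) (sP q) M * (2 * ((M : ℝ) - 2 * L * sP q) ^ 2 + 2) := by
        rw [sum_image fun a _ b _ h => by simpa using h]; rfl
    _ ≤ binE (2 * L) (sP q) (fun M => 2 * ((M : ℝ) - 2 * L * sP q) ^ 2 + 2 * 1) := by
        rw [binE_eq_sum (m := 2 * L + 1) (by omega)]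
        simp only [mul_one]
        refine sum_le_sum_of_subset_of_nonneg (fun M hM => ?_) fun M _ _ =>
          mul_nonneg (bin_sP_nonneg hq0 hq1 _ _) (by positivity)
        obtain ⟨N, hN, rfl⟩ := mem_image.1 hM
        have := mem_range.1 (mem_filter.1 hN).1
        exact mem_range.2 (by omega)
    _ = 2 * (2 * L * sP q * (1 - sP q)) + 2 := by
        rw [binE_linear, hv, binE_const]; ring
    _ ≤ 6 * L := by
        have : (1 : ℝ) ≤ L := by exact_mod_cast hL
        nlinarith [sP_lt_one hq0, mul_pos hs hs]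

/-- The three sums of squares over a fixed total. -/
theorem split_sums (hq0 : 0 < q) (hq1 : q < 1) (hL : 4 / q ^ 2 ≤ L) {N : ℕ} (hN : N ∈ win q L) :
    ∑ k ∈ range (N + 1), bin N (1 / 2) k ^ 2 ≤ 2 / Real.sqrt (sP q) / Real.sqrt L ∧
      ∑ k ∈ range (N + 1), (bin N (1 / 2) k * |2 * (k : ℝ) - N|) ^ 2 ≤
        4 / Real.sqrt (sP q) * Real.sqrt L ∧
      ∑ k ∈ range (N + 1), (bin N (1 / 2) k * ((2 * (k : ℝ) - N) ^ 2 + L)) ^ 2 ≤
        52 / Real.sqrt (sP q) * (L * Real.sqrt L) := by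
  obtain ⟨h1, h2, h3, h4, h5⟩ := win_facts hq0 hL hN
  have hs := sP_pos hq0 hq1
  have hLpos : (0 : ℝ) < L := by nlinarith
  have hL2 := Real.mul_self_sqrt hLpos.le
  have hsq : 0 < Real.sqrt (L : ℝ) := Real.sqrt_pos.2 hLpos
  have hmax : ∀ k, bin N (1 / 2) k ≤ 2 / Real.sqrt (sP q) / Real.sqrt L := fun k => by
    refine (bin_half_le N k).trans ?_
    rw [div_div, ← Real.sqrt_mul hs.le]
    exact div_le_div_of_nonneg_left (by norm_num) (by positivity)
      (Real.sqrt_le_sqrt (by linarith))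
  have hn : ∀ k, 0 ≤ bin N (1 / 2 : ℝ) k := fun k => bin_nonneg (by norm_num) (by norm_num) k
  have hu : ∀ g : ℕ → ℝ, (∀ k, 0 ≤ g k) →
      ∑ k ∈ range (N + 1), bin N (1 / 2) k * (bin N (1 / 2) k * g k) ≤
        2 / Real.sqrt (sP q) / Real.sqrt L * binE N (1 / 2) g := fun g hg => by
    rw [binE, mul_sum]
    exact sum_le_sum fun k _ => mul_le_mul_of_nonneg_right (hmax k) (mul_nonneg (hn k) (hg k))
  refine ⟨?_, ?_, ?_⟩
  · refine le_trans (le_of_eq (sum_congr rfl fun k _ => ?_)) ((hu (fun _ => 1) fun _ => zero_le_one).trans ?_)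
    · ring
    · rw [binE_const, mul_one]
  · refine le_trans (le_of_eq (sum_congr rfl fun k _ => ?_))
      ((hu (fun k => (2 * (k : ℝ) - N) ^ 2) fun _ => sq_nonneg _).trans ?_)
    · rw [mul_pow, sq_abs]; ring
    · rw [binE_half_sq]
      calc 2 / Real.sqrt (sP q) / Real.sqrt L * N ≤ 2 / Real.sqrt (sP q) / Real.sqrt L * (2 * L) :=
            mul_le_mul_of_nonneg_left h4 (by positivity)
        _ = 4 / Real.sqrt (sP q) * (L / Real.sqrt L) := by ring
        _ = _ := by rw [Real.div_sqrt]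
  · refine le_trans (le_of_eq (sum_congr rfl fun k _ => ?_))
      ((hu (fun k => ((2 * (k : ℝ) - N) ^ 2 + L) ^ 2) fun _ => sq_nonneg _).trans ?_)
    · ring
    · have hE : binE N (1 / 2) (fun k => ((2 * (k : ℝ) - N) ^ 2 + L) ^ 2) ≤ 26 * (L : ℝ) ^ 2 := by
        refine (binE_mono (by norm_num) (by norm_num) (g := fun k =>
          2 * (2 * (k : ℝ) - N) ^ 4 + (2 * (L : ℝ) ^ 2) * 1) fun k _ => ?_).trans ?_
        · nlinarith [sq_nonneg ((2 * (k : ℝ) - N) ^ 2 - L)]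
        · rw [binE_linear, binE_const]
          have := binE_fourth N
          nlinarith [(Nat.cast_nonneg N : (0 : ℝ) ≤ N)]
      calc _ ≤ 2 / Real.sqrt (sP q) / Real.sqrt L * (26 * (L : ℝ) ^ 2) :=
            mul_le_mul_of_nonneg_left hE (by positivity)
        _ = 52 / Real.sqrt (sP q) * (L * (L / Real.sqrt L)) := by ring
        _ = _ := by rw [Real.div_sqrt]

theorem sum_split_abs (N : ℕ) {c : ℝ} (hc : 0 < c) :
    ∑ k ∈ range (N + 1), bin N (1 / 2) k * |2 * (k : ℝ) - N| ≤ (N : ℝ) / (2 * c) + c / 2 := by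
  refine (binE_mono (n := N) (x := 1 / 2) (by norm_num) (by norm_num)
    (f := fun k => |2 * (k : ℝ) - N|)
    (g := fun k => 1 / (2 * c) * (2 * (k : ℝ) - N) ^ 2 + c / 2 * 1) fun k _ => ?_).trans_eq ?_
  · rw [← sub_nonneg]
    have e : 1 / (2 * c) * (2 * (k : ℝ) - N) ^ 2 + c / 2 * 1 - |2 * (k : ℝ) - N| =
        (|2 * (k : ℝ) - N| - c) ^ 2 / (2 * c) := by
      field_simp
      rw [← sq_abs (2 * (k : ℝ) - N)]
      ring
    rw [e]
    positivity
  · rw [binE_linear, binE_const, binE_half_sq]; ring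

/-- Pointwise bound of the even weight. -/
theorem even_point (hq0 : 0 < q) (hq1 : q < 1) (hL : 4 / q ^ 2 ≤ L) {N : ℕ} (hN : N ∈ win q L)
    (k : ℕ) :
    bin N (1 / 2) k * ((2 * (k : ℝ) - N) ^ 2 + L) ≤ (32 + 2 / Real.sqrt (sP q)) * Real.sqrt L := by
  obtain ⟨h1, h2, h3, h4, h5⟩ := win_facts hq0 hL hN
  have hs := sP_pos hq0 hq1
  have hLpos : (0 : ℝ) < L := by nlinarith
  rw [mul_add, add_mul]
  refine add_le_add ((bin_half_mul_sq N k).trans ?_) ?_
  · have : Real.sqrt ((N : ℝ) + 1) ≤ 2 * Real.sqrt L := by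
      rw [Real.sqrt_le_iff]
      refine ⟨by positivity, ?_⟩
      rw [mul_pow, Real.sq_sqrt hLpos.le]
      have : (N : ℝ) + 1 ≤ 2 * L := by exact_mod_cast h3
      linarith
    linarith
  · calc bin N (1 / 2) k * L ≤ 2 / Real.sqrt (sP q * L) * L := by
          refine mul_le_mul_of_nonneg_right ((bin_half_le N k).trans ?_) hLpos.le
          exact div_le_div_of_nonneg_left (by norm_num) (by positivity)
            (Real.sqrt_le_sqrt (by linarith))
      _ = 2 / Real.sqrt (sP q) * (L / Real.sqrt L) := by rw [Real.sqrt_mul hs.le]; ring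
      _ = _ := by rw [Real.div_sqrt]

/-- The tail of the number of nonempty periods. -/
theorem tail_bound (hq0 : 0 < q) (hq1 : q < 1) (L : ℕ) :
    ∑ N ∈ range (2 * L + 1) \ win q L, bin (2 * L) (sP q) N ≤
      2 * Real.exp (-(th q ^ 2 / 8) * L) := by
  have hs := sP_pos hq0 hq1
  have hs1 := sP_lt_one hq0
  have ht := th_pos hq0 hq1
  have ht1 : th q ≤ 1 := (min_le_left _ _).trans hs1.le
  set t := th q / 4 with htdef
  have hexp : ∀ u : ℝ, |u| ≤ 1 → Real.exp u ≤ 1 + u + u ^ 2 := fun u hu => by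
    have := abs_le.1 (Real.abs_exp_sub_one_sub_id_le hu)
    linarith
  have hmgf : ∀ u : ℝ, |u| ≤ 1 →
      binE (2 * L) (sP q) (fun N => Real.exp (u * ((N : ℝ) - 2 * L * sP q))) ≤
        Real.exp (2 * L * u ^ 2) := by
    intro u hu
    rw [binE_congr (g := fun N => Real.exp (-(2 * L * sP q * u)) * Real.exp (u * N) + 0 * 1)
      (fun N _ => by rw [← Real.exp_add, zero_mul, add_zero]; ring_nf), binE_linear, binE_exp,
      show -(2 * L * sP q * u) = ((2 * L : ℕ) : ℝ) * (-(sP q * u)) by push_cast; ring,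
      Real.exp_nat_mul, ← mul_pow, zero_mul, add_zero,
      show 2 * (L : ℝ) * u ^ 2 = ((2 * L : ℕ) : ℝ) * u ^ 2 by push_cast; ring, Real.exp_nat_mul]
    refine pow_le_pow_left₀ ?_ ?_ _
    · exact mul_nonneg (Real.exp_pos _).le
        (add_nonneg (mul_nonneg hs.le (Real.exp_pos _).le) (by linarith))
    · have b1 := hexp (u * (1 - sP q)) (by
        rw [abs_mul, abs_of_nonneg (show (0 : ℝ) ≤ 1 - sP q by linarith)]
        nlinarith [abs_nonneg u])
      have b2 := hexp (-(sP q * u)) (by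
        rw [abs_neg, abs_mul, abs_of_pos hs]
        nlinarith [abs_nonneg u])
      have m1 := mul_le_mul_of_nonneg_left b1 hs.le
      have m2 := mul_le_mul_of_nonneg_left b2 (show (0 : ℝ) ≤ 1 - sP q by linarith)
      have e : Real.exp (-(sP q * u)) * Real.exp u = Real.exp (u * (1 - sP q)) := by
        rw [← Real.exp_add]; ring_nf
      have := Real.add_one_le_exp (u ^ 2)
      have k0 : sP q * (1 - sP q) * u ^ 2 ≤ 1 * u ^ 2 :=
        mul_le_mul_of_nonneg_right (by nlinarith) (sq_nonneg u)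
      rw [mul_add, ← mul_assoc, mul_comm (Real.exp _) (sP q), mul_assoc, e]
      linarith
  have htabs : |t| ≤ 1 := by rw [abs_of_pos (by positivity)]; linarith
  have key := add_le_add (hmgf t htabs) (hmgf (-t) (by rwa [abs_neg]))
  calc ∑ N ∈ range (2 * L + 1) \ win q L, bin (2 * L) (sP q) N
      ≤ ∑ N ∈ range (2 * L + 1), bin (2 * L) (sP q) N * (Real.exp (-(t * (th q * L))) *
          (Real.exp (t * ((N : ℝ) - 2 * L * sP q)) + Real.exp (-t * ((N : ℝ) - 2 * L * sP q)))) := by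
        refine le_trans (sum_le_sum fun N hN => ?_) (sum_le_sum_of_subset_of_nonneg sdiff_subset
          fun N _ _ => mul_nonneg (bin_sP_nonneg hq0 hq1 _ _) (by positivity))
        refine le_mul_of_one_le_right (bin_sP_nonneg hq0 hq1 _ _) ?_
        obtain ⟨hN1, hN2⟩ := mem_sdiff.1 hN
        simp only [win, mem_filter, hN1, true_and, not_le, lt_abs] at hN2
        rw [mul_add, ← Real.exp_add, ← Real.exp_add]
        rcases hN2 with h | h
        · refine le_add_of_le_of_nonneg (Real.one_le_exp ?_) (Real.exp_pos _).le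
          have := mul_le_mul_of_nonneg_left h.le (show 0 ≤ t by positivity)
          linarith
        · refine le_add_of_nonneg_of_le (Real.exp_pos _).le (Real.one_le_exp ?_)
          have := mul_le_mul_of_nonneg_left h.le (show 0 ≤ t by positivity)
          linarith
    _ = Real.exp (-(t * (th q * L))) *
          (binE (2 * L) (sP q) (fun N => Real.exp (t * ((N : ℝ) - 2 * L * sP q))) +
            binE (2 * L) (sP q) (fun N => Real.exp (-t * ((N : ℝ) - 2 * L * sP q)))) := by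
        simp only [binE, ← sum_add_distrib, mul_sum]
        exact sum_congr rfl fun N _ => by ring
    _ ≤ Real.exp (-(t * (th q * L))) * (2 * Real.exp (2 * L * t ^ 2)) := by
        refine mul_le_mul_of_nonneg_left (key.trans_eq ?_) (Real.exp_pos _).le
        rw [neg_sq]; ring
    _ = _ := by
        rw [mul_left_comm, ← Real.exp_add]
        congr 2
        rw [htdef]; ring

end Vale.Agent.P321.Blk
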