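import Vale.Agent.P321.BaseLift

/-!
# P321 module 5, helper: binomial expansion of powers of the period law
-/

namespace Vale.Agent.P321.Blk

open Finset Push

variable {q : ℝ}

/-- A deleted period is nonempty with probability `1 - q ^ 2`. -/
theorem perLaw_pow (hq0 : 0 < q) (hq1 : q < 1) (n : ℕ) :
    perLaw q ^ n = ∑ k ∈ range (n + 1), bin n (1 - q ^ 2) k • Qlaw q ^ k := by
  have hc : Commute ((1 - q ^ 2) • Qlaw q) (q ^ 2 • (1 : Law)) :=
    ((Commute.one_right (Qlaw q)).smul_left _).smul_right _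
  rw [perLaw_eq hq0 hq1, add_comm, hc.add_pow]
  refine sum_congr rfl fun k _ => ?_
  rw [smul_pow, smul_pow, one_pow, ← nsmul_eq_mul', ← Nat.cast_smul_eq_nsmul ℝ,
    smul_mul_smul_comm, mul_one, smul_smul, bin, sub_sub_cancel, mul_assoc]

/-- One token block as a weighted family of one-defect words. -/
noncomputable def defectL (q : ℝ) (I : Finset (ℕ × ℕ)) (c : ℕ × ℕ → ℝ) : Law :=
  ∑ p ∈ I, c p • (Qlaw q ^ p.1 * psi q * Qlaw q ^ p.2)

end Vale.Agent.P321.Blk
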