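import Vale.Agent.P321.Algebra
import Vale.Agent.P321.BaseDefs
import Vale.Agent.P321.BaseBin

/-!
# P321 module 5, helper: the law of a nonempty period and families of pieces

A nonempty deleted period is one of the pieces `0`, `1`, `01`. Products of the law `Q` of a piece
and of `psi = δ_1 - Q` are pushforwards of weighted families of tuples of pieces, on which second
and fourth moments are computed exactly.
-/

namespace Vale.Agent.P321.Blk

open Finset Push
open scoped Classical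

variable {q : ℝ}

/-- The three nonempty pieces of a period. -/
def pieceW : Fin 3 → TW :=
  ![FreeMonoid.of false, FreeMonoid.of true, FreeMonoid.of false * FreeMonoid.of true]

/-- Their probabilities given that the period is not deleted. -/
noncomputable def wQ (q : ℝ) : Fin 3 → ℝ :=
  ![q * (1 - q) / (1 - q ^ 2), q * (1 - q) / (1 - q ^ 2), (1 - q) ^ 2 / (1 - q ^ 2)]

/-- The likelihood ratio minus one of the piece `1` against `Q`. -/
noncomputable def aQ (q : ℝ) (i : Fin 3) : ℝ := (if i = 1 then 1 / wQ q 1 else 0) - 1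

/-- The law of a nonempty period. -/
noncomputable def Qlaw (q : ℝ) : Law := pushLaw univ pieceW (wQ q)

/-- `δ_1 - Q`. -/
noncomputable def psi (q : ℝ) : Law := pushLaw univ pieceW fun i => wQ q i * aQ q i

/-- The word of a tuple of pieces. -/
def tupW (n : ℕ) (f : Fin n → Fin 3) : TW := (List.ofFn fun i => pieceW (f i)).prod

/-- The probability of a tuple of pieces. -/
noncomputable def tupP (q : ℝ) {n : ℕ} (f : Fin n → Fin 3) : ℝ := ∏ i, wQ q (f i)

/-- A signed weight on tuples of pieces, as a law. -/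
noncomputable def tupL (n : ℕ) (x : (Fin n → Fin 3) → ℝ) : Law := pushLaw univ (tupW n) x

theorem wQ_pos (hq0 : 0 < q) (hq1 : q < 1) (i : Fin 3) : 0 < wQ q i := by
  have h1 : 0 < 1 - q ^ 2 := by nlinarith
  have h2 : 0 < 1 - q := by linarith
  fin_cases i <;> simp [wQ] <;> positivity

theorem wQ_sum (hq0 : 0 < q) (hq1 : q < 1) : ∑ i, wQ q i = 1 := by
  have h1 : (1 - q ^ 2) ≠ 0 := by nlinarith
  simp [wQ, Fin.sum_univ_three]
  field_simp
  ring

theorem aQ_mean (hq0 : 0 < q) (hq1 : q < 1) : ∑ i, wQ q i * aQ q i = 0 := by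
  have := (wQ_pos hq0 hq1 1).ne'
  have hs := wQ_sum hq0 hq1
  rw [Fin.sum_univ_three] at hs ⊢
  simp only [aQ, Fin.isValue, show (0 : Fin 3) ≠ 1 by decide, show (2 : Fin 3) ≠ 1 by decide,
    if_false, if_true]
  field_simp
  linarith

/-- Second moment of `aQ`. -/
noncomputable def aV (q : ℝ) : ℝ := ∑ i, wQ q i * aQ q i ^ 2

/-- Fourth moment of `aQ`. -/
noncomputable def aU (q : ℝ) : ℝ := ∑ i, wQ q i * aQ q i ^ 4

theorem aV_nonneg (hq0 : 0 < q) (hq1 : q < 1) : 0 ≤ aV q :=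
  sum_nonneg fun i _ => mul_nonneg (wQ_pos hq0 hq1 i).le (sq_nonneg _)

theorem aU_nonneg (hq0 : 0 < q) (hq1 : q < 1) : 0 ≤ aU q :=
  sum_nonneg fun i _ => mul_nonneg (wQ_pos hq0 hq1 i).le (Even.pow_nonneg (by decide) _)

theorem Qlaw_isProb (hq0 : 0 < q) (hq1 : q < 1) : IsProb (Qlaw q) := by
  refine ⟨fun y => ?_, ?_⟩
  · rw [Qlaw, val_pushLaw]; exact sum_nonneg fun i _ => (wQ_pos hq0 hq1 i).le
  · rw [Qlaw, mass_pushLaw]; exact wQ_sum hq0 hq1

theorem single_true_eq (hq0 : 0 < q) (hq1 : q < 1) :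
    MonoidAlgebra.single (FreeMonoid.of true) 1 = Qlaw q + psi q := by
  rw [Qlaw, psi, pushLaw, pushLaw, ← sum_add_distrib, Fin.sum_univ_three]
  have := (wQ_pos hq0 hq1 1).ne'
  simp only [← MonoidAlgebra.single_add, aQ, Fin.isValue, show (0 : Fin 3) ≠ 1 by decide,
    show (2 : Fin 3) ≠ 1 by decide, if_false, if_true]
  have e : wQ q 1 + wQ q 1 * (1 / wQ q 1 - 1) = 1 := by field_simp; ring
  rw [e]
  simp [pieceW]

theorem perLaw_eq (hq0 : 0 < q) (hq1 : q < 1) :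
    perLaw q = q ^ 2 • (1 : Law) + (1 - q ^ 2) • Qlaw q := by
  have h1 : (1 - q ^ 2) ≠ 0 := by nlinarith
  have e1 : (1 - q ^ 2) * (q * (1 - q) / (1 - q ^ 2)) = q * (1 - q) := by field_simp
  have e2 : (1 - q ^ 2) * ((1 - q) ^ 2 / (1 - q ^ 2)) = (1 - q) * (1 - q) := by field_simp
  rw [perLaw, perW, map_mul]
  simp only [lawHom, FreeMonoid.lift_eval_of, bitLaw, Qlaw, pushLaw, Fin.sum_univ_three, pieceW, wQ,
    Matrix.cons_val_zero, Matrix.cons_val_one, Matrix.cons_val_two, Matrix.head_cons,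
    Matrix.tail_cons, MonoidAlgebra.one_def, smul_add, MonoidAlgebra.smul_single', mul_one, e1, e2,
    add_mul, mul_add, MonoidAlgebra.single_mul_single, one_mul]
  rw [← sq, mul_comm (1 - q) q]
  abel

theorem pushLaw_add {ι : Type*} (I : Finset ι) (φ : ι → TW) (x y : ι → ℝ) :
    pushLaw I φ x + pushLaw I φ y = pushLaw I φ fun i => x i + y i := by
  simp [pushLaw, sum_add_distrib, MonoidAlgebra.single_add]

theorem pushLaw_smul {ι : Type*} (I : Finset ι) (φ : ι → TW) (c : ℝ) (x : ι → ℝ) :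
    c • pushLaw I φ x = pushLaw I φ fun i => c * x i := by
  simp [pushLaw, smul_sum, MonoidAlgebra.smul_single']

theorem pushLaw_sum {ι κ : Type*} (I : Finset ι) (φ : ι → TW) (s : Finset κ) (x : κ → ι → ℝ) :
    ∑ a ∈ s, pushLaw I φ (x a) = pushLaw I φ fun i => ∑ a ∈ s, x a i := by
  unfold pushLaw
  rw [sum_comm]
  exact sum_congr rfl fun i _ => (map_sum (MonoidAlgebra.singleAddHom (R := ℝ) (φ i)) _ _).symm

theorem tupL_sum_smul {κ : Type*} (n : ℕ) (s : Finset κ) (c : κ → ℝ)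
    (x : κ → (Fin n → Fin 3) → ℝ) :
    ∑ a ∈ s, c a • tupL n (x a) = tupL n fun f => ∑ a ∈ s, c a * x a f := by
  simp only [tupL, pushLaw_smul]
  exact pushLaw_sum _ _ _ _

theorem tupL_mul (m n : ℕ) (x : (Fin m → Fin 3) → ℝ) (y : (Fin n → Fin 3) → ℝ) :
    tupL m x * tupL n y =
      tupL (m + n) fun f => x (fun i => f (Fin.castAdd n i)) * y (fun j => f (Fin.natAdd m j)) := by
  unfold tupL pushLaw
  rw [sum_mul_sum, ← sum_product']
  refine Fintype.sum_equiv (Fin.appendEquiv m n) _ _ fun p => ?_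
  obtain ⟨f, g⟩ := p
  simp only [Fin.appendEquiv, Equiv.coe_fn_mk, Fin.append_left, Fin.append_right,
    MonoidAlgebra.single_mul_single, tupW]
  congr 1
  rw [← List.prod_append, ← List.ofFn_fin_append]
  congr 2
  ext i
  exact Fin.addCases (fun i => by simp) (fun i => by simp) i

theorem tupL_one (x : (Fin 1 → Fin 3) → ℝ) :
    tupL 1 x = pushLaw univ pieceW fun i => x fun _ => i := by
  unfold tupL pushLaw
  refine Fintype.sum_equiv (Equiv.funUnique (Fin 1) (Fin 3)) _ _ fun f => ?_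
  have : (fun _ => f 0) = f := by funext i; rw [Subsingleton.elim i 0]
  simp [tupW, Equiv.funUnique, this]

theorem tupL_zero : tupL 0 (tupP q) = 1 := by
  simp [tupL, pushLaw, tupW, tupP, MonoidAlgebra.one_def]

theorem Qlaw_eq (q : ℝ) : Qlaw q = tupL 1 (tupP q) := by
  rw [tupL_one, Qlaw]; simp [tupP]

theorem psi_eq (q : ℝ) : psi q = tupL 1 fun f => tupP q f * aQ q (f 0) := by
  rw [tupL_one, psi]; simp [tupP]

theorem tupP_split (q : ℝ) {m n : ℕ} (f : Fin (m + n) → Fin 3) :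
    tupP q (fun i => f (Fin.castAdd n i)) * tupP q (fun j => f (Fin.natAdd m j)) = tupP q f :=
  (Fin.prod_univ_add fun i => wQ q (f i)).symm

theorem Qlaw_pow (q : ℝ) (n : ℕ) : Qlaw q ^ n = tupL n (tupP q) := by
  induction n with
  | zero => rw [pow_zero, tupL_zero]
  | succ n ih =>
    rw [pow_succ, ih, Qlaw_eq, tupL_mul]
    simp only [tupP_split]

/-- One defect among `n` pieces. -/
theorem Qpow_psi_Qpow (q : ℝ) (k l n : ℕ) (h : k + 1 + l = n) :
    Qlaw q ^ k * psi q * Qlaw q ^ l =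
      tupL n fun f => tupP q f * aQ q (f ⟨k, by omega⟩) := by
  subst h
  rw [Qlaw_pow, Qlaw_pow, psi_eq, tupL_mul, tupL_mul]
  congr 1
  funext f
  rw [← tupP_split q f, ← tupP_split q fun i => f (Fin.castAdd l i)]
  have : (Fin.castAdd l (Fin.natAdd k (0 : Fin 1))) = (⟨k, by omega⟩ : Fin (k + 1 + l)) :=
    Fin.ext (by simp)
  simp only [this]
  ring

/-- Two defects among `n` pieces. -/
theorem Qpow_psi_Qpow_psi_Qpow (q : ℝ) (i j l n : ℕ) (h : i + 1 + j + 1 + l = n) :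
    Qlaw q ^ i * psi q * Qlaw q ^ j * psi q * Qlaw q ^ l =
      tupL n fun f => tupP q f * (aQ q (f ⟨i, by omega⟩) * aQ q (f ⟨i + 1 + j, by omega⟩)) := by
  subst h
  rw [Qpow_psi_Qpow q i j _ rfl, psi_eq, Qlaw_pow, tupL_mul, tupL_mul]
  congr 1
  funext f
  rw [← tupP_split q f, ← tupP_split q fun t => f (Fin.castAdd l t)]
  have e1 : (Fin.castAdd l (Fin.castAdd 1 (⟨i, by omega⟩ : Fin (i + 1 + j)))) =
      (⟨i, by omega⟩ : Fin (i + 1 + j + 1 + l)) := Fin.ext (by simp)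
  have e2 : (Fin.castAdd l (Fin.natAdd (i + 1 + j) (0 : Fin 1))) =
      (⟨i + 1 + j, by omega⟩ : Fin (i + 1 + j + 1 + l)) := Fin.ext (by simp)
  simp only [e1, e2]
  ring

/-! ### Moments -/

theorem sum_tupP (hq0 : 0 < q) (hq1 : q < 1) (n : ℕ) : ∑ f : Fin n → Fin 3, tupP q f = 1 := by
  rw [show (∑ f : Fin n → Fin 3, tupP q f) = ∏ _i : Fin n, ∑ x, wQ q x from
    (Fintype.prod_sum fun (_ : Fin n) x => wQ q x).symm, wQ_sum hq0 hq1, prod_const_one]

/-- Moment of a product of defects. -/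
theorem moment_pair (q : ℝ) (hq0 : 0 < q) (hq1 : q < 1) {n : ℕ} (S T : Finset (Fin n)) :
    ∑ f, tupP q f * ((∏ t ∈ S, aQ q (f t)) * ∏ t ∈ T, aQ q (f t)) =
      if S = T then aV q ^ S.card else 0 := by
  have e : ∀ f : Fin n → Fin 3, tupP q f * ((∏ t ∈ S, aQ q (f t)) * ∏ t ∈ T, aQ q (f t)) =
      ∏ t, wQ q (f t) * ((if t ∈ S then aQ q (f t) else 1) * if t ∈ T then aQ q (f t) else 1) := by
    intro f
    rw [prod_mul_distrib, prod_mul_distrib, Fintype.prod_ite_mem, Fintype.prod_ite_mem]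
    rfl
  rw [sum_congr rfl fun f _ => e f,
    ← Fintype.prod_sum fun t x => wQ q x * ((if t ∈ S then aQ q x else 1) *
      if t ∈ T then aQ q x else 1)]
  split_ifs with h
  · subst h
    have : ∀ t : Fin n, (∑ x, wQ q x * ((if t ∈ S then aQ q x else 1) *
        if t ∈ S then aQ q x else 1)) = if t ∈ S then aV q else 1 := by
      intro t
      by_cases ht : t ∈ S
      · simp only [if_pos ht, aV, sq]
      · simp only [if_neg ht, mul_one]; exact wQ_sum hq0 hq1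
    rw [prod_congr rfl fun t _ => this t, Fintype.prod_ite_mem, prod_const]
  · obtain ⟨t, ht⟩ : ∃ t, ¬(t ∈ S ↔ t ∈ T) := by
      by_contra hc
      exact h (Finset.ext fun t => not_not.1 fun hne => hc ⟨t, hne⟩)
    refine prod_eq_zero (mem_univ t) ?_
    by_cases hS : t ∈ S
    · have hT : t ∉ T := fun hT => ht ⟨fun _ => hT, fun _ => hS⟩
      simp only [if_pos hS, if_neg hT, mul_one]; exact aQ_mean hq0 hq1
    · have hT : t ∈ T := by
        by_contra hT; exact ht ⟨fun h => absurd h hS, fun h => absurd h hT⟩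
      simp only [if_neg hS, if_pos hT, one_mul]; exact aQ_mean hq0 hq1

/-- Sums of distinct products of defects add in squares. -/
theorem moment_orth (hq0 : 0 < q) (hq1 : q < 1) {n : ℕ} {κ : Type*} (s : Finset κ) (c : κ → ℝ)
    (S : κ → Finset (Fin n)) (m : ℕ) (hm : ∀ a ∈ s, (S a).card = m)
    (hinj : ∀ a ∈ s, ∀ b ∈ s, S a = S b → a = b) :
    ∑ f, tupP q f * (∑ a ∈ s, c a * ∏ t ∈ S a, aQ q (f t)) ^ 2 =
      aV q ^ m * ∑ a ∈ s, c a ^ 2 := by
  have e : ∀ f : Fin n → Fin 3, tupP q f * (∑ a ∈ s, c a * ∏ t ∈ S a, aQ q (f t)) ^ 2 =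
      ∑ a ∈ s, ∑ b ∈ s, c a * c b *
        (tupP q f * ((∏ t ∈ S a, aQ q (f t)) * ∏ t ∈ S b, aQ q (f t))) := by
    intro f
    rw [sq, sum_mul_sum, mul_sum]
    refine sum_congr rfl fun a _ => ?_
    rw [mul_sum]
    exact sum_congr rfl fun b _ => by ring
  rw [sum_congr rfl fun f _ => e f, sum_comm, mul_sum]
  refine sum_congr rfl fun a ha => ?_
  rw [sum_comm, sum_eq_single_of_mem a ha]
  · rw [← mul_sum, moment_pair q hq0 hq1, if_pos rfl, hm a ha]; ring
  · intro b hb hne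
    rw [← mul_sum, moment_pair q hq0 hq1, if_neg fun he => hne (hinj a ha b hb he).symm, mul_zero]

theorem moment_linear (hq0 : 0 < q) (hq1 : q < 1) {n : ℕ} (c : Fin n → ℝ) :
    ∑ f, tupP q f * (∑ i, c i * aQ q (f i)) = 0 := by
  simp only [mul_sum]
  rw [sum_comm]
  refine sum_eq_zero fun i _ => ?_
  have := moment_pair q hq0 hq1 {i} (∅ : Finset (Fin n))
  simp only [prod_singleton, prod_empty, mul_one] at this
  rw [if_neg (singleton_ne_empty i)] at this
  calc ∑ f, tupP q f * (c i * aQ q (f i)) = c i * ∑ f, tupP q f * aQ q (f i) := by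
        rw [mul_sum]; exact sum_congr rfl fun f _ => by ring
    _ = 0 := by rw [this, mul_zero]

theorem moment_two (hq0 : 0 < q) (hq1 : q < 1) {n : ℕ} (c : Fin n → ℝ) :
    ∑ f, tupP q f * (∑ i, c i * aQ q (f i)) ^ 2 = aV q * ∑ i, c i ^ 2 := by
  have := moment_orth hq0 hq1 univ c (fun i => ({i} : Finset (Fin n))) 1
    (fun a _ => card_singleton a) (fun a _ b _ h => singleton_injective h)
  simpa using this

theorem moment_four (hq0 : 0 < q) (hq1 : q < 1) {n : ℕ} (c : Fin n → ℝ) :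
    ∑ f, tupP q f * (∑ i, c i * aQ q (f i)) ^ 4 ≤
      (3 * aV q ^ 2 + aU q) * (∑ i, c i ^ 2) ^ 2 := by
  induction n with
  | zero => simp
  | succ n ih =>
    set c' : Fin n → ℝ := fun i => c i.succ with hc'
    have hsplit : ∀ p : Fin 3 × (Fin n → Fin 3),
        tupP q (Fin.cons p.1 p.2 : Fin (n + 1) → Fin 3) *
          (∑ i, c i * aQ q ((Fin.cons p.1 p.2 : Fin (n + 1) → Fin 3) i)) ^ 4 =
        wQ q p.1 * (tupP q p.2 * (c 0 * aQ q p.1 + ∑ i, c' i * aQ q (p.2 i)) ^ 4) := by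
      intro p
      simp [tupP, Fin.prod_univ_succ, Fin.sum_univ_succ, hc']
      ring
    rw [← Fintype.sum_equiv (Fin.consEquiv fun _ => Fin 3) _ _ fun p => (hsplit p).symm,
      Fintype.sum_prod_type]
    have inner : ∀ a : Fin 3,
        ∑ g, tupP q g * (c 0 * aQ q a + ∑ i, c' i * aQ q (g i)) ^ 4 =
        (c 0 * aQ q a) ^ 4 + 6 * (c 0 * aQ q a) ^ 2 * (aV q * ∑ i, c' i ^ 2) +
          4 * (c 0 * aQ q a) * ∑ g, tupP q g * (∑ i, c' i * aQ q (g i)) ^ 3 +
          ∑ g, tupP q g * (∑ i, c' i * aQ q (g i)) ^ 4 := by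
      intro a
      set u := c 0 * aQ q a
      have e : ∀ g : Fin n → Fin 3, tupP q g * (u + ∑ i, c' i * aQ q (g i)) ^ 4 =
          u ^ 4 * tupP q g + 4 * u ^ 3 * (tupP q g * ∑ i, c' i * aQ q (g i)) +
          6 * u ^ 2 * (tupP q g * (∑ i, c' i * aQ q (g i)) ^ 2) +
          4 * u * (tupP q g * (∑ i, c' i * aQ q (g i)) ^ 3) +
          tupP q g * (∑ i, c' i * aQ q (g i)) ^ 4 := fun g => by ring
      rw [sum_congr rfl fun g _ => e g]
      simp only [sum_add_distrib, ← mul_sum]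
      rw [sum_tupP hq0 hq1, moment_linear hq0 hq1, moment_two hq0 hq1]
      ring
    simp only [← mul_sum, inner]
    set S := ∑ i, c' i ^ 2 with hS
    set T3 := ∑ g, tupP q g * (∑ i, c' i * aQ q (g i)) ^ 3
    set T4 := ∑ g, tupP q g * (∑ i, c' i * aQ q (g i)) ^ 4
    have e : ∀ a : Fin 3, wQ q a * ((c 0 * aQ q a) ^ 4 +
        6 * (c 0 * aQ q a) ^ 2 * (aV q * S) + 4 * (c 0 * aQ q a) * T3 + T4) =
        c 0 ^ 4 * (wQ q a * aQ q a ^ 4) + 6 * c 0 ^ 2 * (aV q * S) * (wQ q a * aQ q a ^ 2) +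
          4 * c 0 * T3 * (wQ q a * aQ q a) + T4 * wQ q a := fun a => by ring
    rw [sum_congr rfl fun a _ => e a]
    simp only [sum_add_distrib, ← mul_sum]
    rw [aQ_mean hq0 hq1, wQ_sum hq0 hq1, Fin.sum_univ_succ (fun i => c i ^ 2), ← hS]
    have hT4 : T4 ≤ (3 * aV q ^ 2 + aU q) * S ^ 2 := ih c'
    have hU := aU_nonneg hq0 hq1
    have hS0 : 0 ≤ S := sum_nonneg fun i _ => sq_nonneg _
    rw [← aU, ← aV]
    nlinarith [mul_nonneg (mul_nonneg (sq_nonneg (c 0)) hS0) hU, sq_nonneg (c 0 ^ 2),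
      mul_nonneg (sq_nonneg (c 0 ^ 2)) (sq_nonneg (aV q))]

/-! ### Lifted norms -/

theorem tupP_pos (hq0 : 0 < q) (hq1 : q < 1) {n : ℕ} (f : Fin n → Fin 3) : 0 < tupP q f :=
  prod_pos fun i _ => wQ_pos hq0 hq1 _

/-- The family of all tuples of pieces with lengths in `s`. -/
theorem sum_tupL (s : Finset ℕ) (d : ℕ → ℕ) (x : ∀ N, (Fin (d N) → Fin 3) → ℝ) :
    ∑ N ∈ s, tupL (d N) (x N) =
      pushLaw (s.sigma fun N => (univ : Finset (Fin (d N) → Fin 3))) (fun z => tupW (d z.1) z.2)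
        fun z => x z.1 z.2 := by
  unfold tupL pushLaw
  rw [sum_sigma]

theorem nsq_tupL_le (hq0 : 0 < q) (hq1 : q < 1) (s : Finset ℕ) (d : ℕ → ℕ) (b : ℕ → ℝ)
    (h : ∀ N, (Fin (d N) → Fin 3) → ℝ) {R : Law} (hb : ∀ N ∈ s, 0 < b N)
    (hR : ∀ y, val (∑ N ∈ s, b N • Qlaw q ^ d N) y ≤ val R y) :
    nsq (∑ N ∈ s, tupL (d N) fun f => tupP q f * h N f) R ≤
      ∑ N ∈ s, (∑ f, tupP q f * h N f ^ 2) / b N := by
  rw [sum_tupL s d fun N f => tupP q f * h N f]
  refine (nsq_pushLaw _ _ (w := fun z => b z.1 * tupP q z.2) ?_ ?_ ?_).trans (le_of_eq ?_)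
  · intro z hz h0
    exact absurd h0 (mul_pos (hb _ (mem_sigma.1 hz).1) (tupP_pos hq0 hq1 _)).ne'
  · exact fun z hz => (mul_pos (hb _ (mem_sigma.1 hz).1) (tupP_pos hq0 hq1 _)).le
  · intro y
    refine le_trans (le_of_eq ?_) (hR y)
    rw [← sum_tupL s d fun N f => b N * tupP q f]
    simp only [Qlaw_pow, tupL, pushLaw_smul]
  · rw [sum_sigma]
    refine sum_congr rfl fun N hN => ?_
    rw [sum_div]
    refine sum_congr rfl fun f _ => ?_
    have := (tupP_pos hq0 hq1 f).ne'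
    have := (hb N hN).ne'
    field_simp

theorem nq_tupL_le (hq0 : 0 < q) (hq1 : q < 1) (s : Finset ℕ) (d : ℕ → ℕ) (b : ℕ → ℝ)
    (h : ∀ N, (Fin (d N) → Fin 3) → ℝ) {R : Law} (hb : ∀ N ∈ s, 0 < b N)
    (hR : ∀ y, val (∑ N ∈ s, b N • Qlaw q ^ d N) y ≤ val R y) :
    nq (∑ N ∈ s, tupL (d N) fun f => tupP q f * h N f) R ≤
      ∑ N ∈ s, (∑ f, tupP q f * h N f ^ 4) / b N ^ 3 := by
  rw [sum_tupL s d fun N f => tupP q f * h N f]
  refine (nq_pushLaw _ _ (w := fun z => b z.1 * tupP q z.2) ?_ ?_ ?_).trans (le_of_eq ?_)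
  · intro z hz h0
    exact absurd h0 (mul_pos (hb _ (mem_sigma.1 hz).1) (tupP_pos hq0 hq1 _)).ne'
  · exact fun z hz => (mul_pos (hb _ (mem_sigma.1 hz).1) (tupP_pos hq0 hq1 _)).le
  · intro y
    refine le_trans (le_of_eq ?_) (hR y)
    rw [← sum_tupL s d fun N f => b N * tupP q f]
    simp only [Qlaw_pow, tupL, pushLaw_smul]
  · rw [sum_sigma]
    refine sum_congr rfl fun N hN => ?_
    rw [sum_div]
    refine sum_congr rfl fun f _ => ?_
    have := (tupP_pos hq0 hq1 f).ne'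
    have := (hb N hN).ne'
    field_simp

theorem l1_tupL_le (hq0 : 0 < q) (hq1 : q < 1) (n : ℕ) (h : (Fin n → Fin 3) → ℝ) :
    l1 (tupL n fun f => tupP q f * h f) ≤ Real.sqrt (∑ f, tupP q f * h f ^ 2) := by
  refine (l1_pushLaw _ _ _).trans ?_
  refine Real.le_sqrt_of_sq_le ?_
  have hcs := sum_mul_sq_le_sq_mul_sq univ (fun f => Real.sqrt (tupP q f))
    fun f => Real.sqrt (tupP q f) * |h f|
  calc (∑ f, |tupP q f * h f|) ^ 2
      = (∑ f, Real.sqrt (tupP q f) * (Real.sqrt (tupP q f) * |h f|)) ^ 2 := by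
        congr 1
        refine sum_congr rfl fun f _ => ?_
        rw [abs_mul, abs_of_pos (tupP_pos hq0 hq1 f), ← mul_assoc,
          Real.mul_self_sqrt (tupP_pos hq0 hq1 f).le]
    _ ≤ _ := hcs
    _ = 1 * ∑ f, tupP q f * h f ^ 2 := by
        simp only [mul_pow, sq_abs, Real.sq_sqrt (tupP_pos hq0 hq1 _).le, sum_tupP hq0 hq1]
    _ = _ := one_mul _

end Vale.Agent.P321.Blk
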