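import Vale.Agent.P321.BaseExpand

/-!
# P321 module 5, helper: two smeared defects in a periodic background

Expand into `Q ^ i * psi * Q ^ J * psi * Q ^ l` with coefficient `F`. For each total `N = i + J + l`
the `l1` norm is at most `aV q * √(∑ F ^ 2)`; Cauchy–Schwarz over `N` with the weight
`1 + (N - μ) ^ 2 / Gam`, `max |F| ≤ (max bin Gam) ^ 2 * D`, and the variance bounds give the claim.
-/

namespace Vale.Agent.P321.Blk

open Finset Push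

theorem sum_inv_sq_shift {r : ℝ} (hr : 1 ≤ r) (n : ℕ) :
    ∑ k ∈ range (n + 1), 1 / ((k : ℝ) + r) ^ 2 ≤ 2 / r - 1 / ((n : ℝ) + r) := by
  induction n with
  | zero =>
    simp only [zero_add, sum_range_one, Nat.cast_zero]
    have h : 1 / r ^ 2 ≤ 1 / r := one_div_le_one_div_of_le (by linarith) (by nlinarith)
    have : 2 / r = 1 / r + 1 / r := by ring
    linarith
  | succ n ih =>
    rw [sum_range_succ]
    push_cast
    have h1 : 0 < (n : ℝ) + r := by positivity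
    have h2 : 0 < (n : ℝ) + 1 + r := by positivity
    have h : 1 / ((n : ℝ) + 1 + r) ^ 2 ≤ 1 / ((n : ℝ) + r) - 1 / ((n : ℝ) + 1 + r) := by
      rw [div_sub_div _ _ h1.ne' h2.ne', div_le_div_iff₀ (by positivity) (by positivity)]
      nlinarith
    linarith

theorem sum_cauchy_weight {r : ℝ} (hr : 1 ≤ r) (μ : ℝ) (s : Finset ℕ) :
    ∑ N ∈ s, 1 / (1 + ((N : ℝ) - μ) ^ 2 / r ^ 2) ≤ 8 * r := by
  classical
  have hb : ∀ N : ℕ, 1 / (1 + ((N : ℝ) - μ) ^ 2 / r ^ 2) ≤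
      2 * r ^ 2 * (1 / ((⌊|(N : ℝ) - μ|⌋₊ : ℕ) + r) ^ 2) := by
    intro N
    have hk : ((⌊|(N : ℝ) - μ|⌋₊ : ℕ) : ℝ) ≤ |(N : ℝ) - μ| := Nat.floor_le (abs_nonneg _)
    have hk0 : (0 : ℝ) ≤ ((⌊|(N : ℝ) - μ|⌋₊ : ℕ) : ℝ) := Nat.cast_nonneg _
    have e : 1 + ((N : ℝ) - μ) ^ 2 / r ^ 2 = (r ^ 2 + ((N : ℝ) - μ) ^ 2) / r ^ 2 := by
      field_simp
    rw [e, one_div_div, mul_one_div, div_le_div_iff₀ (by positivity) (by positivity)]
    nlinarith [sq_nonneg (((⌊|(N : ℝ) - μ|⌋₊ : ℕ) : ℝ) - r), sq_abs ((N : ℝ) - μ),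
      mul_le_mul hk hk hk0 (abs_nonneg _), sq_nonneg r]
  have half : ∀ t : Finset ℕ, Set.InjOn (fun N : ℕ => ⌊|(N : ℝ) - μ|⌋₊) t →
      ∑ N ∈ t, 1 / (1 + ((N : ℝ) - μ) ^ 2 / r ^ 2) ≤ 4 * r := by
    intro t hinj
    refine (sum_le_sum fun N _ => hb N).trans ?_
    rw [← sum_image (f := fun k : ℕ => 2 * r ^ 2 * (1 / ((k : ℝ) + r) ^ 2)) hinj, ← mul_sum]
    set u := t.image fun N : ℕ => ⌊|(N : ℝ) - μ|⌋₊
    have hu : u ⊆ range (u.sup id + 1) := fun k hk =>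
      mem_range.2 (Nat.lt_succ_iff.2 (le_sup (f := id) hk))
    calc 2 * r ^ 2 * ∑ k ∈ u, 1 / ((k : ℝ) + r) ^ 2 ≤ 2 * r ^ 2 * (2 / r) := by
          refine mul_le_mul_of_nonneg_left ((sum_le_sum_of_subset_of_nonneg hu
            fun k _ _ => by positivity).trans ((sum_inv_sq_shift hr _).trans ?_)) (by positivity)
          exact sub_le_self _ (by positivity)
      _ = 4 * r := by field_simp; ring
  rw [← sum_filter_add_sum_filter_not s fun N : ℕ => μ ≤ (N : ℝ)]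
  have h1 : Set.InjOn (fun N : ℕ => ⌊|(N : ℝ) - μ|⌋₊)
      (s.filter fun N : ℕ => μ ≤ (N : ℝ) : Set ℕ) := by
    intro a ha b hb hab
    simp only [mem_coe, mem_filter] at ha hb
    simp only [abs_of_nonneg (sub_nonneg.2 ha.2), abs_of_nonneg (sub_nonneg.2 hb.2)] at hab
    have f1 := Nat.floor_le (sub_nonneg.2 ha.2)
    have f2 := Nat.lt_floor_add_one ((a : ℝ) - μ)
    have f3 := Nat.floor_le (sub_nonneg.2 hb.2)
    have f4 := Nat.lt_floor_add_one ((b : ℝ) - μ)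
    rw [hab] at f1 f2
    have g1 : (a : ℝ) < (b + 1 : ℕ) := by push_cast; linarith
    have g2 : (b : ℝ) < (a + 1 : ℕ) := by push_cast; linarith
    have := Nat.cast_lt.1 g1
    have := Nat.cast_lt.1 g2
    omega
  have h2 : Set.InjOn (fun N : ℕ => ⌊|(N : ℝ) - μ|⌋₊)
      (s.filter fun N : ℕ => ¬μ ≤ (N : ℝ) : Set ℕ) := by
    intro a ha b hb hab
    simp only [mem_coe, mem_filter, not_le] at ha hb
    simp only [abs_of_neg (sub_neg.2 ha.2), abs_of_neg (sub_neg.2 hb.2), neg_sub] at hab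
    have f1 := Nat.floor_le (sub_nonneg.2 ha.2.le)
    have f2 := Nat.lt_floor_add_one (μ - (a : ℝ))
    have f3 := Nat.floor_le (sub_nonneg.2 hb.2.le)
    have f4 := Nat.lt_floor_add_one (μ - (b : ℝ))
    rw [hab] at f1 f2
    have g1 : (a : ℝ) < (b + 1 : ℕ) := by push_cast; linarith
    have g2 : (b : ℝ) < (a + 1 : ℕ) := by push_cast; linarith
    have := Nat.cast_lt.1 g1
    have := Nat.cast_lt.1 g2
    omega
  linarith [half _ h1, half _ h2]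

/-- A position among `n + 2` pieces. -/
def posF (n k : ℕ) : Fin (n + 2) := ⟨min k (n + 1), by omega⟩

/-- Two defects with all splittings of one total: the lifted second moment. -/
theorem l1_two_defects {q : ℝ} (hq0 : 0 < q) (hq1 : q < 1) (N : ℕ) (S : Finset (ℕ × ℕ × ℕ))
    (F : ℕ × ℕ × ℕ → ℝ) (hS : ∀ z ∈ S, z.1 + z.2.1 + z.2.2 = N) :
    l1 (∑ z ∈ S, F z • (Qlaw q ^ z.1 * psi q * Qlaw q ^ z.2.1 * psi q * Qlaw q ^ z.2.2)) ≤
      aV q * Real.sqrt (∑ z ∈ S, F z ^ 2) := by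
  classical
  have e : ∀ z ∈ S, F z • (Qlaw q ^ z.1 * psi q * Qlaw q ^ z.2.1 * psi q * Qlaw q ^ z.2.2) =
      F z • tupL (N + 2) fun f => tupP q f *
        (aQ q (f (posF N z.1)) * aQ q (f (posF N (z.1 + 1 + z.2.1)))) := by
    intro z hz
    have h := hS z hz
    rw [Qpow_psi_Qpow_psi_Qpow q z.1 z.2.1 z.2.2 (N + 2) (by omega)]
    have e1 : posF N z.1 = ⟨z.1, by omega⟩ := Fin.ext (by simp [posF]; omega)
    have e2 : posF N (z.1 + 1 + z.2.1) = ⟨z.1 + 1 + z.2.1, by omega⟩ :=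
      Fin.ext (by simp [posF]; omega)
    simp only [e1, e2]
  rw [sum_congr rfl e, tupL_sum_smul]
  set P : ℕ × ℕ × ℕ → Finset (Fin (N + 2)) := fun z =>
    {posF N z.1, posF N (z.1 + 1 + z.2.1)} with hP
  have hne : ∀ z ∈ S, posF N z.1 ≠ posF N (z.1 + 1 + z.2.1) := by
    intro z hz h
    have := hS z hz
    simp [posF, Fin.ext_iff] at h
    omega
  have eh : (fun f : Fin (N + 2) → Fin 3 => ∑ z ∈ S, F z * (tupP q f *
      (aQ q (f (posF N z.1)) * aQ q (f (posF N (z.1 + 1 + z.2.1)))))) =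
      fun f => tupP q f * ∑ z ∈ S, F z * ∏ t ∈ P z, aQ q (f t) := by
    funext f
    rw [mul_sum]
    refine sum_congr rfl fun z hz => ?_
    simp only [hP, prod_pair (hne z hz)]
    ring
  rw [eh]
  refine (l1_tupL_le hq0 hq1 _ _).trans (le_of_eq ?_)
  rw [moment_orth hq0 hq1 S F P 2 (fun z hz => card_pair (hne z hz)) ?_,
    Real.sqrt_mul (sq_nonneg _), Real.sqrt_sq (aV_nonneg hq0 hq1)]
  intro a ha b hb hab
  have h1 := hS a ha
  have h2 := hS b hb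
  have m1 : posF N a.1 ∈ P b := hab ▸ mem_insert_self _ _
  have m2 : posF N (a.1 + 1 + a.2.1) ∈ P b := hab ▸ mem_insert_of_mem (mem_singleton_self _)
  simp [hP, posF, Fin.ext_iff] at m1 m2
  refine Prod.ext ?_ (Prod.ext ?_ ?_) <;> omega

theorem binE_sq_dev_le {n G : ℕ} {x : ℝ} (hx0 : 0 ≤ x) (hx1 : x ≤ 1) (h : n ≤ G) :
    ∑ k ∈ range (n + 1), bin n x k * ((k : ℝ) - n * x) ^ 2 ≤ (G : ℝ) := by
  have e := binE_var n x
  rw [binE] at e
  rw [e]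
  calc (n : ℝ) * x * (1 - x) ≤ (n : ℝ) * 1 * 1 := by
        refine mul_le_mul (mul_le_mul_of_nonneg_left hx1 (Nat.cast_nonneg _)) (by linarith)
          (by linarith) (by positivity)
    _ ≤ (G : ℝ) := by simpa using (Nat.cast_le (α := ℝ)).2 h

theorem five_sq (a b c d e : ℝ) :
    (a + b + c + d + e) ^ 2 ≤ 5 * (a ^ 2 + b ^ 2 + c ^ 2 + d ^ 2 + e ^ 2) := by
  have h : 5 * (a ^ 2 + b ^ 2 + c ^ 2 + d ^ 2 + e ^ 2) - (a + b + c + d + e) ^ 2 =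
      ((a - b) ^ 2 + (a - c) ^ 2 + (a - d) ^ 2 + (a - e) ^ 2) +
      ((b - c) ^ 2 + (b - d) ^ 2 + (b - e) ^ 2) + ((c - d) ^ 2 + (c - e) ^ 2) + (d - e) ^ 2 := by
    ring
  have : (0 : ℝ) ≤ ((a - b) ^ 2 + (a - c) ^ 2 + (a - d) ^ 2 + (a - e) ^ 2) +
      ((b - c) ^ 2 + (b - d) ^ 2 + (b - e) ^ 2) + ((c - d) ^ 2 + (c - e) ^ 2) + (d - e) ^ 2 := by
    positivity
  linarith

/-- Indices of the terms of the expansion. -/
abbrev SIdx : Type := (((ℕ × (ℕ × ℕ)) × ℕ) × (ℕ × ℕ)) × ℕ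

/-- The terms. -/
def smT (G m : ℕ) (I₁ I₂ : Finset (ℕ × ℕ)) : Finset SIdx :=
  (((range (G + 1) ×ˢ I₁) ×ˢ range (m + 1)) ×ˢ I₂) ×ˢ range (G + 1)

/-- The weight of a term. -/
noncomputable def smW (x : ℝ) (G m : ℕ) (c d : ℕ × ℕ → ℝ) (z : SIdx) : ℝ :=
  bin G x z.1.1.1.1 * c z.1.1.1.2 * bin m x z.1.1.2 * d z.1.2 * bin G x z.2

/-- The three exponents of a term. -/
def smKey (z : SIdx) : ℕ × ℕ × ℕ :=
  (z.1.1.1.1 + z.1.1.1.2.1, z.1.1.1.2.2 + z.1.1.2 + z.1.2.1, z.1.2.2 + z.2)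

theorem smear_fmax {x : ℝ} (hx0 : 0 ≤ x) (hx1 : x ≤ 1) {Gam m : ℕ} {I₁ I₂ : Finset (ℕ × ℕ)}
    {c d : ℕ × ℕ → ℝ} {M D : ℝ} (hbM : ∀ k, bin Gam x k ≤ M)
    (hD : ∀ J : ℕ, ∑ p ∈ I₁, ∑ p' ∈ I₂, |c p| * |d p'| *
      (if p.2 + p'.1 ≤ J then bin m x (J - (p.2 + p'.1)) else 0) ≤ D) (κ : ℕ × ℕ × ℕ) :
    |∑ z ∈ (smT Gam m I₁ I₂).filter (fun z => smKey z = κ), smW x Gam m c d z| ≤ M ^ 2 * D := by
  classical
  have hbn : ∀ n k, 0 ≤ bin n x k := fun n k => bin_nonneg hx0 hx1 k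
  have hM0 : 0 ≤ M := (hbn Gam 0).trans (hbM 0)
  set T := smT Gam m I₁ I₂ with hT
  set w := smW x Gam m c d with hw
  set key := smKey with hkey
  refine (abs_sum_le_sum_abs _ _).trans ?_
  set g : (ℕ × ℕ) × (ℕ × ℕ) → ℝ := fun p => |c p.1| * |d p.2| *
    (if p.1.2 + p.2.1 ≤ κ.2.1 then bin m x (κ.2.1 - (p.1.2 + p.2.1)) else 0)
  have h1 : ∀ z ∈ T.filter (fun z => key z = κ), |w z| ≤ M ^ 2 * g (z.1.1.1.2, z.1.2) := by
    intro z hz
    have hk := (mem_filter.1 hz).2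
    simp only [hkey, smKey] at hk
    have hJ : z.1.1.1.2.2 + z.1.1.2 + z.1.2.1 = κ.2.1 := by rw [← hk]
    simp only [g]
    rw [if_pos (by omega), show κ.2.1 - (z.1.1.1.2.2 + z.1.2.1) = z.1.1.2 by omega]
    simp only [hw, smW, abs_mul, abs_of_nonneg (hbn _ _)]
    calc bin Gam x z.1.1.1.1 * |c z.1.1.1.2| * bin m x z.1.1.2 * |d z.1.2| * bin Gam x z.2
        = (bin Gam x z.1.1.1.1 * bin Gam x z.2) *
            (|c z.1.1.1.2| * |d z.1.2| * bin m x z.1.1.2) := by ring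
      _ ≤ M ^ 2 * _ := by
        refine mul_le_mul_of_nonneg_right ?_
          (mul_nonneg (mul_nonneg (abs_nonneg _) (abs_nonneg _)) (hbn _ _))
        rw [sq]
        exact mul_le_mul (hbM _) (hbM _) (hbn _ _) hM0
  refine (sum_le_sum h1).trans ?_
  rw [← mul_sum]
  refine mul_le_mul_of_nonneg_left ?_ (sq_nonneg M)
  rw [← sum_image (f := g)]
  · refine le_trans (sum_le_sum_of_subset_of_nonneg (t := I₁ ×ˢ I₂) ?_ fun p _ _ => ?_) ?_
    · intro p hp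
      obtain ⟨z, hz, rfl⟩ := mem_image.1 hp
      have := (mem_filter.1 hz).1
      simp only [hT, smT, mem_product] at this
      exact mem_product.2 ⟨this.1.1.1.2, this.1.2⟩
    · simp only [g]
      split_ifs
      · exact mul_nonneg (mul_nonneg (abs_nonneg _) (abs_nonneg _)) (hbn _ _)
      · simp
    · rw [sum_product]; exact hD _
  · intro a ha b hb hab
    have ka := (mem_filter.1 ha).2
    have kb := (mem_filter.1 hb).2
    rw [← kb] at ka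
    obtain ⟨⟨⟨⟨a₁, a₂⟩, a₃⟩, a₄⟩, a₅⟩ := a
    obtain ⟨⟨⟨⟨b₁, b₂⟩, b₃⟩, b₄⟩, b₅⟩ := b
    simp only [Prod.mk.injEq] at hab
    obtain ⟨rfl, rfl⟩ := hab
    simp only [hkey, smKey, Prod.mk.injEq] at ka
    simp only [Prod.mk.injEq, and_true]
    omega

theorem smear_var {x : ℝ} (hx0 : 0 ≤ x) (hx1 : x ≤ 1) {Gam m : ℕ} {I₁ I₂ : Finset (ℕ × ℕ)}
    {c d : ℕ × ℕ → ℝ} {A B r μ₀ μ : ℝ} (hr2 : r ^ 2 = Gam) (hG1 : (1 : ℝ) ≤ Gam) (hmG : m ≤ Gam)
    (hμ : μ = 2 * ((Gam : ℝ) * x) + (m : ℝ) * x + 2 * μ₀)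
    (hA : ∑ p ∈ I₁, |c p| ≤ A) (hB : ∑ p ∈ I₂, |d p| ≤ B)
    (hA2 : ∑ p ∈ I₁, |c p| * (((p.1 + p.2 : ℕ) : ℝ) - μ₀) ^ 2 ≤ A * Gam)
    (hB2 : ∑ p ∈ I₂, |d p| * (((p.1 + p.2 : ℕ) : ℝ) - μ₀) ^ 2 ≤ B * Gam) :
    ∑ z ∈ smT Gam m I₁ I₂, |smW x Gam m c d z| *
      (1 + ((((smKey z).1 + (smKey z).2.1 + (smKey z).2.2 : ℕ) : ℝ) - μ) ^ 2 / r ^ 2) ≤
      26 * (A * B) := by
  classical
  have hbn : ∀ n k, 0 ≤ bin n x k := fun n k => bin_nonneg hx0 hx1 k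
  have hA0 : 0 ≤ A := (sum_nonneg fun _ _ => abs_nonneg _).trans hA
  have hB0 : 0 ≤ B := (sum_nonneg fun _ _ => abs_nonneg _).trans hB
  set T := smT Gam m I₁ I₂ with hT
  set w := smW x Gam m c d with hw
  set key := smKey with hkey
  set W : ℕ → ℝ := fun N => 1 + ((N : ℝ) - μ) ^ 2 / r ^ 2
  set tot : ℕ × ℕ × ℕ → ℕ := fun κ => κ.1 + κ.2.1 + κ.2.2 with htot
  change ∑ z ∈ T, |w z| * W (tot (key z)) ≤ _
  have hpt : ∀ z, |w z| * W (tot (key z)) ≤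
      |w z| + 5 / r ^ 2 * (|w z| * ((z.1.1.1.1 : ℝ) - Gam * x) ^ 2) +
      5 / r ^ 2 * (|w z| * (((z.1.1.1.2.1 + z.1.1.1.2.2 : ℕ) : ℝ) - μ₀) ^ 2) +
      5 / r ^ 2 * (|w z| * ((z.1.1.2 : ℝ) - m * x) ^ 2) +
      5 / r ^ 2 * (|w z| * (((z.1.2.1 + z.1.2.2 : ℕ) : ℝ) - μ₀) ^ 2) +
      5 / r ^ 2 * (|w z| * ((z.2 : ℝ) - Gam * x) ^ 2) := by
    intro z
    set e₁ := (z.1.1.1.1 : ℝ) - Gam * x
    set e₂ := ((z.1.1.1.2.1 + z.1.1.1.2.2 : ℕ) : ℝ) - μ₀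
    set e₃ := (z.1.1.2 : ℝ) - m * x
    set e₄ := ((z.1.2.1 + z.1.2.2 : ℕ) : ℝ) - μ₀
    set e₅ := (z.2 : ℝ) - Gam * x
    have e : ((tot (key z) : ℕ) : ℝ) - μ = e₁ + e₂ + e₃ + e₄ + e₅ := by
      simp only [htot, hkey, smKey, hμ, e₁, e₂, e₃, e₄, e₅]; push_cast; ring
    have hsq : (((tot (key z) : ℕ) : ℝ) - μ) ^ 2 ≤
        5 * (e₁ ^ 2 + e₂ ^ 2 + e₃ ^ 2 + e₄ ^ 2 + e₅ ^ 2) := by
      rw [e]
      exact five_sq e₁ e₂ e₃ e₄ e₅
    calc |w z| * W (tot (key z))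
        ≤ |w z| * (1 + 5 * (e₁ ^ 2 + e₂ ^ 2 + e₃ ^ 2 + e₄ ^ 2 + e₅ ^ 2) / r ^ 2) :=
          mul_le_mul_of_nonneg_left (add_le_add le_rfl
            (div_le_div_of_nonneg_right hsq (sq_nonneg r))) (abs_nonneg _)
      _ = _ := by ring
  refine (sum_le_sum fun z _ => hpt z).trans ?_
  simp only [sum_add_distrib, ← mul_sum]
  have sep : ∀ (f₁ f₃ f₅ : ℕ → ℝ) (f₂ f₄ : ℕ × ℕ → ℝ),
      ∑ z ∈ T, |w z| * (f₁ z.1.1.1.1 * f₂ z.1.1.1.2 * f₃ z.1.1.2 * f₄ z.1.2 * f₅ z.2) =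
      (∑ k ∈ range (Gam + 1), bin Gam x k * f₁ k) * (∑ p ∈ I₁, |c p| * f₂ p) *
        (∑ k ∈ range (m + 1), bin m x k * f₃ k) * (∑ p ∈ I₂, |d p| * f₄ p) *
        (∑ k ∈ range (Gam + 1), bin Gam x k * f₅ k) := by
    intro f₁ f₃ f₅ f₂ f₄
    rw [hT, smT, sum_mul_sum, ← sum_product', sum_mul_sum, ← sum_product', sum_mul_sum, ← sum_product',
      sum_mul_sum, ← sum_product']
    refine sum_congr rfl fun z _ => ?_
    simp only [hw, smW, abs_mul, abs_of_nonneg (hbn _ _)]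
    ring
  have one : ∀ n : ℕ, ∑ k ∈ range (n + 1), bin n x k * (1 : ℝ) = 1 := fun n => binE_const n x 1
  have vG := binE_sq_dev_le hx0 hx1 (le_refl Gam)
  have vm := binE_sq_dev_le hx0 hx1 hmG
  have cA : ∑ p ∈ I₁, |c p| * (1 : ℝ) ≤ A := by simpa using hA
  have cB : ∑ p ∈ I₂, |d p| * (1 : ℝ) ≤ B := by simpa using hB
  have cA0 : 0 ≤ ∑ p ∈ I₁, |c p| * (1 : ℝ) := sum_nonneg fun p _ => by positivity
  have cB0 : 0 ≤ ∑ p ∈ I₂, |d p| * (1 : ℝ) := sum_nonneg fun p _ => by positivity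
  have hG0 : (0 : ℝ) ≤ Gam := by linarith
  have t0 : ∑ z ∈ T, |w z| ≤ A * B := by
    have := sep (fun _ => 1) (fun _ => 1) (fun _ => 1) (fun _ => 1) (fun _ => 1)
    simp only [one] at this
    simp only [mul_one, one_mul] at this
    rw [this]
    exact mul_le_mul hA hB (sum_nonneg fun p _ => abs_nonneg _) hA0
  have t1 : ∑ z ∈ T, |w z| * ((z.1.1.1.1 : ℝ) - Gam * x) ^ 2 ≤ A * B * Gam := by
    have := sep (fun k => ((k : ℝ) - Gam * x) ^ 2) (fun _ => 1) (fun _ => 1) (fun _ => 1)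
      (fun _ => 1)
    simp only [one] at this
    simp only [mul_one] at this
    rw [this]
    calc _ ≤ (Gam : ℝ) * A * B := mul_le_mul (mul_le_mul vG hA (sum_nonneg fun p _ => abs_nonneg _)
          hG0) hB (sum_nonneg fun p _ => abs_nonneg _) (mul_nonneg hG0 hA0)
      _ = _ := by ring
  have t2 : ∑ z ∈ T, |w z| * (((z.1.1.1.2.1 + z.1.1.1.2.2 : ℕ) : ℝ) - μ₀) ^ 2 ≤
      A * B * Gam := by
    have := sep (fun _ => 1) (fun _ => 1) (fun _ => 1)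
      (fun p => (((p.1 + p.2 : ℕ) : ℝ) - μ₀) ^ 2) (fun _ => 1)
    simp only [one] at this
    simp only [mul_one, one_mul] at this
    rw [this]
    calc _ ≤ A * Gam * B := mul_le_mul hA2 hB (sum_nonneg fun p _ => abs_nonneg _)
          (mul_nonneg hA0 hG0)
      _ = _ := by ring
  have t3 : ∑ z ∈ T, |w z| * ((z.1.1.2 : ℝ) - m * x) ^ 2 ≤ A * B * Gam := by
    have := sep (fun _ => 1) (fun k => ((k : ℝ) - m * x) ^ 2) (fun _ => 1) (fun _ => 1)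
      (fun _ => 1)
    simp only [one] at this
    simp only [mul_one, one_mul] at this
    rw [this]
    calc _ ≤ A * Gam * B := mul_le_mul (mul_le_mul hA vm (sum_nonneg fun k _ =>
          mul_nonneg (hbn _ _) (sq_nonneg _)) hA0) hB (sum_nonneg fun p _ => abs_nonneg _)
          (mul_nonneg hA0 hG0)
      _ = _ := by ring
  have t4 : ∑ z ∈ T, |w z| * (((z.1.2.1 + z.1.2.2 : ℕ) : ℝ) - μ₀) ^ 2 ≤ A * B * Gam := by
    have := sep (fun _ => 1) (fun _ => 1) (fun _ => 1) (fun _ => 1)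
      (fun p => (((p.1 + p.2 : ℕ) : ℝ) - μ₀) ^ 2)
    simp only [one] at this
    simp only [mul_one, one_mul] at this
    rw [this]
    calc _ ≤ A * (B * Gam) := mul_le_mul hA hB2 (sum_nonneg fun p _ =>
          mul_nonneg (abs_nonneg _) (sq_nonneg _)) hA0
      _ = _ := by ring
  have t5 : ∑ z ∈ T, |w z| * ((z.2 : ℝ) - Gam * x) ^ 2 ≤ A * B * Gam := by
    have := sep (fun _ => 1) (fun _ => 1) (fun k => ((k : ℝ) - Gam * x) ^ 2) (fun _ => 1)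
      (fun _ => 1)
    simp only [one] at this
    simp only [mul_one, one_mul] at this
    rw [this]
    exact mul_le_mul (mul_le_mul hA hB (sum_nonneg fun p _ => abs_nonneg _) hA0) vG
      (sum_nonneg fun k _ => mul_nonneg (hbn _ _) (sq_nonneg _)) (mul_nonneg hA0 hB0)
  rw [hr2]
  have hs : ∀ t : ℝ, t ≤ A * B * Gam → 5 / (Gam : ℝ) * t ≤ 5 * (A * B) := fun t ht => by
    rw [div_mul_eq_mul_div, div_le_iff₀ (by linarith)]
    linarith
  linarith [hs _ t1, hs _ t2, hs _ t3, hs _ t4, hs _ t5]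

theorem smear_generic (q : ℝ) (hq0 : 0 < q) (hq1 : q < 1) : ∃ K : ℝ, 0 < K ∧
    ∀ (L Gam m : ℕ) (I₁ I₂ : Finset (ℕ × ℕ)) (c d : ℕ × ℕ → ℝ) (A B D : ℝ),
      1 ≤ L → L ≤ Gam → m ≤ Gam →
      ∑ p ∈ I₁, |c p| ≤ A → ∑ p ∈ I₂, |d p| ≤ B →
      ∑ p ∈ I₁, |c p| * (((p.1 + p.2 : ℕ) : ℝ) - 2 * L * (1 - q ^ 2)) ^ 2 ≤ A * Gam →
      ∑ p ∈ I₂, |d p| * (((p.1 + p.2 : ℕ) : ℝ) - 2 * L * (1 - q ^ 2)) ^ 2 ≤ B * Gam →
      (∀ J : ℕ, ∑ p ∈ I₁, ∑ p' ∈ I₂, |c p| * |d p'| *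
        (if p.2 + p'.1 ≤ J then bin m (1 - q ^ 2) (J - (p.2 + p'.1)) else 0) ≤ D) →
      l1 (perLaw q ^ Gam * defectL q I₁ c * perLaw q ^ m * defectL q I₂ d * perLaw q ^ Gam) ≤
        K * Real.sqrt (A * B * D) / (Gam : ℝ) ^ ((1 : ℝ) / 4) := by
  set x := 1 - q ^ 2 with hx
  have hx0 : 0 < x := by rw [hx]; nlinarith
  have hx1 : x < 1 := by rw [hx]; nlinarith
  have hmin : 0 < min x (1 - x) := lt_min hx0 (by linarith)
  refine ⟨aV q * Real.sqrt (8 * 4 * 26 / min x (1 - x)) + 1, by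
    have := aV_nonneg hq0 hq1; positivity, ?_⟩
  intro L Gam m I₁ I₂ c d A B D hL1 hLG hmG hA hB hA2 hB2 hD
  classical
  have hG1 : (1 : ℝ) ≤ Gam := by exact_mod_cast hL1.trans hLG
  set μ₀ := 2 * (L : ℝ) * x with hμ₀
  have hA0 : 0 ≤ A := (sum_nonneg fun _ _ => abs_nonneg _).trans hA
  have hB0 : 0 ≤ B := (sum_nonneg fun _ _ => abs_nonneg _).trans hB
  have hbn : ∀ n k, 0 ≤ bin n x k := fun n k => bin_nonneg hx0.le hx1.le k
  have hD0 : 0 ≤ D := le_trans (sum_nonneg fun p _ => sum_nonneg fun p' _ =>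
    mul_nonneg (mul_nonneg (abs_nonneg _) (abs_nonneg _)) (by
      split_ifs
      · exact hbn _ _
      · exact le_rfl)) (hD 0)
  set T := smT Gam m I₁ I₂ with hT
  set w := smW x Gam m c d with hw
  set key := smKey with hkey
  set term : ℕ × ℕ × ℕ → Law := fun κ =>
    Qlaw q ^ κ.1 * psi q * Qlaw q ^ κ.2.1 * psi q * Qlaw q ^ κ.2.2 with hterm
  have expand : perLaw q ^ Gam * defectL q I₁ c * perLaw q ^ m * defectL q I₂ d * perLaw q ^ Gam =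
      ∑ z ∈ T, w z • term (key z) := by
    rw [perLaw_pow hq0 hq1, perLaw_pow hq0 hq1, defectL, defectL, sum_mul_sum, ← sum_product',
      sum_mul_sum, ← sum_product', sum_mul_sum, ← sum_product', sum_mul_sum, ← sum_product']
    refine sum_congr rfl fun z _ => ?_
    simp only [hw, smW, hkey, smKey, hterm, smul_mul_smul_comm, pow_add, mul_assoc]
    rfl
  set F : ℕ × ℕ × ℕ → ℝ := fun κ => ∑ z ∈ T.filter fun z => key z = κ, w z with hF
  set Ks := T.image key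
  set tot : ℕ × ℕ × ℕ → ℕ := fun κ => κ.1 + κ.2.1 + κ.2.2 with htot
  set Ns := Ks.image tot
  have grouped : ∑ z ∈ T, w z • term (key z) =
      ∑ N ∈ Ns, ∑ κ ∈ Ks.filter (fun κ => tot κ = N), F κ • term κ := by
    rw [sum_fiberwise_of_maps_to fun κ hκ => mem_image_of_mem tot hκ,
      ← sum_fiberwise_of_maps_to (g := key) (t := Ks) fun z hz => mem_image_of_mem key hz]
    refine sum_congr rfl fun κ _ => ?_
    rw [hF, sum_smul]
    exact sum_congr rfl fun z hz => by rw [(mem_filter.1 hz).2]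
  set M := 2 / Real.sqrt (((Gam : ℝ) + 1) * min x (1 - x)) with hM
  have hFmax : ∀ κ, |F κ| ≤ M ^ 2 * D := fun κ =>
    smear_fmax hx0.le hx1.le (fun k => bin_le_sqrt hx0 hx1 k) hD κ
  set μ := 2 * ((Gam : ℝ) * x) + (m : ℝ) * x + 2 * μ₀ with hμ
  set r := Real.sqrt (Gam : ℝ) with hr
  have hr1 : 1 ≤ r := Real.one_le_sqrt.2 hG1
  have hr2 : r ^ 2 = Gam := Real.sq_sqrt (by linarith)
  set W : ℕ → ℝ := fun N => 1 + ((N : ℝ) - μ) ^ 2 / r ^ 2 with hW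
  have hW0 : ∀ N, 0 < W N := fun N => by positivity
  have hvar : ∑ z ∈ T, |w z| * W (tot (key z)) ≤ 26 * (A * B) :=
    smear_var hx0.le hx1.le hr2 hG1 hmG hμ hA hB hA2 hB2
  -- assembling
  rw [expand, grouped]
  refine (l1_sum _ _).trans ?_
  refine (sum_le_sum fun N _ => l1_two_defects hq0 hq1 N (Ks.filter fun κ => tot κ = N) F
    fun κ hκ => (mem_filter.1 hκ).2).trans ?_
  rw [← mul_sum]
  set S : ℕ → ℝ := fun N => ∑ κ ∈ Ks.filter (fun κ => tot κ = N), F κ ^ 2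
  have hS0 : ∀ N, 0 ≤ S N := fun N => sum_nonneg fun κ _ => sq_nonneg _
  have hwS : ∑ N ∈ Ns, W N * S N ≤ M ^ 2 * D * (26 * (A * B)) := by
    calc ∑ N ∈ Ns, W N * S N = ∑ κ ∈ Ks, W (tot κ) * F κ ^ 2 := by
          rw [← sum_fiberwise_of_maps_to (g := tot) (t := Ns) fun κ hκ => mem_image_of_mem tot hκ]
          refine sum_congr rfl fun N _ => ?_
          rw [mul_sum]
          exact sum_congr rfl fun κ hκ => by rw [(mem_filter.1 hκ).2]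
      _ ≤ ∑ κ ∈ Ks, M ^ 2 * D * ∑ z ∈ T.filter (fun z => key z = κ), |w z| * W (tot (key z)) := by
          refine sum_le_sum fun κ _ => ?_
          rw [sum_congr rfl fun z hz => by rw [(mem_filter.1 hz).2], ← sum_mul, ← sq_abs, sq]
          calc W (tot κ) * (|F κ| * |F κ|)
              ≤ W (tot κ) * (M ^ 2 * D * ∑ z ∈ T.filter (fun z => key z = κ), |w z|) :=
                mul_le_mul_of_nonneg_left (mul_le_mul (hFmax κ) (abs_sum_le_sum_abs _ _)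
                  (abs_nonneg _) (mul_nonneg (sq_nonneg _) hD0)) (hW0 _).le
            _ = _ := by ring
      _ ≤ _ := by
          rw [← mul_sum, sum_fiberwise_of_maps_to fun z hz => mem_image_of_mem key hz]
          exact mul_le_mul_of_nonneg_left hvar (mul_nonneg (sq_nonneg _) hD0)
  have hcs : ∑ N ∈ Ns, Real.sqrt (S N) ≤
      Real.sqrt (8 * r * (M ^ 2 * D * (26 * (A * B)))) := by
    refine Real.le_sqrt_of_sq_le ?_
    refine (sum_sq_le_sum_mul_sum_of_sq_le_mul Ns (f := fun N => 1 / W N)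
      (g := fun N => W N * S N) (fun N _ => (one_div_pos.2 (hW0 N)).le)
      (fun N _ => mul_nonneg (hW0 N).le (hS0 N)) fun N _ => ?_).trans ?_
    · rw [Real.sq_sqrt (hS0 N)]
      have := (hW0 N).ne'
      field_simp
      rfl
    · exact mul_le_mul (sum_cauchy_weight hr1 μ Ns) hwS
        (sum_nonneg fun N _ => mul_nonneg (hW0 N).le (hS0 N)) (by positivity)
  refine (mul_le_mul_of_nonneg_left hcs (aV_nonneg hq0 hq1)).trans ?_
  have hM2 : M ^ 2 * r ≤ 4 / min x (1 - x) / r := by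
    rw [hM, div_pow, Real.sq_sqrt (by positivity)]
    rw [div_div, div_mul_eq_mul_div, div_le_div_iff₀ (by positivity) (by positivity)]
    have h := mul_le_mul_of_nonneg_left (show r * r ≤ (Gam : ℝ) + 1 by rw [← sq, hr2]; linarith)
      (by positivity : (0 : ℝ) ≤ 2 ^ 2 * min x (1 - x))
    linarith
  have hGp : (Gam : ℝ) ^ ((1 : ℝ) / 4) = Real.sqrt r := by
    rw [hr, Real.sqrt_eq_rpow, Real.sqrt_eq_rpow, ← Real.rpow_mul (by linarith)]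
    norm_num
  rw [hGp]
  have key2 : 8 * r * (M ^ 2 * D * (26 * (A * B))) ≤
      8 * 4 * 26 / min x (1 - x) * (A * B * D) / r := by
    calc 8 * r * (M ^ 2 * D * (26 * (A * B))) = 8 * 26 * (A * B * D) * (M ^ 2 * r) := by ring
      _ ≤ 8 * 26 * (A * B * D) * (4 / min x (1 - x) / r) :=
        mul_le_mul_of_nonneg_left hM2 (by positivity)
      _ = _ := by ring
  refine (mul_le_mul_of_nonneg_left (Real.sqrt_le_sqrt key2) (aV_nonneg hq0 hq1)).trans ?_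
  rw [Real.sqrt_div (by positivity), Real.sqrt_mul (by positivity), ← mul_div_assoc, ← mul_assoc]
  refine div_le_div_of_nonneg_right (mul_le_mul_of_nonneg_right ?_ (Real.sqrt_nonneg _))
    (Real.sqrt_nonneg _)
  linarith

end Vale.Agent.P321.Blk
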