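import Vale.Agent.P321.BaseSurr
import Vale.Agent.P321.BaseSmear

/-!
# P321 module 5, helper: norms of the differences of the surrogate blocks
-/

namespace Vale.Agent.P321.Blk

open Finset Push
open scoped Classical

variable {q : ℝ} {L : ℕ}

theorem defectL_eq (q : ℝ) (L : ℕ) (c : ℕ × ℕ → ℝ) :
    defectL q (winP q L) c = ∑ N ∈ win q L, tupL (N + 1) fun f => tupP q f *
      ∑ i : Fin (N + 1), c (i, N - i) * aQ q (f i) := by
  rw [defectL, sum_winP]
  refine sum_congr rfl fun N _ => ?_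
  rw [← Fin.sum_univ_eq_sum_range (fun k => c (k, N - k) • (Qlaw q ^ k * psi q * Qlaw q ^ (N - k)))]
  rw [sum_congr rfl fun (i : Fin (N + 1)) _ => by
    rw [Qpow_psi_Qpow q (i : ℕ) (N - i) (N + 1) (by omega)], tupL_sum_smul]
  congr 1
  funext f
  rw [mul_sum]
  refine sum_congr rfl fun i _ => ?_
  rw [Fin.eta]
  ring

theorem defect_norms (hq0 : 0 < q) (hq1 : q < 1) (hL : 4 / q ^ 2 ≤ L) (c : ℕ × ℕ → ℝ) {G : ℝ}
    (hG0 : 0 ≤ G)
    (hG : ∀ N ∈ win q L, ∑ k ∈ range (N + 1), c (k, N - k) ^ 2 ≤ G * b1 q L N ^ 2) :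
    nsq (defectL q (winP q L) c) (perLaw q ^ (2 * L)) ≤ aV q * G ∧
      nq (defectL q (winP q L) c) (perLaw q ^ (2 * L)) ≤ (3 * aV q ^ 2 + aU q) * G ^ 2 := by
  have hb : ∀ N ∈ win q L, 0 < b1 q L N := fun N hN =>
    bin_sP_pos hq0 hq1 (win_facts hq0 hL hN).2.2.1
  have hV := aV_nonneg hq0 hq1
  have hU := aU_nonneg hq0 hq1
  have hS : ∀ N ∈ win q L, ∑ i : Fin (N + 1), c (i, N - i) ^ 2 ≤ G * b1 q L N ^ 2 := fun N hN => by
    rw [Fin.sum_univ_eq_sum_range (fun k => c (k, N - k) ^ 2)]; exact hG N hN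
  rw [defectL_eq]
  constructor
  · refine (nsq_tupL_le hq0 hq1 _ (fun N => N + 1) _ _ hb (val_ref_next_le hq0 hq1 hL)).trans ?_
    calc _ ≤ ∑ N ∈ win q L, aV q * G * b1 q L N := by
          refine sum_le_sum fun N hN => ?_
          rw [div_le_iff₀ (hb N hN), moment_two hq0 hq1]
          calc _ ≤ aV q * (G * b1 q L N ^ 2) := mul_le_mul_of_nonneg_left (hS N hN) hV
            _ = _ := by ring
      _ ≤ aV q * G := by
          rw [← mul_sum]; exact mul_le_of_le_one_right (mul_nonneg hV hG0) (sum_b1_le hq0 hq1 L _)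
  · refine (nq_tupL_le hq0 hq1 _ (fun N => N + 1) _ _ hb (val_ref_next_le hq0 hq1 hL)).trans ?_
    calc _ ≤ ∑ N ∈ win q L, (3 * aV q ^ 2 + aU q) * G ^ 2 * b1 q L N := by
          refine sum_le_sum fun N hN => ?_
          rw [div_le_iff₀ (pow_pos (hb N hN) 3)]
          refine (moment_four hq0 hq1 _).trans ?_
          calc (3 * aV q ^ 2 + aU q) * (∑ i : Fin (N + 1), c (i, N - i) ^ 2) ^ 2
              ≤ (3 * aV q ^ 2 + aU q) * (G * b1 q L N ^ 2) ^ 2 :=
                mul_le_mul_of_nonneg_left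
                  (pow_le_pow_left₀ (sum_nonneg fun i _ => sq_nonneg _) (hS N hN) 2) (by positivity)
            _ = _ := by ring
      _ ≤ (3 * aV q ^ 2 + aU q) * G ^ 2 := by
          rw [← mul_sum]; exact mul_le_of_le_one_right (by positivity) (sum_b1_le hq0 hq1 L _)

theorem surr_split (hq0 : 0 < q) (hq1 : q < 1) {a b : ℕ} (hab : a + b = 2 * L) :
    surr q L a b = q • perLaw q ^ (2 * L) + (1 - q) •
      (∑ N ∈ range (2 * L + 1) \ win q L, bin (2 * L) (sP q) N • Qlaw q ^ N +
        (∑ N ∈ win q L, bin (2 * L) (sP q) N • Qlaw q ^ (N + 1) +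
          defectL q (winP q L) (cof q a b))) := by
  rw [surr, token_split hq0 hq1, hab]

theorem odd_eq (hq0 : 0 < q) (hq1 : q < 1) (hL : 1 ≤ L) :
    surr q L (L + 1) (L - 1) - surr q L (L - 1) (L + 1) =
      (1 - q) • defectL q (winP q L) (cO q L) := by
  rw [surr_split hq0 hq1 (show L + 1 + (L - 1) = 2 * L by omega),
    surr_split hq0 hq1 (show L - 1 + (L + 1) = 2 * L by omega)]
  simp only [defectL, cO, sub_smul, sum_sub_distrib]
  module

theorem even_eq (hq0 : 0 < q) (hq1 : q < 1) (hL : 1 ≤ L) :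
    surr q L (L + 1) (L - 1) + surr q L (L - 1) (L + 1) - (2 : ℝ) • surr q L L L =
      (1 - q) • defectL q (winP q L) (cE q L) := by
  rw [surr_split hq0 hq1 (show L + 1 + (L - 1) = 2 * L by omega),
    surr_split hq0 hq1 (show L - 1 + (L + 1) = 2 * L by omega),
    surr_split hq0 hq1 (show L + L = 2 * L by omega)]
  simp only [defectL, cE, sub_smul, add_smul, mul_smul, sum_sub_distrib, sum_add_distrib, ← smul_sum]
  module

/-- The coefficient of the shift by one of the total. -/
noncomputable def shiftC (q : ℝ) (L N : ℕ) : ℝ :=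
  (if 1 ≤ N ∧ N - 1 ∈ win q L then bin (2 * L) (sP q) (N - 1) else 0) -
    if N ∈ win q L then bin (2 * L) (sP q) N else 0

theorem zero_eq (hq0 : 0 < q) (hq1 : q < 1) (hL : 4 / q ^ 2 ≤ L) :
    surr q L L L - perLaw q ^ (2 * L) = (1 - q) •
      (∑ N ∈ range (2 * L + 1), shiftC q L N • Qlaw q ^ N +
        defectL q (winP q L) (cof q L L)) := by
  have hw : win q L ⊆ range (2 * L + 1) := filter_subset _ _
  have hP : perLaw q ^ (2 * L) =
      ∑ N ∈ range (2 * L + 1) \ win q L, bin (2 * L) (sP q) N • Qlaw q ^ N +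
        ∑ N ∈ win q L, bin (2 * L) (sP q) N • Qlaw q ^ N := by
    rw [sum_sdiff hw, ← perLaw_pow_of_le hq0 hq1 le_rfl]
  have h1 : ∑ N ∈ win q L, bin (2 * L) (sP q) N • Qlaw q ^ (N + 1) =
      ∑ N ∈ range (2 * L + 1),
        (if 1 ≤ N ∧ N - 1 ∈ win q L then bin (2 * L) (sP q) (N - 1) else 0) • Qlaw q ^ N := by
    simp only [ite_smul, zero_smul, ← sum_filter]
    refine sum_nbij' (· + 1) (· - 1) ?_ ?_ ?_ ?_ ?_
    · intro N hN
      have := (win_facts hq0 hL hN).2.2.1
      exact mem_filter.2 ⟨mem_range.2 (by omega), by omega, by simpa using hN⟩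
    · intro N hN; exact (mem_filter.1 hN).2.2
    · intro N _; simp
    · intro N hN; have := (mem_filter.1 hN).2.1; omega
    · intro N _; simp
  have h2 : ∑ N ∈ win q L, bin (2 * L) (sP q) N • Qlaw q ^ N =
      ∑ N ∈ range (2 * L + 1),
        (if N ∈ win q L then bin (2 * L) (sP q) N else 0) • Qlaw q ^ N := by
    simp only [ite_smul, zero_smul, ← sum_filter]
    exact sum_congr (by ext N; simp; exact fun h => Nat.lt_succ_iff.1 (mem_range.1 (hw h))) fun _ _ => rfl
  simp only [shiftC, sub_smul, sum_sub_distrib, ← h1, ← h2]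
  rw [surr_split hq0 hq1 (show L + L = 2 * L by omega)]
  conv_lhs => rw [hP]
  module

theorem shiftC_bound (hq0 : 0 < q) (hq1 : q < 1) (hL : 4 / q ^ 2 ≤ L) {N : ℕ}
    (hN : N ∈ range (2 * L + 1)) :
    |shiftC q L N| ≤ (1 / (q ^ 2 * sP q) + (2 / sP q + 2) / th q) / L *
      (bin (2 * L) (sP q) N * (|(N : ℝ) - 2 * L * sP q| + 1)) := by
  have hs := sP_pos hq0 hq1
  have hth := th_pos hq0 hq1
  have hb := bin_sP_nonneg hq0 hq1 (2 * L) N
  have hA : 0 ≤ 1 / (q ^ 2 * sP q) := by positivity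
  have hB : 0 ≤ (2 / sP q + 2) / th q := by positivity
  set δ := |(N : ℝ) - 2 * L * sP q| with hδ
  have hδ0 : 0 ≤ δ := abs_nonneg _
  have h0 : 0 ≤ bin (2 * L) (sP q) N * (δ + 1) := by positivity
  have hLpos : (0 : ℝ) < L := by
    have : 0 < 4 / q ^ 2 := by positivity
    linarith
  have hcase : ∀ c, 0 ≤ c → th q * L ≤ δ + 1 →
      c * bin (2 * L) (sP q) N ≤ c / th q / L * (bin (2 * L) (sP q) N * (δ + 1)) := by
    intro c hc h
    calc c * bin (2 * L) (sP q) N = c / th q / L * (bin (2 * L) (sP q) N * (th q * L)) := by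
          field_simp
      _ ≤ _ := mul_le_mul_of_nonneg_left (mul_le_mul_of_nonneg_left h hb) (by positivity)
  have hmono : ∀ c, c ≤ 1 / (q ^ 2 * sP q) + (2 / sP q + 2) / th q →
      c / L * (bin (2 * L) (sP q) N * (δ + 1)) ≤
        (1 / (q ^ 2 * sP q) + (2 / sP q + 2) / th q) / L * (bin (2 * L) (sP q) N * (δ + 1)) :=
    fun c hc => mul_le_mul_of_nonneg_right (div_le_div_of_nonneg_right hc hLpos.le) h0
  have hout : N ∉ win q L → th q * L ≤ δ + 1 := by
    intro h
    simp only [win, mem_filter, hN, true_and, not_le] at h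
    linarith
  unfold shiftC
  by_cases h1 : 1 ≤ N ∧ N - 1 ∈ win q L
  · obtain ⟨n, rfl⟩ : ∃ n, N = n + 1 := ⟨N - 1, by omega⟩
    simp only [Nat.add_sub_cancel] at h1 ⊢
    obtain ⟨w1, w2, w3, w4, w5⟩ := win_facts hq0 hL h1.2
    rw [if_pos h1]
    have e := bin_right_mul (2 * L) n (sP q)
    rw [one_sub_sP] at e
    push_cast at e
    have hden : 0 < (2 * (L : ℝ) - n) * sP q := mul_pos (by nlinarith) hs
    by_cases h2 : n + 1 ∈ win q L
    · rw [if_pos h2]
      refine le_trans ?_ (hmono (1 / (q ^ 2 * sP q)) (by linarith))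
      set B := bin (2 * L) (sP q) (n + 1) with hBd
      set A := bin (2 * L) (sP q) n with hAd
      have key : (A - B) * ((2 * (L : ℝ) - n) * sP q) =
          B * ((((n + 1 : ℕ) : ℝ) - 2 * L * sP q) - sP q) := by
        push_cast
        rw [show sP q = 1 - q ^ 2 from rfl] at e ⊢
        linear_combination -e
      refine le_of_mul_le_mul_right ?_ hden
      calc |A - B| * ((2 * (L : ℝ) - n) * sP q)
          = B * |(((n + 1 : ℕ) : ℝ) - 2 * L * sP q) - sP q| := by
            rw [← abs_of_pos hden, ← abs_mul, key, abs_mul, abs_of_nonneg hb]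
        _ ≤ B * (δ + 1) := by
            refine mul_le_mul_of_nonneg_left ((abs_sub _ _).trans ?_) hb
            rw [abs_of_pos hs, hδ]
            linarith [sP_lt_one (q := q) hq0]
        _ = 1 / (q ^ 2 * sP q) / L * (B * (δ + 1)) * ((q ^ 2 * L) * sP q) := by field_simp
        _ ≤ _ := mul_le_mul_of_nonneg_left (mul_le_mul_of_nonneg_right w2 hs.le) (by positivity)
    · rw [if_neg h2, sub_zero, abs_of_nonneg (bin_sP_nonneg hq0 hq1 _ _)]
      refine le_trans ?_ (hmono ((2 / sP q + 2) / th q) (by linarith))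
      refine le_trans ?_ (hcase _ (by positivity) (hout h2))
      have e2 : bin (2 * L) (sP q) n * (sP q * (q ^ 2 * L)) ≤
          bin (2 * L) (sP q) (n + 1) * (q ^ 2 * (2 * L)) := by
        calc bin (2 * L) (sP q) n * (sP q * (q ^ 2 * L))
            ≤ bin (2 * L) (sP q) n * (sP q * (2 * L - n)) :=
              mul_le_mul_of_nonneg_left (mul_le_mul_of_nonneg_left w2 hs.le)
                (bin_sP_nonneg hq0 hq1 _ _)
          _ = bin (2 * L) (sP q) (n + 1) * (q ^ 2 * ((n : ℝ) + 1)) := by linear_combination -e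
          _ ≤ _ := by
              refine mul_le_mul_of_nonneg_left (mul_le_mul_of_nonneg_left ?_ (by positivity)) hb
              exact_mod_cast w3
      have e3 : bin (2 * L) (sP q) n ≤ 2 / sP q * bin (2 * L) (sP q) (n + 1) := by
        rw [div_mul_eq_mul_div, le_div_iff₀ hs]
        refine le_of_mul_le_mul_right ?_ (show 0 < q ^ 2 * (L : ℝ) by positivity)
        linarith
      linarith
  · rw [if_neg h1, zero_sub, abs_neg]
    by_cases h2 : N ∈ win q L
    · rw [if_pos h2, abs_of_nonneg hb]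
      refine le_trans ?_ (hmono ((2 / sP q + 2) / th q) (by linarith))
      refine le_trans ?_ (hcase _ (by positivity) ?_)
      · exact le_mul_of_one_le_left hb (by linarith [show (0 : ℝ) ≤ 2 / sP q by positivity])
      · rcases Nat.eq_zero_or_pos N with rfl | hpos
        · obtain ⟨w1, -, -, -, -⟩ := win_facts hq0 hL h2
          push_cast at w1
          nlinarith
        · have h3 : N - 1 ∉ win q L := fun h => h1 ⟨hpos, h⟩
          simp only [win, mem_filter, not_and, not_le] at h3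
          have := h3 (mem_range.2 (by have := mem_range.1 hN; omega))
          rw [Nat.cast_sub hpos, Nat.cast_one] at this
          have h4 := abs_add_le ((N : ℝ) - 2 * L * sP q) (-1)
          rw [abs_neg, abs_one] at h4
          rw [show (N : ℝ) - 1 - 2 * L * sP q = (N : ℝ) - 2 * L * sP q + -1 by ring] at this
          linarith
    · rw [if_neg h2, abs_zero]
      positivity

end Vale.Agent.P321.Blk
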