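import Vale.Agent.P321.BaseOverlapModel

/-!
# P321, base overlap: the renewal inequality

`ip (D ^ a) (D ^ a)` counts the coincidences of the token positions of two independent traces. Each
coincidence restarts both, so the energy satisfies a renewal inequality; with an exponential tilt
of rate `B / L` it is solved by `2 A exp (B r / L) / sqrt (L (r + 1))`.
-/

namespace Vale.Agent.P321.BO

open Polynomial Finset

/-- Probability that a period leaves an entry. -/
noncomputable def tht (q : ℝ) : ℝ := 1 - q ^ 2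

/-- Probability of the entry `1` in a period that leaves an entry. -/
noncomputable def alp (q : ℝ) : ℝ := q / (1 + q)

/-- The count law of a block. -/
noncomputable def gP (q : ℝ) (L : ℕ) : ℝ[X] := lin (tht q) ^ (2 * L) * lin (1 - q)

/-- The token in the model. -/
noncomputable def tokL (q : ℝ) : Law := (1 - (1 - q)) • (1 : Law) + (1 - q) • oneL

/-- A block in the model. -/
noncomputable def blockM (q : ℝ) (L : ℕ) : Law :=
  ev (alp q) (lin (tht q) ^ L) * tokL q * ev (alp q) (lin (tht q) ^ L)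

/-- The restarted process. -/
noncomputable def runM (q : ℝ) (L r : ℕ) : Law := ev (alp q) (lin (tht q) ^ L) * blockM q L ^ r

/-- Position of the next coincidence candidate. -/
noncomputable def gapP (q : ℝ) (L i : ℕ) : ℝ[X] := gP q L ^ i * lin (tht q) ^ (2 * L)

/-- The coefficient bound. -/
noncomputable def supA (q : ℝ) : ℝ := 1 / Real.sqrt (tht q * (1 - tht q))

theorem tht_mem {q : ℝ} (hq0 : 0 < q) (hq1 : q < 1) : 0 < tht q ∧ tht q < 1 := by
  constructor <;> simp only [tht] <;> nlinarith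

theorem alp_mem {q : ℝ} (hq0 : 0 < q) : 0 < alp q ∧ alp q < 1 := by
  refine ⟨div_pos hq0 (by linarith), ?_⟩
  rw [alp, div_lt_one (by linarith)]; linarith

theorem supA_pos {q : ℝ} (hq0 : 0 < q) (hq1 : q < 1) : 0 < supA q := by
  obtain ⟨h0, h1⟩ := tht_mem hq0 hq1
  exact one_div_pos.2 (Real.sqrt_pos.2 (mul_pos h0 (by linarith)))

theorem tokL_eq (q : ℝ) : tokL q = ev (alp q) (lin (1 - q)) + (1 - q) • devL (alp q) := by
  rw [tokL, oneL_eq (alp q), lin, ev, map_add, map_mul, aeval_X, aeval_C, aeval_C,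
    Algebra.algebraMap_eq_smul_one, Algebra.algebraMap_eq_smul_one, smul_mul_assoc, one_mul,
    smul_add]
  abel

theorem lenP_tokL (q : ℝ) : lenP (tokL q) = lin (1 - q) := by
  rw [tokL, map_add, map_smul, map_smul, map_one, lenP_one_letter, lin]
  simp [Polynomial.smul_eq_C_mul]

theorem lenP_blockM (q : ℝ) (L : ℕ) : lenP (blockM q L) = gP q L := by
  rw [blockM, map_mul, map_mul, lenP_ev, lenP_tokL, gP, two_mul, pow_add]; ring

theorem pprob_gP {q : ℝ} (hq0 : 0 < q) (hq1 : q < 1) (L : ℕ) : PProb (gP q L) :=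
  ((pprob_lin (tht_mem hq0 hq1).1.le (tht_mem hq0 hq1).2.le).pow _).mul
    (pprob_lin (by linarith) (by linarith))

theorem pprob_gapP {q : ℝ} (hq0 : 0 < q) (hq1 : q < 1) (L i : ℕ) : PProb (gapP q L i) :=
  ((pprob_gP hq0 hq1 L).pow i).mul ((pprob_lin (tht_mem hq0 hq1).1.le (tht_mem hq0 hq1).2.le).pow _)

theorem runM_succ (q : ℝ) (L r : ℕ) :
    runM q L (r + 1) = ev (alp q) (lin (tht q) ^ (2 * L)) * (tokL q * runM q L r) := by
  rw [runM, runM, pow_succ', blockM, two_mul, pow_add, map_mul]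
  simp only [mul_assoc]

theorem blockM_pow_succ (q : ℝ) (L r : ℕ) :
    blockM q L ^ (r + 1) = ev (alp q) (lin (tht q) ^ L) * (tokL q * runM q L r) := by
  rw [runM, pow_succ', blockM]
  simp only [mul_assoc]

theorem runM_expand (q : ℝ) (L r : ℕ) :
    runM q L r = ev (alp q) (gP q L ^ r * lin (tht q) ^ L) +
      (1 - q) • ∑ i ∈ range r,
        ev (alp q) (gapP q L i) * (devL (alp q) * runM q L (r - 1 - i)) := by
  induction r with
  | zero => simp [runM]
  | succ r ih =>
    have e : runM q L (r + 1) = ev (alp q) (gP q L) * runM q L r +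
        (1 - q) • (ev (alp q) (lin (tht q) ^ (2 * L)) * (devL (alp q) * runM q L r)) := by
      rw [runM_succ, tokL_eq, add_mul, mul_add, ← mul_assoc, ← map_mul, smul_mul_assoc,
        mul_smul_comm, gP]
    have hsum : ∑ i ∈ range r, ev (alp q) (gapP q L (i + 1)) *
          (devL (alp q) * runM q L (r + 1 - 1 - (i + 1))) =
        ev (alp q) (gP q L) * ∑ i ∈ range r,
          ev (alp q) (gapP q L i) * (devL (alp q) * runM q L (r - 1 - i)) := by
      rw [Finset.mul_sum]
      refine Finset.sum_congr rfl fun i _ => ?_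
      rw [show r + 1 - 1 - (i + 1) = r - 1 - i by omega, ← mul_assoc (ev _ _) (ev _ _), ← map_mul,
        gapP, gapP, pow_succ']
      congr 2
      ring
    have h0 : gapP q L 0 = lin (tht q) ^ (2 * L) := by simp [gapP]
    rw [e, Finset.sum_range_succ', h0, Nat.add_sub_cancel, Nat.sub_zero]
    simp only [Nat.add_sub_cancel] at hsum
    rw [hsum, smul_add, ← mul_smul_comm, ← add_assoc]
    congr 1
    conv_lhs => rw [ih]
    rw [mul_add, ← map_mul, pow_succ' (gP q L) r, mul_assoc, mul_smul_comm]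

theorem energy_le {q : ℝ} (hq0 : 0 < q) (L r : ℕ) (P : ℕ → ℝ)
    (hnn : ∀ i j, 0 ≤ pdot (gapP q L i) (gapP q L j))
    (hP : ∀ i < r, ∑ j ∈ range r, pdot (gapP q L i) (gapP q L j) ≤ P i) :
    ip (alp q) (runM q L r) (runM q L r) ≤
      pdot (gP q L ^ r * lin (tht q) ^ L) (gP q L ^ r * lin (tht q) ^ L) +
        (1 - q) ^ 2 * ((1 - alp q) / alp q) *
          ∑ i ∈ range r, P i * ip (alp q) (runM q L (r - 1 - i)) (runM q L (r - 1 - i)) := by
  obtain ⟨ha0, ha1⟩ := alp_mem hq0
  set al := alp q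
  set V := gP q L ^ r * lin (tht q) ^ L
  set N : ℕ → ℝ := fun i => ip al (runM q L (r - 1 - i)) (runM q L (r - 1 - i))
  set T : ℕ → Law := fun i => ev al (gapP q L i) * (devL al * runM q L (r - 1 - i))
  have hcross : ip al (ev al V) (∑ i ∈ range r, T i) = 0 := by
    rw [ip_sum_right]; exact Finset.sum_eq_zero fun i _ => ip_ev_ev_dev ha0 ha1 _ _ _
  have hγ : 0 ≤ (1 - al) / al := div_nonneg (by linarith) ha0.le
  have key : 2 * ip al (∑ i ∈ range r, T i) (∑ i ∈ range r, T i) ≤
      (1 - al) / al * (2 * ∑ i ∈ range r, P i * N i) := by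
    rw [ip_sum_left, Finset.mul_sum]
    simp only [ip_sum_right, T, ip_ev_dev_ev_dev ha0 ha1, Finset.mul_sum]
    calc ∑ i ∈ range r, ∑ j ∈ range r, 2 * ((1 - al) / al * pdot (gapP q L i) (gapP q L j) *
          ip al (runM q L (r - 1 - i)) (runM q L (r - 1 - j)))
        ≤ ∑ i ∈ range r, ∑ j ∈ range r,
            (1 - al) / al * pdot (gapP q L i) (gapP q L j) * (N i + N j) :=
          Finset.sum_le_sum fun i _ => Finset.sum_le_sum fun j _ => by
            nlinarith [mul_le_mul_of_nonneg_left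
              (two_ip_le ha0 ha1 (runM q L (r - 1 - i)) (runM q L (r - 1 - j)))
              (mul_nonneg hγ (hnn i j))]
      _ = (1 - al) / al *
            (2 * ∑ i ∈ range r, (∑ j ∈ range r, pdot (gapP q L i) (gapP q L j)) * N i) := by
          simp only [mul_add, Finset.sum_add_distrib]
          have hswap : ∑ i ∈ range r, ∑ j ∈ range r,
              (1 - al) / al * pdot (gapP q L i) (gapP q L j) * N j =
              ∑ i ∈ range r, ∑ j ∈ range r,
                (1 - al) / al * pdot (gapP q L i) (gapP q L j) * N i := by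
            rw [Finset.sum_comm]
            simp only [pdot_comm]
          rw [hswap, ← two_mul]
          simp only [Finset.mul_sum, Finset.sum_mul]
          exact Finset.sum_congr rfl fun i _ => Finset.sum_congr rfl fun j _ => by ring
      _ ≤ ∑ i ∈ range r, (1 - al) / al * (2 * (P i * N i)) := by
          rw [Finset.mul_sum, Finset.mul_sum]
          refine Finset.sum_le_sum fun i hi => ?_
          refine mul_le_mul_of_nonneg_left (mul_le_mul_of_nonneg_left ?_ (by norm_num)) hγ
          exact mul_le_mul_of_nonneg_right (hP i (mem_range.1 hi)) (ip_self_nonneg ha0 ha1 _)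
  rw [runM_expand, ip_add_left, ip_add_right, ip_add_right, ip_smul_left, ip_smul_left,
    ip_smul_right, ip_smul_right, ip_ev_ev ha0 ha1, ip_comm al (∑ i ∈ range r, _) (ev al V)]
  simp only [T] at hcross key
  rw [hcross]
  nlinarith [mul_le_mul_of_nonneg_left key (sq_nonneg (1 - q))]

theorem coeff_gP_pow_mul_le {q : ℝ} (hq0 : 0 < q) (hq1 : q < 1) (L r k n : ℕ) :
    (gP q L ^ r * lin (tht q) ^ k).coeff n ≤
      supA q / Real.sqrt ((2 * L * r + k + 1 : ℝ)) := by
  obtain ⟨h0, h1⟩ := tht_mem hq0 hq1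
  have e : gP q L ^ r * lin (tht q) ^ k = lin (tht q) ^ (2 * L * r + k) * lin (1 - q) ^ r := by
    rw [gP, mul_pow, ← pow_mul, pow_add]; ring
  rw [e]
  refine (coeff_binom_mul_le h0 h1 ((pprob_lin (by linarith) (by linarith)).pow r) _ n).trans ?_
  rw [supA, mul_assoc, Real.sqrt_mul (by positivity), div_div]
  push_cast
  rw [mul_comm]

theorem coeff_gapP_le {q : ℝ} (hq0 : 0 < q) (hq1 : q < 1) (L i n : ℕ) (hL : 1 ≤ L) :
    (gapP q L i).coeff n ≤ supA q / (Real.sqrt L * Real.sqrt (i + 1)) := by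
  refine (coeff_gP_pow_mul_le hq0 hq1 L i (2 * L) n).trans ?_
  have hL' : (1 : ℝ) ≤ L := by exact_mod_cast hL
  rw [← Real.sqrt_mul (by positivity)]
  refine div_le_div_of_nonneg_left (supA_pos hq0 hq1).le (by positivity) (Real.sqrt_le_sqrt ?_)
  push_cast
  nlinarith [Nat.cast_nonneg (α := ℝ) i]

theorem pvar_gapP_le {q : ℝ} (hq0 : 0 < q) (hq1 : q < 1) (L i : ℕ) (hL : 1 ≤ L) :
    pvar (gapP q L i) ≤ (L : ℝ) * (i + 1) := by
  obtain ⟨h0, h1⟩ := tht_mem hq0 hq1
  have hz := pprob_lin h0.le h1.le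
  have hk : PProb (lin (1 - q)) := pprob_lin (by linarith) (by linarith)
  rw [gapP, pvar_mul ((pprob_gP hq0 hq1 L).pow i) (hz.pow _), pvar_pow (pprob_gP hq0 hq1 L), gP,
    pvar_mul (hz.pow _) hk, pvar_pow hz, pvar_lin, pvar_lin]
  have hq : tht q * (1 - tht q) ≤ 1 / 4 := by nlinarith [sq_nonneg (tht q - 1 / 2)]
  have hb : (1 - q) * (1 - (1 - q)) ≤ 1 / 4 := by nlinarith [sq_nonneg (q - 1 / 2)]
  have hL' : (1 : ℝ) ≤ L := by exact_mod_cast hL
  have hi : (0 : ℝ) ≤ i := Nat.cast_nonneg i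
  push_cast
  nlinarith [mul_le_mul_of_nonneg_left hb hi, mul_le_mul_of_nonneg_left hq
    (mul_nonneg (by linarith : (0:ℝ) ≤ 2 * L) (by linarith : (0:ℝ) ≤ (i : ℝ) + 1)),
    mul_nonneg hi (by linarith : (0:ℝ) ≤ (L : ℝ) - 1)]

theorem pmean_gapP_sub {q : ℝ} (hq0 : 0 < q) (hq1 : q < 1) (L i j : ℕ) :
    pmean (gapP q L i) - pmean (gapP q L j) =
      ((i : ℝ) - j) * (2 * L * tht q + (1 - q)) := by
  obtain ⟨h0, h1⟩ := tht_mem hq0 hq1
  have hz := pprob_lin h0.le h1.le
  have hk : PProb (lin (1 - q)) := pprob_lin (by linarith) (by linarith)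
  have e : ∀ k : ℕ, pmean (gapP q L k) =
      k * (2 * L * tht q + (1 - q)) + 2 * L * tht q := fun k => by
    rw [gapP, pmean_mul ((pprob_gP hq0 hq1 L).pow k) (hz.pow _), pmean_pow (pprob_gP hq0 hq1 L),
      gP, pmean_mul (hz.pow _) hk, pmean_pow hz, pmean_lin, pmean_lin]
    push_cast; ring
  rw [e, e]; ring

/-! ### Elementary sums -/

theorem sum_inv_sqrt (r : ℕ) :
    ∑ d ∈ range r, 1 / Real.sqrt ((d : ℝ) + 1) ≤ 2 * Real.sqrt r := by
  induction r with
  | zero => simp
  | succ r ih =>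
    rw [Finset.sum_range_succ]
    push_cast
    have hs : 0 < Real.sqrt ((r : ℝ) + 1) := by positivity
    have h1 : Real.sqrt ((r : ℝ) + 1) ^ 2 = r + 1 := Real.sq_sqrt (by positivity)
    have h2 : Real.sqrt (r : ℝ) ^ 2 = r := Real.sq_sqrt (by positivity)
    have : 1 / Real.sqrt ((r : ℝ) + 1) ≤ 2 * Real.sqrt ((r : ℝ) + 1) - 2 * Real.sqrt r := by
      rw [div_le_iff₀ hs]
      nlinarith [sq_nonneg (Real.sqrt ((r : ℝ) + 1) - Real.sqrt r)]
    linarith

theorem sum_inv_sq (r : ℕ) : ∑ d ∈ range r, 1 / ((d : ℝ) + 1) ^ 2 ≤ 2 := by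
  have h : ∀ r : ℕ, ∑ d ∈ range (r + 1), 1 / ((d : ℝ) + 1) ^ 2 ≤ 2 - 1 / ((r : ℝ) + 1) := by
    intro r
    induction r with
    | zero => norm_num
    | succ r ih =>
      rw [Finset.sum_range_succ]
      push_cast
      have : 1 / ((r : ℝ) + 1 + 1) ^ 2 ≤ 1 / ((r : ℝ) + 1) - 1 / ((r : ℝ) + 1 + 1) := by
        rw [div_sub_div _ _ (by positivity) (by positivity),
          div_le_div_iff₀ (by positivity) (by positivity)]
        ring_nf
        nlinarith [Nat.cast_nonneg (α := ℝ) r]
      linarith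
  rcases r with _ | r
  · simp
  · exact (h r).trans (sub_le_self _ (by positivity))

theorem sum_dist_le (F : ℕ → ℝ) (hF : ∀ d, 0 ≤ F d) (r i : ℕ) (hi : i < r) :
    ∑ j ∈ (range r).erase i, F (Nat.dist i j - 1) ≤ 2 * ∑ d ∈ range r, F d := by
  have h1 : ∑ j ∈ (range r).filter (fun j => j < i), F (Nat.dist i j - 1) ≤
      ∑ d ∈ range r, F d := by
    rw [← Finset.sum_image (g := fun j => Nat.dist i j - 1) (fun a ha b hb h => by
      simp only [coe_filter, Set.mem_ofPred_eq, Nat.dist] at ha hb h; omega)]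
    refine Finset.sum_le_sum_of_subset_of_nonneg (fun d hd => ?_) fun d _ _ => hF d
    simp only [mem_image, mem_filter, mem_range, Nat.dist] at hd ⊢
    omega
  have h2 : ∑ j ∈ (range r).filter (fun j => i < j), F (Nat.dist i j - 1) ≤
      ∑ d ∈ range r, F d := by
    rw [← Finset.sum_image (g := fun j => Nat.dist i j - 1) (fun a ha b hb h => by
      simp only [coe_filter, Set.mem_ofPred_eq, Nat.dist] at ha hb h; omega)]
    refine Finset.sum_le_sum_of_subset_of_nonneg (fun d hd => ?_) fun d _ _ => hF d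
    simp only [mem_image, mem_filter, mem_range, Nat.dist] at hd ⊢
    omega
  have hsplit : (range r).erase i =
      (range r).filter (fun j => j < i) ∪ (range r).filter (fun j => i < j) := by
    ext j; simp only [mem_erase, mem_range, mem_union, mem_filter]; omega
  rw [hsplit, Finset.sum_union (Finset.disjoint_left.2 fun j ha hb => by
    simp only [mem_filter] at ha hb; omega)]
  linarith

theorem sum_exp_le {β : ℝ} (hβ : 0 < β) (r : ℕ) :
    ∑ i ∈ range r, Real.exp (-β * (i + 1)) ≤ 1 / β := by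
  have h : ∀ r : ℕ, β * ∑ i ∈ range r, Real.exp (-β * (i + 1)) ≤ 1 - Real.exp (-β * r) := by
    intro r
    induction r with
    | zero => simp
    | succ r ih =>
      rw [Finset.sum_range_succ, mul_add]
      have e : Real.exp (-β * r) = Real.exp (-β * ((r : ℝ) + 1)) * Real.exp β := by
        rw [← Real.exp_add]; congr 1; ring
      push_cast
      nlinarith [mul_le_mul_of_nonneg_left (Real.add_one_le_exp β)
        (Real.exp_pos (-β * ((r : ℝ) + 1))).le]
  rw [le_div_iff₀ hβ]
  linarith [h r, Real.exp_pos (-β * r)]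

theorem sum_exp_sqrt_le {β : ℝ} (hβ : 0 < β) (hβ1 : β ≤ 1) (r : ℕ) (f : ℕ → ℕ)
    (hf : Set.InjOn f ↑(range r)) :
    ∑ i ∈ range r, Real.exp (-β * (i + 1)) / Real.sqrt ((f i : ℝ) + 1) ≤
      4 / Real.sqrt β := by
  set M := ⌈1 / β⌉₊ with hM
  have hM1 : 1 / β ≤ M := Nat.le_ceil _
  have hM2 : (M : ℝ) ≤ 2 / β := by
    have := Nat.ceil_lt_add_one (show 0 ≤ 1 / β by positivity)
    have h1 : 1 ≤ 1 / β := by rw [le_div_iff₀ hβ]; linarith
    rw [← hM] at this
    have : 2 / β = 1 / β + 1 / β := by ring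
    linarith
  have hsb : 0 < Real.sqrt β := Real.sqrt_pos.2 hβ
  rw [← Finset.sum_filter_add_sum_filter_not (range r) (fun i => f i < M)]
  have h1 : ∑ i ∈ (range r).filter (fun i => f i < M),
      Real.exp (-β * (i + 1)) / Real.sqrt ((f i : ℝ) + 1) ≤ 2 * Real.sqrt 2 / Real.sqrt β := by
    calc _ ≤ ∑ i ∈ (range r).filter (fun i => f i < M), 1 / Real.sqrt ((f i : ℝ) + 1) :=
          Finset.sum_le_sum fun i _ => div_le_div_of_nonneg_right
            (Real.exp_le_one_iff.2 (by nlinarith [Nat.cast_nonneg (α := ℝ) i])) (Real.sqrt_nonneg _)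
      _ = ∑ d ∈ ((range r).filter (fun i => f i < M)).image f, 1 / Real.sqrt ((d : ℝ) + 1) :=
          (Finset.sum_image (f := fun d : ℕ => 1 / Real.sqrt ((d : ℝ) + 1))
            (hf.mono (Finset.coe_subset.2 (filter_subset _ _)))).symm
      _ ≤ ∑ d ∈ range M, 1 / Real.sqrt ((d : ℝ) + 1) := by
          refine Finset.sum_le_sum_of_subset_of_nonneg (fun d hd => ?_) fun d _ _ => by positivity
          simp only [mem_image, mem_filter] at hd
          obtain ⟨i, ⟨_, hiM⟩, rfl⟩ := hd
          exact mem_range.2 hiM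
      _ ≤ 2 * Real.sqrt M := sum_inv_sqrt M
      _ ≤ 2 * Real.sqrt 2 / Real.sqrt β := by
          rw [mul_div_assoc, ← Real.sqrt_div (by norm_num)]
          exact mul_le_mul_of_nonneg_left (Real.sqrt_le_sqrt hM2) (by norm_num)
  have h2 : ∑ i ∈ (range r).filter (fun i => ¬f i < M),
      Real.exp (-β * (i + 1)) / Real.sqrt ((f i : ℝ) + 1) ≤ 1 / Real.sqrt β := by
    calc _ ≤ ∑ i ∈ (range r).filter (fun i => ¬f i < M), Real.exp (-β * (i + 1)) * Real.sqrt β := by
          refine Finset.sum_le_sum fun i hi => ?_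
          simp only [mem_filter, not_lt] at hi
          rw [div_le_iff₀ (by positivity), mul_assoc, ← Real.sqrt_mul hβ.le]
          refine le_mul_of_one_le_right (Real.exp_pos _).le (Real.one_le_sqrt.2 ?_)
          have : (M : ℝ) ≤ f i := by exact_mod_cast hi.2
          rw [div_le_iff₀ hβ] at hM1
          nlinarith
      _ ≤ ∑ i ∈ range r, Real.exp (-β * (i + 1)) * Real.sqrt β :=
          Finset.sum_le_sum_of_subset_of_nonneg (filter_subset _ _) fun i _ _ => by positivity
      _ ≤ 1 / β * Real.sqrt β := by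
          rw [← Finset.sum_mul]
          exact mul_le_mul_of_nonneg_right (sum_exp_le hβ r) hsb.le
      _ = 1 / Real.sqrt β := by
          nth_rewrite 1 [← Real.mul_self_sqrt hβ.le]
          field_simp
  have h3 : 2 * Real.sqrt 2 / Real.sqrt β + 1 / Real.sqrt β ≤ 4 / Real.sqrt β := by
    rw [← add_div]
    refine div_le_div_of_nonneg_right ?_ hsb.le
    have := Real.sq_sqrt (show (0:ℝ) ≤ 2 by norm_num)
    nlinarith [Real.sqrt_nonneg 2]
  linarith

/-! ### Coincidences -/

theorem coincidence_le {q : ℝ} (hq0 : 0 < q) (hq1 : q < 1) {L : ℕ} (hL : 1 ≤ L) {r i : ℕ}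
    (hi : i < r) :
    ∑ j ∈ range r, pdot (gapP q L i) (gapP q L j) ≤
      supA q / (Real.sqrt L * Real.sqrt (i + 1)) +
        16 * supA q / tht q ^ 2 * Real.sqrt r / (L * Real.sqrt L) := by
  obtain ⟨h0, h1⟩ := tht_mem hq0 hq1
  have hA := supA_pos hq0 hq1
  have hL' : (1 : ℝ) ≤ L := by exact_mod_cast hL
  have hG := pprob_gapP hq0 hq1 L
  rw [← Finset.add_sum_erase (range r) _ (mem_range.2 hi)]
  refine add_le_add (pdot_le (hG i) fun n => coeff_gapP_le hq0 hq1 L i n hL) ?_
  set κ := supA q / (tht q ^ 2 * (L * Real.sqrt L)) with hκ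
  have hκ0 : 0 ≤ κ := by positivity
  have hterm : ∀ j ∈ (range r).erase i, pdot (gapP q L i) (gapP q L j) ≤
      κ * (2 * (1 / Real.sqrt (((Nat.dist i j - 1 : ℕ) : ℝ) + 1)) +
        2 * Real.sqrt r * (1 / (((Nat.dist i j - 1 : ℕ) : ℝ) + 1) ^ 2)) := by
    intro j hj
    obtain ⟨hne, hjr⟩ := mem_erase.1 hj
    rw [mem_range] at hjr
    have hdn : ((Nat.dist i j - 1 : ℕ) : ℝ) + 1 = |(i : ℝ) - j| := by
      rcases lt_or_gt_of_ne hne with h | h
      · rw [show Nat.dist i j - 1 = i - j - 1 by simp only [Nat.dist]; omega,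
          abs_of_pos (by exact sub_pos.2 (by exact_mod_cast h))]
        rw [Nat.cast_sub (by omega), Nat.cast_sub (by omega)]; push_cast; ring
      · rw [show Nat.dist i j - 1 = j - i - 1 by simp only [Nat.dist]; omega,
          abs_of_neg (sub_neg.2 (by exact_mod_cast h))]
        rw [Nat.cast_sub (by omega), Nat.cast_sub (by omega)]; push_cast; ring
    rw [hdn]
    set d := |(i : ℝ) - j| with hd
    have hd1 : 1 ≤ d := by rw [← hdn]; simp
    have hdne : pmean (gapP q L i) ≠ pmean (gapP q L j) := by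
      rw [ne_eq, ← sub_eq_zero, pmean_gapP_sub hq0 hq1]
      refine mul_ne_zero (fun e => ?_) (by have : 0 < 2 * (L:ℝ) * tht q := by positivity
                                           linarith)
      rw [hd, e, abs_zero] at hd1; linarith
    refine (pdot_le_of_mean (hG i) (hG j) (fun n => coeff_gapP_le hq0 hq1 L i n hL)
      (fun n => coeff_gapP_le hq0 hq1 L j n hL) hdne).trans ?_
    rw [pmean_gapP_sub hq0 hq1, mul_pow, ← sq_abs ((i : ℝ) - j), ← hd]
    set s := Real.sqrt ((j : ℝ) + 1) with hs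
    set t := Real.sqrt ((i : ℝ) + 1) with ht
    have hs0 : 0 < s := by positivity
    have ht0 : 0 < t := by positivity
    have hs2 : s ^ 2 = j + 1 := Real.sq_sqrt (by positivity)
    have ht2 : t ^ 2 = i + 1 := Real.sq_sqrt (by positivity)
    have hsr : s ≤ Real.sqrt r := Real.sqrt_le_sqrt (by exact_mod_cast hjr)
    have htr : t ≤ Real.sqrt r := Real.sqrt_le_sqrt (by exact_mod_cast hi)
    have hs1 : 1 ≤ s := Real.one_le_sqrt.2 (by simp)
    have ht1 : 1 ≤ t := Real.one_le_sqrt.2 (by simp)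
    set u := Real.sqrt d with hu
    have hu1 : 1 ≤ u := Real.one_le_sqrt.2 hd1
    have hu2 : u ^ 2 = d := Real.sq_sqrt (by linarith)
    have hts : t ^ 2 / s ≤ d + Real.sqrt r := by
      rw [div_le_iff₀ hs0, ht2]
      have := le_abs_self ((i : ℝ) - j)
      rw [← hd] at this
      nlinarith
    have hst : s ^ 2 / t ≤ d + Real.sqrt r := by
      rw [div_le_iff₀ ht0, hs2]
      have := neg_le_abs ((i : ℝ) - j)
      rw [← hd] at this
      nlinarith
    have hden : (2 * (L : ℝ) * tht q) ^ 2 ≤ (2 * L * tht q + (1 - q)) ^ 2 :=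
      pow_le_pow_left₀ (by positivity) (by linarith) 2
    calc 4 * (supA q / (Real.sqrt L * s) * pvar (gapP q L i) +
          supA q / (Real.sqrt L * t) * pvar (gapP q L j)) /
          (d ^ 2 * (2 * L * tht q + (1 - q)) ^ 2)
        ≤ 4 * (supA q / (Real.sqrt L * s) * (L * t ^ 2) +
          supA q / (Real.sqrt L * t) * (L * s ^ 2)) / (d ^ 2 * (2 * L * tht q) ^ 2) := by
          have hvi := pvar_gapP_le hq0 hq1 L i hL
          have hvj := pvar_gapP_le hq0 hq1 L j hL
          rw [← ht2] at hvi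
          rw [← hs2] at hvj
          gcongr
      _ = κ * ((t ^ 2 / s + s ^ 2 / t) / d ^ 2) := by
          rw [hκ]; field_simp; ring
      _ ≤ κ * (2 * (1 / u) + 2 * Real.sqrt r * (1 / d ^ 2)) := by
          refine mul_le_mul_of_nonneg_left ?_ hκ0
          rw [div_le_iff₀ (by positivity)]
          have e : (2 * (1 / u) + 2 * Real.sqrt r * (1 / d ^ 2)) * d ^ 2 =
              2 * (d ^ 2 / u) + 2 * Real.sqrt r := by field_simp
          have hdu : d ≤ d ^ 2 / u := by
            rw [le_div_iff₀ (by linarith), ← hu2]; nlinarith [pow_nonneg (by linarith : (0:ℝ) ≤ u) 3]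
          rw [e]; linarith
  refine (Finset.sum_le_sum hterm).trans ?_
  rw [← Finset.mul_sum]
  have hbnd := sum_dist_le (fun d : ℕ => 2 * (1 / Real.sqrt ((d : ℝ) + 1)) +
    2 * Real.sqrt r * (1 / ((d : ℝ) + 1) ^ 2)) (fun d => by positivity) r i hi
  have h2 : ∑ d ∈ range r, (2 * (1 / Real.sqrt ((d : ℝ) + 1)) +
      2 * Real.sqrt r * (1 / ((d : ℝ) + 1) ^ 2)) ≤ 8 * Real.sqrt r := by
    rw [Finset.sum_add_distrib, ← Finset.mul_sum, ← Finset.mul_sum]
    nlinarith [sum_inv_sqrt r, mul_le_mul_of_nonneg_left (sum_inv_sq r)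
      (by positivity : 0 ≤ 2 * Real.sqrt (r : ℝ))]
  calc _ ≤ κ * (16 * Real.sqrt r) := mul_le_mul_of_nonneg_left (by linarith) hκ0
    _ = _ := by rw [hκ]; field_simp

/-- Subadditivity of the square root, in the form used below. -/
theorem sqrt_succ_le {r i : ℕ} (hi : i < r) :
    Real.sqrt ((r : ℝ) + 1) ≤
      Real.sqrt (((r - 1 - i : ℕ) : ℝ) + 1) + Real.sqrt ((i : ℝ) + 1) := by
  have hc : ((r - 1 - i : ℕ) : ℝ) + 1 + ((i : ℝ) + 1) = r + 1 := by
    rw [Nat.cast_sub (by omega), Nat.cast_sub (by omega)]; push_cast; ring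
  rw [Real.sqrt_le_left (by positivity), add_sq, Real.sq_sqrt (by positivity),
    Real.sq_sqrt (by positivity)]
  have : 0 ≤ 2 * Real.sqrt (((r - 1 - i : ℕ) : ℝ) + 1) * Real.sqrt ((i : ℝ) + 1) := by positivity
  linarith

/-- One term of the renewal inequality. -/
theorem renewal_term {A e sL u v t w N κ cs L : ℝ} (hA : 0 < A) (he : 0 < e) (hs : 0 < sL)
    (hu : 0 < u) (hv : 0 < v) (ht : 0 < t) (hw : 0 < w) (hκ : 0 ≤ κ) (hL : sL ^ 2 = L)
    (huv : u ≤ v + t) (htr : t ≤ cs * sL) (hN : N ≤ 2 * A * (e * w) / (sL * v)) :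
    (A / (sL * t) + κ / L) * N ≤ 2 * A * e / (sL * u) *
      (A / sL * (w / t) + κ / L * w + (A / sL + κ * cs / sL) * (w / v)) := by
  subst hL
  refine (mul_le_mul_of_nonneg_left hN (by positivity)).trans ?_
  calc (A / (sL * t) + κ / sL ^ 2) * (2 * A * (e * w) / (sL * v))
      = 2 * A * e / (sL * u) * ((A / (sL * t) + κ / sL ^ 2) * w * (u / v)) := by field_simp
    _ ≤ 2 * A * e / (sL * u) * ((A / (sL * t) + κ / sL ^ 2) * w * (1 + t / v)) := by
        refine mul_le_mul_of_nonneg_left (mul_le_mul_of_nonneg_left ?_ (by positivity))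
          (by positivity)
        rw [div_le_iff₀ hv, add_mul, div_mul_cancel₀ _ hv.ne', one_mul]
        exact huv
    _ ≤ _ := by
        refine mul_le_mul_of_nonneg_left ?_ (by positivity)
        have e1 : (A / (sL * t) + κ / sL ^ 2) * w * (1 + t / v) = A / sL * (w / t) +
            κ / sL ^ 2 * w + (A / sL + κ * t / sL ^ 2) * (w / v) := by field_simp
        have e2 : κ * t / sL ^ 2 ≤ κ * cs / sL := by
          calc κ * t / sL ^ 2 ≤ κ * (cs * sL) / sL ^ 2 :=
                div_le_div_of_nonneg_right (mul_le_mul_of_nonneg_left htr hκ) (by positivity)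
            _ = κ * cs / sL := by field_simp
        rw [e1]
        exact add_le_add le_rfl (mul_le_mul_of_nonneg_right (add_le_add le_rfl e2) (by positivity))

/-- The total weight in the renewal inequality is small. -/
theorem renewal_small {A sL sB κ cs : ℝ} (hs : 0 < sL) (hB : 1 ≤ sB) (hκ : 0 ≤ κ) :
    A / sL * (4 / (sB / sL)) + κ / sL ^ 2 * (1 / (sB ^ 2 / sL ^ 2)) +
      (A / sL + κ * cs / sL) * (4 / (sB / sL)) ≤ (8 * A + κ + 4 * κ * cs) / sB := by
  have hB0 : 0 < sB := by linarith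
  have e3 : A / sL * (4 / (sB / sL)) + κ / sL ^ 2 * (1 / (sB ^ 2 / sL ^ 2)) +
      (A / sL + κ * cs / sL) * (4 / (sB / sL)) = (8 * A + κ / sB + 4 * κ * cs) / sB := by
    field_simp; ring
  rw [e3]
  exact div_le_div_of_nonneg_right (by linarith [div_le_self hκ hB]) hB0.le

/-- The solution of the renewal inequality. -/
theorem run_bound {q : ℝ} (hq0 : 0 < q) (hq1 : q < 1) (c : ℕ) {B : ℝ} (hB1 : 1 ≤ B)
    (hBq : (2 * ((1 - q) ^ 2 * ((1 - alp q) / alp q)) *
      (8 * supA q + 16 * supA q / tht q ^ 2 * Real.sqrt ((c : ℝ) + 1) +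
        4 * (16 * supA q / tht q ^ 2 * Real.sqrt ((c : ℝ) + 1)) * Real.sqrt ((c : ℝ) + 1))) ^ 2 ≤ B)
    {L a : ℕ} (hBL : B ≤ L) (ha2' : a ≤ c * L + 1) :
    ∀ r, r < a → ip (alp q) (runM q L r) (runM q L r) ≤
      2 * supA q * Real.exp (B / (L : ℝ) * r) / (Real.sqrt L * Real.sqrt ((r : ℝ) + 1)) := by
  obtain ⟨ha0, ha1⟩ := alp_mem hq0
  obtain ⟨h0, h1⟩ := tht_mem hq0 hq1
  have hA := supA_pos hq0 hq1
  set A := supA q with hAdef
  set cs := Real.sqrt ((c : ℝ) + 1) with hcs
  set κ := 16 * A / tht q ^ 2 * cs with hκ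
  have hκ0 : 0 ≤ κ := by positivity
  set zc := (1 - q) ^ 2 * ((1 - alp q) / alp q) with hzc
  have hzc0 : 0 ≤ zc := mul_nonneg (sq_nonneg _) (div_nonneg (by linarith) ha0.le)
  set S := 8 * A + κ + 4 * κ * cs with hS
  have hLR : (1 : ℝ) ≤ L := hB1.trans hBL
  have hL : 1 ≤ L := by exact_mod_cast hLR
  set β := B / (L : ℝ) with hβ
  have hβ0 : 0 < β := by positivity
  have hβ1 : β ≤ 1 := by rw [hβ, div_le_one (by linarith)]; exact hBL
  set sL := Real.sqrt (L : ℝ) with hsL
  have hsL0 : 0 < sL := by positivity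
  have hsL2 : sL ^ 2 = L := Real.sq_sqrt (by linarith)
  set sB := Real.sqrt B with hsB
  have hsB1 : 1 ≤ sB := Real.one_le_sqrt.2 hB1
  have hsB2 : sB ^ 2 = B := Real.sq_sqrt (by linarith)
  have hsβ : Real.sqrt β = sB / sL := Real.sqrt_div (by linarith) _
  set N : ℕ → ℝ := fun r => ip (alp q) (runM q L r) (runM q L r) with hN
  have main : ∀ r, r < a → N r ≤ 2 * A * Real.exp (β * r) / (sL * Real.sqrt ((r : ℝ) + 1)) := by
    intro r
    induction r using Nat.strong_induction_on with
    | _ r ih =>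
      intro hra
      set P : ℕ → ℝ := fun i => A / (sL * Real.sqrt ((i : ℝ) + 1)) + κ / L with hP
      have hrc : Real.sqrt (r : ℝ) ≤ cs * sL := by
        rw [hcs, hsL, ← Real.sqrt_mul (by positivity)]
        refine Real.sqrt_le_sqrt ?_
        have : (r : ℝ) ≤ c * L + 1 := by exact_mod_cast le_trans hra.le ha2'
        nlinarith
      have hen := energy_le hq0 L r P
        (fun i j => pdot_nonneg (pprob_gapP hq0 hq1 L i) (pprob_gapP hq0 hq1 L j))
        (fun i hi => by
          refine (coincidence_le hq0 hq1 hL hi).trans (add_le_add le_rfl ?_)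
          rw [hκ, div_le_div_iff₀ (by positivity) (by linarith)]
          calc 16 * A / tht q ^ 2 * Real.sqrt r * L
              ≤ 16 * A / tht q ^ 2 * (cs * sL) * L := by gcongr
            _ = _ := by ring)
      rw [← hzc] at hen
      set u := Real.sqrt ((r : ℝ) + 1) with hu
      have hu0 : 0 < u := by positivity
      set e := Real.exp (β * r) with he
      have he1 : 1 ≤ e := Real.one_le_exp (by positivity)
      have hV : pdot (gP q L ^ r * lin (tht q) ^ L) (gP q L ^ r * lin (tht q) ^ L) ≤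
          A * e / (sL * u) := by
        refine le_trans (pdot_le (((pprob_gP hq0 hq1 L).pow r).mul
          ((pprob_lin h0.le h1.le).pow L)) fun n => coeff_gP_pow_mul_le hq0 hq1 L r L n) ?_
        calc A / Real.sqrt (2 * L * r + L + 1) ≤ A / (sL * u) := by
              rw [hsL, hu, ← Real.sqrt_mul (by linarith)]
              refine div_le_div_of_nonneg_left hA.le (by positivity) (Real.sqrt_le_sqrt ?_)
              nlinarith [Nat.cast_nonneg (α := ℝ) r]
          _ ≤ _ := div_le_div_of_nonneg_right (le_mul_of_one_le_right hA.le he1) (by positivity)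
      set w : ℕ → ℝ := fun i => Real.exp (-β * ((i : ℝ) + 1)) with hw
      have hterm : ∀ i ∈ range r, P i * N (r - 1 - i) ≤
          2 * A * e / (sL * u) * (A / sL * (w i / Real.sqrt ((i : ℝ) + 1)) + κ / L * w i +
            (A / sL + κ * cs / sL) * (w i / Real.sqrt (((r - 1 - i : ℕ) : ℝ) + 1))) := by
        intro i hi
        rw [mem_range] at hi
        have hih := ih (r - 1 - i) (by omega) (by omega)
        have hcast : ((r - 1 - i : ℕ) : ℝ) = r - 1 - i := by
          rw [Nat.cast_sub (by omega), Nat.cast_sub (by omega)]; push_cast; ring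
        set v := Real.sqrt (((r - 1 - i : ℕ) : ℝ) + 1) with hv
        set t := Real.sqrt ((i : ℝ) + 1) with ht
        have hv0 : 0 < v := by positivity
        have ht0 : 0 < t := by positivity
        have huv : u ≤ v + t := sqrt_succ_le hi
        have htr : t ≤ cs * sL :=
          le_trans (Real.sqrt_le_sqrt (by exact_mod_cast hi)) hrc
        have hexp : Real.exp (β * ((r - 1 - i : ℕ) : ℝ)) = e * w i := by
          rw [he, hw, ← Real.exp_add, hcast]; congr 1; ring
        rw [hexp] at hih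
        exact renewal_term (N := N (r - 1 - i)) (w := w i) (e := e) hA (Real.exp_pos _) hsL0 hu0
          hv0 ht0 (Real.exp_pos _) hκ0 hsL2 huv htr hih
      have hsum : zc * ∑ i ∈ range r, P i * N (r - 1 - i) ≤ A * e / (sL * u) := by
        refine (mul_le_mul_of_nonneg_left (Finset.sum_le_sum hterm) hzc0).trans ?_
        rw [← Finset.mul_sum, Finset.sum_add_distrib, Finset.sum_add_distrib, ← Finset.mul_sum,
          ← Finset.mul_sum, ← Finset.mul_sum]
        have s1 := sum_exp_sqrt_le hβ0 hβ1 r id (Set.injOn_id _)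
        have s2 := sum_exp_le hβ0 r
        have s3 := sum_exp_sqrt_le hβ0 hβ1 r (fun i => r - 1 - i) (fun x hx y hy h => by
          simp only [coe_range, Set.mem_Iio] at hx hy; simp only at h; omega)
        simp only [id] at s1
        have hsmall : A / sL * (4 / Real.sqrt β) + κ / L * (1 / β) +
            (A / sL + κ * cs / sL) * (4 / Real.sqrt β) ≤ S / sB := by
          rw [hsβ, hβ, ← hsB2, ← hsL2, hS]
          exact renewal_small hsL0 hsB1 hκ0
        have hkey : zc * (S / sB) ≤ 1 / 2 := by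
          rw [← mul_div_assoc, div_le_iff₀ (by linarith)]
          have h2 : 2 * zc * S ≤ sB := Real.le_sqrt_of_sq_le hBq
          linarith
        calc zc * (2 * A * e / (sL * u) * _)
            ≤ zc * (2 * A * e / (sL * u) * (S / sB)) := by
              refine mul_le_mul_of_nonneg_left (mul_le_mul_of_nonneg_left (le_trans ?_ hsmall)
                (by positivity)) hzc0
              gcongr
          _ = 2 * A * e / (sL * u) * (zc * (S / sB)) := by ring
          _ ≤ 2 * A * e / (sL * u) * (1 / 2) := mul_le_mul_of_nonneg_left hkey (by positivity)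
          _ = _ := by ring
      calc N r ≤ A * e / (sL * u) + A * e / (sL * u) := hen.trans (add_le_add hV hsum)
        _ = _ := by ring
  exact main

/-- The energy of a power of a block. -/
theorem energy_bound {q : ℝ} (hq0 : 0 < q) (hq1 : q < 1) {c : ℕ} (hc : 1 ≤ c) :
    ∃ K L₀ : ℝ, 0 < K ∧ ∀ L a : ℕ, L₀ ≤ L → c * L ≤ a → a ≤ c * L + 1 →
      ip (alp q) (blockM q L ^ a) (blockM q L ^ a) ≤ K / L := by
  obtain ⟨ha0, ha1⟩ := alp_mem hq0
  obtain ⟨h0, h1⟩ := tht_mem hq0 hq1
  have hA := supA_pos hq0 hq1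
  set A := supA q with hAdef
  set cs := Real.sqrt ((c : ℝ) + 1) with hcs
  set κ := 16 * A / tht q ^ 2 * cs with hκ
  have hκ0 : 0 ≤ κ := by positivity
  set zc := (1 - q) ^ 2 * ((1 - alp q) / alp q) with hzc
  have hzc0 : 0 ≤ zc := mul_nonneg (sq_nonneg _) (div_nonneg (by linarith) ha0.le)
  set S := 8 * A + κ + 4 * κ * cs with hS
  set B := max 1 ((2 * zc * S) ^ 2) with hB
  have hB1 : 1 ≤ B := le_max_left _ _
  refine ⟨2 * A / alp q * Real.exp (B * (c + 1)), B, by positivity, fun L a hBL ha1' ha2' => ?_⟩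
  have hLR : (1 : ℝ) ≤ L := hB1.trans hBL
  have hL : 1 ≤ L := by exact_mod_cast hLR
  set β := B / (L : ℝ) with hβ
  set sL := Real.sqrt (L : ℝ) with hsL
  have hsL0 : 0 < sL := by positivity
  have hsL2 : sL ^ 2 = L := Real.sq_sqrt (by linarith)
  have main := run_bound hq0 hq1 c (B := B) hB1 (le_max_right _ _) hBL ha2'
  have hapos : 1 ≤ a := le_trans (Nat.one_le_iff_ne_zero.2 (by positivity)) ha1'
  obtain ⟨m, rfl⟩ : ∃ m, a = m + 1 := ⟨a - 1, by omega⟩
  rw [blockM_pow_succ]
  refine (ip_ev_mul_le ha0 ha1 ((pprob_lin h0.le h1.le).pow L) _).trans ?_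
  refine (ip_token_le ha0 ha1 (by linarith) (by linarith) _).trans ?_
  have hm := main m (by omega)
  have hmL : (L : ℝ) ≤ (m : ℝ) + 1 := by
    have hle : L ≤ m + 1 := le_trans (Nat.le_mul_of_pos_left L (by omega)) ha1'
    exact_mod_cast hle
  calc 1 / alp q * ip (alp q) (runM q L m) (runM q L m)
      ≤ 1 / alp q * (2 * A * Real.exp (β * m) / (sL * Real.sqrt ((m : ℝ) + 1))) :=
        mul_le_mul_of_nonneg_left hm (by positivity)
    _ ≤ 1 / alp q * (2 * A * Real.exp (B * (c + 1)) / (sL * sL)) := by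
        have h2 : (m : ℝ) ≤ c * L := by
          have hle : m ≤ c * L := by omega
          exact_mod_cast hle
        have hexp : β * m ≤ B * (c + 1) := by
          rw [hβ, div_mul_eq_mul_div, div_le_iff₀ (by linarith)]
          nlinarith [mul_le_mul_of_nonneg_left h2 (by linarith : (0:ℝ) ≤ B)]
        gcongr
        exact Real.sqrt_le_sqrt hmL
    _ = _ := by rw [← pow_two sL, hsL2]; field_simp

end Vale.Agent.P321.BO
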