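import Vale.Agent.P321.BaseDefs
import Vale.Agent.P321.BaseOverlapRenewal

/-!
# P321, base overlap: from the indicator model to the deletion channel
-/

namespace Vale.Agent.P321.BO

open Polynomial Finset Push
open scoped Classical

/-- Law of a tuple entry other than `1`. -/
noncomputable def restL (q : ℝ) : Law :=
  MonoidAlgebra.single (FreeMonoid.of false) q +
    MonoidAlgebra.single (FreeMonoid.of false * FreeMonoid.of true) (1 - q)

/-- Resolve the indicators into entries. -/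
noncomputable def resolveLetter (q : ℝ) (b : Bool) : Law := if b then oneL else restL q

/-- Resolve the indicators into entries, linearly. -/
noncomputable def resolve (q : ℝ) : Law →ₐ[ℝ] Law :=
  MonoidAlgebra.lift ℝ Law TW (FreeMonoid.lift (resolveLetter q))

theorem isProb_resolveLetter {q : ℝ} (hq0 : 0 ≤ q) (hq1 : q ≤ 1) (b : Bool) :
    IsProb (resolveLetter q b) := by
  cases b
  · have e : restL q = pushLaw (ι := Fin 2) Finset.univ
        ![FreeMonoid.of false, FreeMonoid.of false * FreeMonoid.of true] ![q, 1 - q] := by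
      simp [pushLaw, restL, Fin.sum_univ_two]
    refine ⟨fun y => ?_, ?_⟩
    · simp only [resolveLetter, Bool.false_eq_true, if_false]
      rw [e, val_pushLaw]
      refine Finset.sum_nonneg fun i _ => ?_
      fin_cases i <;> simp <;> linarith
    · simp only [resolveLetter, Bool.false_eq_true, if_false]
      rw [e, mass_pushLaw]; simp [Fin.sum_univ_two]
  · have e : oneL = pushLaw (ι := Unit) Finset.univ (fun _ => FreeMonoid.of true) (fun _ => 1) := by
      simp [pushLaw, oneL]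
    refine ⟨fun y => ?_, ?_⟩
    · simp only [resolveLetter, if_true]
      rw [e, val_pushLaw]; positivity
    · simp only [resolveLetter, if_true]
      rw [e, mass_pushLaw]; simp

theorem isProb_resolve_word {q : ℝ} (hq0 : 0 ≤ q) (hq1 : q ≤ 1) (y : TW) :
    IsProb (FreeMonoid.lift (resolveLetter q) y) := by
  induction y using FreeMonoid.inductionOn' with
  | one => rw [map_one]; exact isProb_one
  | of_mul b y ih =>
    rw [map_mul, FreeMonoid.lift_eval_of]
    exact (isProb_resolveLetter hq0 hq1 b).mul ih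

theorem resolve_single (q : ℝ) (y : TW) (a : ℝ) :
    resolve q (MonoidAlgebra.single y a) = a • FreeMonoid.lift (resolveLetter q) y := by
  rw [resolve, MonoidAlgebra.lift_single]

theorem l1_resolve {q : ℝ} (hq0 : 0 ≤ q) (hq1 : q ≤ 1) (X : Law) :
    l1 (resolve q X) ≤ l1 X := by
  conv_lhs => rw [law_eq_sum X subset_rfl, map_sum]
  refine (l1_sum _ _).trans (le_of_eq ?_)
  rw [l1]
  refine Finset.sum_congr rfl fun y _ => ?_
  rw [resolve_single, l1_smul, l1_of_isProb (isProb_resolve_word hq0 hq1 y), mul_one]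

theorem resolve_ber (q : ℝ) :
    resolve q (berL (alp q)) = alp q • oneL + (1 - alp q) • restL q := by
  simp [berL, oneL, zeroL, resolve_single, resolveLetter, sub_smul]

theorem resolve_period {q : ℝ} (hq0 : 0 < q) :
    resolve q (ev (alp q) (lin (tht q))) = perLaw q := by
  have h : (1 + q) ≠ 0 := by linarith
  rw [lin, ev, map_add, map_mul, aeval_X, aeval_C, aeval_C, map_add, map_mul, AlgHom.commutes,
    AlgHom.commutes, resolve_ber q, Algebra.algebraMap_eq_smul_one,
    Algebra.algebraMap_eq_smul_one, smul_mul_assoc, one_mul]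
  simp only [perLaw, perW, map_mul, lawHom, FreeMonoid.lift_eval_of, bitLaw, add_mul, mul_add,
    MonoidAlgebra.single_mul_single, one_mul, mul_one, restL, oneL, MonoidAlgebra.one_def,
    smul_add, MonoidAlgebra.smul_single', tht, alp]
  have e1 : (1 - (1 - q ^ 2)) = q * q := by ring
  have e2 : (1 - q ^ 2) * (q / (1 + q)) = q * (1 - q) := by field_simp; ring
  have e3 : (1 - q ^ 2) * ((1 - q / (1 + q)) * q) = (1 - q) * q := by field_simp; ring
  have e4 : (1 - q ^ 2) * ((1 - q / (1 + q)) * (1 - q)) = (1 - q) * (1 - q) := by field_simp; ring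
  simp only [e1, e2, e3, e4]
  abel

theorem resolve_tok (q : ℝ) : resolve q (tokL q) = bitLaw q true := by
  have e : (1 - (1 - q)) = q := by ring
  rw [tokL, e, map_add, map_smul, map_smul, map_one]
  simp [oneL, resolve_single, resolveLetter, bitLaw, MonoidAlgebra.one_def]

theorem resolve_block {q : ℝ} (hq0 : 0 < q) (L : ℕ) :
    resolve q (blockM q L) = lawHom q (tokW L L) := by
  rw [blockM, map_mul, map_mul, resolve_tok, map_pow, map_pow, resolve_period hq0, tokW, map_mul,
    map_mul, map_pow]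
  simp [perLaw, lawHom]

theorem mass_eq_eval (X : Law) : mass X = (lenP X).eval 1 := by
  induction X using MonoidAlgebra.induction_linear with
  | zero => simp [mass, supp]
  | add X Y hX hY => rw [mass_add, map_add, eval_add, hX, hY]
  | single y a =>
    rw [lenP_single, eval_smul, eval_pow, eval_X, one_pow, smul_eq_mul, mul_one]
    have e : MonoidAlgebra.single y a = pushLaw (ι := Unit) Finset.univ (fun _ => y) fun _ => a := by
      simp [pushLaw]
    rw [e, mass_pushLaw]; simp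

theorem monoW_blockM_pow {q : ℝ} (hq0 : 0 < q) (hq1 : q < 1) (L a : ℕ) :
    MonoW (alp q) (blockM q L ^ a) := by
  obtain ⟨ha0, ha1⟩ := alp_mem hq0
  have hz := (pprob_lin (tht_mem hq0 hq1).1.le (tht_mem hq0 hq1).2.le).pow L
  induction a with
  | zero => simpa using monoW_one _
  | succ a ih =>
    rw [pow_succ', blockM, mul_assoc, mul_assoc]
    exact monoW_ev_mul ha0 ha1 hz.1
      (monoW_token_mul ha0 ha1 (by linarith) (by linarith) (monoW_ev_mul ha0 ha1 hz.1 ih))

theorem isProb_blockM_pow {q : ℝ} (hq0 : 0 < q) (hq1 : q < 1) (L a : ℕ) :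
    IsProb (blockM q L ^ a) :=
  ⟨(monoW_blockM_pow hq0 hq1 L a).1, by
    rw [mass_eq_eval, map_pow, lenP_blockM, ((pprob_gP hq0 hq1 L).pow a).2]⟩

theorem l1_sub_le_min {X Y : Law} (hX : IsProb X) (hY : IsProb Y) (S : Finset TW) :
    l1 (X - Y) ≤ 2 - 2 * ∑ y ∈ S, min (val X y) (val Y y) := by
  set T := S ∪ supp X ∪ supp Y
  have hsX : supp X ⊆ T := fun y h => mem_union_left _ (mem_union_right _ h)
  have hsY : supp Y ⊆ T := fun y h => mem_union_right _ h
  have hs : supp (X - Y) ⊆ T := fun y h => by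
    by_contra hc
    exact mem_supp.1 h (by rw [val_sub, val_eq_zero (fun e => hc (hsX e)),
      val_eq_zero (fun e => hc (hsY e)), sub_zero])
  have hmin : ∑ y ∈ S, min (val X y) (val Y y) ≤ ∑ y ∈ T, min (val X y) (val Y y) :=
    Finset.sum_le_sum_of_subset_of_nonneg (fun y h => mem_union_left _ (mem_union_left _ h))
      fun y _ _ => le_min (hX.1 y) (hY.1 y)
  have hxT : ∑ y ∈ T, val X y = 1 := by
    rw [← sum_supp_eq X hsX (fun _ v => v) fun _ => rfl]; exact hX.2
  have hyT : ∑ y ∈ T, val Y y = 1 := by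
    rw [← sum_supp_eq Y hsY (fun _ v => v) fun _ => rfl]; exact hY.2
  rw [l1, sum_supp_eq _ hs (fun _ v => |v|) fun _ => abs_zero]
  calc ∑ y ∈ T, |val (X - Y) y|
      = ∑ y ∈ T, (val X y + val Y y - 2 * min (val X y) (val Y y)) := by
        refine Finset.sum_congr rfl fun y _ => ?_
        rw [val_sub]
        rcases le_total (val X y) (val Y y) with h | h
        · rw [min_eq_left h, abs_of_nonpos (by linarith)]; ring
        · rw [min_eq_right h, abs_of_nonneg (by linarith)]; ring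
    _ ≤ _ := by
        rw [Finset.sum_sub_distrib, Finset.sum_add_distrib, hxT, hyT, ← Finset.mul_sum]
        linarith

/-- The count laws of `a` and `a + 1` blocks: uniform bound, overlap, concentration. -/
theorem count_facts {q : ℝ} (hq0 : 0 < q) (hq1 : q < 1) {c L : ℕ} (hc1 : 1 ≤ c)
    (hc18 : 18 * supA q ^ 2 ≤ (c : ℝ)) (hL1 : 1 ≤ L) :
    (∀ n, (gP q L ^ (c * L)).coeff n ≤ supA q / L) ∧
      pl1 (gP q L ^ (c * L) * (1 - gP q L)) ≤ 1 / 2 ∧
      ∃ W : Finset ℕ, (W.card : ℝ) ≤ (6 * c + 1) * L ∧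
        7 / 8 ≤ ∑ n ∈ W, (gP q L ^ (c * L)).coeff n := by
  obtain ⟨h0, h1⟩ := tht_mem hq0 hq1
  have hA := supA_pos hq0 hq1
  set A := supA q with hAdef
  have hcR : (1 : ℝ) ≤ c := by exact_mod_cast hc1
  have hLR : (1 : ℝ) ≤ L := by exact_mod_cast hL1
  set a := c * L with ha
  have haR : (a : ℝ) = c * L := by simp [ha]
  set g := gP q L with hg
  have hgp := pprob_gP hq0 hq1 L
  have hz := pprob_lin h0.le h1.le
  have hk : PProb (lin (1 - q)) := pprob_lin (by linarith) (by linarith)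
  set u : ℕ → ℝ := fun n => (g ^ a).coeff n with hu
  have hu0 : ∀ n, 0 ≤ u n := fun n => (hgp.pow a).1 n
  have hsA : Real.sqrt (2 * c) * L ≤ Real.sqrt (2 * L * a + 0 + 1) := by
    rw [haR, ← Real.sqrt_sq (show (0:ℝ) ≤ (L : ℝ) by linarith), ← Real.sqrt_mul (by positivity)]
    refine Real.sqrt_le_sqrt ?_
    rw [Real.sqrt_sq (by linarith : (0:ℝ) ≤ (L : ℝ))]; nlinarith
  have hsup : ∀ n, u n ≤ A / L := by
    intro n
    have h := coeff_gP_pow_mul_le hq0 hq1 L a 0 n
    simp only [pow_zero, mul_one, Nat.cast_zero] at h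
    refine h.trans (div_le_div_of_nonneg_left hA.le (by linarith) (le_trans ?_ hsA))
    exact le_mul_of_one_le_left (by linarith) (Real.one_le_sqrt.2 (by linarith))
  have htv : pl1 (g ^ a * (1 - g)) ≤ 1 / 2 := by
    have hd : pl1 (g ^ a * (1 - X)) ≤ A / (Real.sqrt (2 * c) * L) := by
      have e : g ^ a * (1 - X) = lin (tht q) ^ (2 * L * a) * (1 - X) * lin (1 - q) ^ a := by
        rw [hg, gP, mul_pow, ← pow_mul]; ring
      rw [e]
      refine (pl1_mul_le _ _).trans ?_
      rw [(hk.pow a).pl1, mul_one]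
      refine (pl1_diff_lin_pow h0 h1 _).trans ?_
      rw [hAdef, supA, mul_assoc, Real.sqrt_mul (by positivity), div_div]
      refine one_div_le_one_div_of_le (by positivity) ?_
      rw [mul_comm]
      refine mul_le_mul_of_nonneg_right (le_trans hsA (le_of_eq ?_)) (Real.sqrt_nonneg _)
      push_cast; ring_nf
    have h1' := pl1_shift_two (Q := lin (1 - q)) (hz.pow (2 * L)) (g ^ a)
    have h2 := pl1_shift_lin_pow h0.le h1.le (g ^ a) (2 * L)
    have h3 := pl1_shift_lin_pow (b := 1 - q) (by linarith) (by linarith) (g ^ a) 1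
    rw [pow_one, Nat.cast_one, one_mul] at h3
    push_cast at h2
    have hD0 := pl1_nonneg (g ^ a * (1 - X))
    have hgs : pl1 (g ^ a * (1 - g)) ≤ 3 * L * pl1 (g ^ a * (1 - X)) := by
      have : g ^ a * (1 - g) = g ^ a * (1 - lin (tht q) ^ (2 * L) * lin (1 - q)) := rfl
      rw [this]
      nlinarith [mul_le_mul_of_nonneg_right (by nlinarith : 2 * (L : ℝ) * tht q + (1 - q) ≤ 3 * L) hD0]
    refine hgs.trans ((mul_le_mul_of_nonneg_left hd (by linarith)).trans ?_)
    have hs : 6 * A ≤ Real.sqrt (2 * c) := Real.le_sqrt_of_sq_le (by nlinarith)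
    have hs0 : 0 < Real.sqrt (2 * (c : ℝ)) := by positivity
    rw [← mul_div_assoc, div_le_iff₀ (by positivity)]
    nlinarith
  -- the window of typical lengths
  set μ := pmean (g ^ a) with hμ
  have hμ0 : 0 ≤ μ := by
    rw [hμ, pmean_pow hgp, gP, pmean_mul (hz.pow _) hk, pmean_pow hz, pmean_lin, pmean_lin]
    have : (0:ℝ) ≤ (2 * L : ℕ) * tht q + (1 - q) := by positivity
    positivity
  have hvar : pvar (g ^ a) ≤ (c : ℝ) * L ^ 2 := by
    rw [pvar_pow hgp, gP, pvar_mul (hz.pow _) hk, pvar_pow hz, pvar_lin, pvar_lin, haR]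
    have hq : tht q * (1 - tht q) ≤ 1 / 4 := by nlinarith [sq_nonneg (tht q - 1 / 2)]
    have hb : (1 - q) * (1 - (1 - q)) ≤ 1 / 4 := by nlinarith [sq_nonneg (q - 1 / 2)]
    push_cast
    have h2 : 2 * (L : ℝ) * (tht q * (1 - tht q)) + (1 - q) * (1 - (1 - q)) ≤ L := by
      linarith [mul_le_mul_of_nonneg_left hq (by linarith : (0:ℝ) ≤ 2 * (L : ℝ))]
    exact (mul_le_mul_of_nonneg_left h2 (by positivity : (0:ℝ) ≤ (c : ℝ) * L)).trans
      (le_of_eq (by ring))
  set R : ℝ := 3 * c * L with hR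
  have hR0 : 0 < R := by positivity
  set W := (range (⌊μ + R⌋₊ + 1)).filter (fun n : ℕ => μ - R < n) with hW
  have hcard : (W.card : ℝ) ≤ (6 * c + 1) * L := by
    have hsub : W ⊆ Finset.Icc ⌈μ - R⌉₊ ⌊μ + R⌋₊ := fun n hn => by
      simp only [hW, mem_filter, mem_range] at hn
      simp only [mem_Icc, Nat.ceil_le]
      exact ⟨hn.2.le, by omega⟩
    have h := Finset.card_le_card hsub
    rw [Nat.card_Icc] at h
    have hfl : (⌊μ + R⌋₊ : ℝ) ≤ μ + R := Nat.floor_le (by linarith)
    have hce : μ - R ≤ (⌈μ - R⌉₊ : ℝ) := Nat.le_ceil _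
    rcases le_or_gt ⌈μ - R⌉₊ (⌊μ + R⌋₊ + 1) with hle | hgt
    · have : (W.card : ℝ) ≤ ((⌊μ + R⌋₊ + 1 - ⌈μ - R⌉₊ : ℕ) : ℝ) := by exact_mod_cast h
      rw [Nat.cast_sub hle] at this
      push_cast at this
      nlinarith
    · have : W.card = 0 := by omega
      rw [this, Nat.cast_zero]; positivity
  have hmassW : 7 / 8 ≤ ∑ n ∈ W, u n := by
    have htot : 1 = ∑ n ∈ (g ^ a).support, u n := by
      rw [hu, ← eval_one_eq_sum, (hgp.pow a).2]
    have hout : ∑ n ∈ (g ^ a).support.filter (fun n => n ∉ W), u n ≤ 1 / 8 := by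
      refine (chebyshev (hgp.pow a) hR0 _ fun n hn => ?_).trans ?_
      · simp only [mem_filter, hW, mem_range, not_and_or] at hn
        rw [← hμ]
        rcases hn.2 with h | h
        · have : μ + R < (n : ℝ) := Nat.lt_of_floor_lt (by omega)
          exact le_trans (by linarith) (le_abs_self _)
        · exact le_trans (by linarith [not_lt.1 h]) (neg_le_abs _)
      · rw [div_le_iff₀ (by positivity), hR]
        nlinarith [mul_le_mul_of_nonneg_right hcR (by positivity : (0:ℝ) ≤ (c : ℝ) * L ^ 2)]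
    have hin : ∑ n ∈ (g ^ a).support.filter (fun n => n ∈ W), u n ≤ ∑ n ∈ W, u n :=
      Finset.sum_le_sum_of_subset_of_nonneg (fun n hn => (mem_filter.1 hn).2) fun n _ _ => hu0 n
    have := Finset.sum_filter_add_sum_filter_not (g ^ a).support (fun n => n ∈ W) u
    linarith
  exact ⟨hsup, htv, W, hcard, hmassW⟩

/-- The lengths where both count laws are of order `1 / L` and both energies of order `1 / L ^ 2`
carry a constant part of the mass, so the two laws overlap. -/
theorem overlap_model (q : ℝ) (hq0 : 0 < q) (hq1 : q < 1) : ∃ (c : ℕ) (th : ℝ), 1 ≤ c ∧ 0 < th ∧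
    ∀ᶠ L : ℕ in Filter.atTop,
      l1 (blockM q L ^ (c * L) - blockM q L ^ (c * L + 1)) ≤ 2 - 2 * th := by
  obtain ⟨ha0, ha1⟩ := alp_mem hq0
  obtain ⟨h0, h1⟩ := tht_mem hq0 hq1
  have hA := supA_pos hq0 hq1
  set A := supA q with hAdef
  set c := max 1 ⌈18 * A ^ 2⌉₊ with hc
  have hc1 : 1 ≤ c := le_max_left _ _
  have hc18 : 18 * A ^ 2 ≤ (c : ℝ) :=
    (Nat.le_ceil _).trans (by exact_mod_cast le_max_right _ _)
  have hcR : (1 : ℝ) ≤ c := by exact_mod_cast hc1
  obtain ⟨K, L₀, hK, hen⟩ := energy_bound hq0 hq1 hc1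
  set η : ℝ := 1 / (16 * (6 * c + 1)) with hη
  have hη0 : 0 < η := by positivity
  set K2 : ℝ := 16 * A * K with hK2
  set BB : ℝ := K2 / η ^ 2 with hBB
  refine ⟨c, 3 / 16 / ((1 + BB) * (1 + BB)), hc1, by positivity, ?_⟩
  filter_upwards [Filter.eventually_ge_atTop (max 1 ⌈L₀⌉₊)] with L hL
  have hL1 : 1 ≤ L := le_of_max_le_left hL
  have hLR : (1 : ℝ) ≤ L := by exact_mod_cast hL1
  have hL0 : L₀ ≤ L := (Nat.le_ceil _).trans (by exact_mod_cast le_of_max_le_right hL)
  set a := c * L with ha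
  have haR : (a : ℝ) = c * L := by simp [ha]
  set g := gP q L with hg
  have hgp := pprob_gP hq0 hq1 L
  have hz := pprob_lin h0.le h1.le
  have hk : PProb (lin (1 - q)) := pprob_lin (by linarith) (by linarith)
  set u : ℕ → ℝ := fun n => (g ^ a).coeff n with hu
  set v : ℕ → ℝ := fun n => (g ^ (a + 1)).coeff n with hv
  have hu0 : ∀ n, 0 ≤ u n := fun n => (hgp.pow a).1 n
  have hv0 : ∀ n, 0 ≤ v n := fun n => (hgp.pow (a + 1)).1 n
  obtain ⟨hsup, htv, W, hcard, hmassW⟩ : (∀ n, u n ≤ A / L) ∧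
      pl1 (g ^ a * (1 - g)) ≤ 1 / 2 ∧
      ∃ W : Finset ℕ, (W.card : ℝ) ≤ (6 * c + 1) * L ∧ 7 / 8 ≤ ∑ n ∈ W, u n :=
    count_facts (L := L) hq0 hq1 hc1 hc18 hL1
  have hminW : 3 / 8 ≤ ∑ n ∈ W, min (u n) (v n) := by
    have h1' : ∑ n ∈ W, |u n - v n| ≤ 1 / 2 := by
      refine le_trans (le_of_eq (Finset.sum_congr rfl fun n _ => ?_))
        ((sum_abs_le_pl1 _ W).trans htv)
      simp only [hu, hv, pow_succ, mul_sub, mul_one, coeff_sub]
    have h2 : ∑ n ∈ W, (u n - |u n - v n|) ≤ ∑ n ∈ W, min (u n) (v n) :=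
      Finset.sum_le_sum fun n _ => le_min (by linarith [abs_nonneg (u n - v n)])
        (by linarith [le_abs_self (u n - v n)])
    rw [Finset.sum_sub_distrib] at h2
    linarith
  set X := blockM q L ^ a with hX
  set Y := blockM q L ^ (a + 1) with hY
  set VX : ℕ → ℝ := fun n => ∑ x : Fin n → Bool, val X (tw x) ^ 2 / wgt (alp q) (tw x)
  set VY : ℕ → ℝ := fun n => ∑ x : Fin n → Bool, val Y (tw x) ^ 2 / wgt (alp q) (tw x)
  have hVnn : ∀ (Z : Law) (n : ℕ),
      0 ≤ ∑ x : Fin n → Bool, val Z (tw x) ^ 2 / wgt (alp q) (tw x) := fun Z n =>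
    Finset.sum_nonneg fun x _ => div_nonneg (sq_nonneg _) (wgt_pos ha0 ha1 _).le
  have hbad : ∀ V : ℕ → ℝ, (∀ n, 0 ≤ V n) → ∑ n ∈ W, V n ≤ K / L →
      ∑ n ∈ W.filter (fun n => K2 / (L : ℝ) ^ 2 < V n), min (u n) (v n) ≤ 1 / 16 := by
    intro V hV hsum
    set F := W.filter (fun n => K2 / (L : ℝ) ^ 2 < V n)
    have h1' : (F.card : ℝ) * (K2 / (L : ℝ) ^ 2) ≤ K / L := by
      calc (F.card : ℝ) * (K2 / (L : ℝ) ^ 2) = ∑ _n ∈ F, K2 / (L : ℝ) ^ 2 := by simp
        _ ≤ ∑ n ∈ F, V n := Finset.sum_le_sum fun n hn => (mem_filter.1 hn).2.le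
        _ ≤ ∑ n ∈ W, V n :=
            Finset.sum_le_sum_of_subset_of_nonneg (filter_subset _ _) fun n _ _ => hV n
        _ ≤ K / L := hsum
    calc ∑ n ∈ F, min (u n) (v n) ≤ ∑ _n ∈ F, A / L :=
          Finset.sum_le_sum fun n _ => (min_le_left _ _).trans (hsup n)
      _ = (F.card : ℝ) * (K2 / (L : ℝ) ^ 2) * ((L : ℝ) / (16 * K)) := by
          simp only [Finset.sum_const, nsmul_eq_mul, hK2]; field_simp
      _ ≤ K / L * ((L : ℝ) / (16 * K)) := mul_le_mul_of_nonneg_right h1' (by positivity)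
      _ = 1 / 16 := by field_simp
  have hbX := hbad VX (hVnn X) ((sum_slices_le ha0 ha1 X W).trans
    (hen L a hL0 le_rfl (Nat.le_succ a)))
  have hbY := hbad VY (hVnn Y) ((sum_slices_le ha0 ha1 Y W).trans
    (hen L (a + 1) hL0 (Nat.le_succ a) le_rfl))
  set G := W.filter (fun n => η / L ≤ min (u n) (v n) ∧ VX n ≤ K2 / (L : ℝ) ^ 2 ∧
    VY n ≤ K2 / (L : ℝ) ^ 2) with hG
  have hgood : 3 / 16 ≤ ∑ n ∈ G, min (u n) (v n) := by
    have hsmall : ∑ n ∈ W.filter (fun n => min (u n) (v n) < η / L), min (u n) (v n) ≤ 1 / 16 := by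
      calc _ ≤ ∑ _n ∈ W.filter (fun n => min (u n) (v n) < η / L), η / L :=
            Finset.sum_le_sum fun n hn => (mem_filter.1 hn).2.le
        _ ≤ ∑ _n ∈ W, η / L :=
            Finset.sum_le_sum_of_subset_of_nonneg (filter_subset _ _) fun n _ _ => by positivity
        _ ≤ (6 * c + 1) * L * (η / L) := by
            rw [Finset.sum_const, nsmul_eq_mul]
            exact mul_le_mul_of_nonneg_right hcard (by positivity)
        _ = 1 / 16 := by rw [hη]; field_simp
    have hsub : W \ G ⊆ W.filter (fun n => min (u n) (v n) < η / L) ∪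
        W.filter (fun n => K2 / (L : ℝ) ^ 2 < VX n) ∪
        W.filter (fun n => K2 / (L : ℝ) ^ 2 < VY n) := fun n hn => by
      simp only [hG, mem_sdiff, mem_filter, not_and, not_le] at hn
      simp only [mem_union, mem_filter]
      by_cases e1 : min (u n) (v n) < η / L
      · exact Or.inl (Or.inl ⟨hn.1, e1⟩)
      by_cases e2 : K2 / (L : ℝ) ^ 2 < VX n
      · exact Or.inl (Or.inr ⟨hn.1, e2⟩)
      exact Or.inr ⟨hn.1, hn.2 hn.1 (not_lt.1 e1) (not_lt.1 e2)⟩
    have hnn : ∀ n, 0 ≤ min (u n) (v n) := fun n => le_min (hu0 n) (hv0 n)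
    have h := Finset.sum_le_sum_of_subset_of_nonneg hsub (fun n _ _ => hnn n)
    have hun : ∀ s t : Finset ℕ, ∑ n ∈ s ∪ t, min (u n) (v n) ≤
        ∑ n ∈ s, min (u n) (v n) + ∑ n ∈ t, min (u n) (v n) := fun s t => by
      rw [← Finset.sum_union_inter]
      exact le_add_of_nonneg_right (Finset.sum_nonneg fun n _ => hnn n)
    have e := Finset.sum_sdiff (f := fun n => min (u n) (v n)) (filter_subset _ W : G ⊆ W)
    linarith [h.trans ((hun _ _).trans (add_le_add (hun _ _) le_rfl))]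
  have hBB0 : 0 ≤ BB := by positivity
  have hper : ∀ n ∈ G, min (u n) (v n) / ((1 + BB) * (1 + BB)) ≤
      ∑ x : Fin n → Bool, min (val X (tw x)) (val Y (tw x)) := by
    intro n hn
    obtain ⟨-, hm, hx, hy⟩ := mem_filter.1 hn
    have hXp : (lenP X).coeff n = u n := by rw [hX, map_pow, lenP_blockM]
    have hYp : (lenP Y).coeff n = v n := by rw [hY, map_pow, lenP_blockM]
    have hB : ∀ w : ℝ, η / L ≤ w → K2 / (L : ℝ) ^ 2 ≤ BB * w ^ 2 := fun w hw => by
      calc K2 / (L : ℝ) ^ 2 = BB * (η / L) ^ 2 := by rw [hBB]; field_simp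
        _ ≤ BB * w ^ 2 := by gcongr
    refine slice_min_ge ha0 ha1 (monoW_blockM_pow hq0 hq1 L a) (monoW_blockM_pow hq0 hq1 L (a + 1))
      n (lt_of_lt_of_le (by positivity) hm) ?_ ?_ ?_ ?_
    · rw [← hX, hXp]; exact min_le_left _ _
    · rw [← hY, hYp]; exact min_le_right _ _
    · rw [← hX, hXp]; exact hx.trans (hB _ (hm.trans (min_le_left _ _)))
    · rw [← hY, hYp]; exact hy.trans (hB _ (hm.trans (min_le_right _ _)))
  have hinj : Set.InjOn (fun p : (n : ℕ) × (Fin n → Bool) => tw p.2)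
      (↑(G.sigma fun n => (Finset.univ : Finset (Fin n → Bool))) : Set _) := by
    rintro ⟨n, x⟩ _ ⟨m, z⟩ _ h
    have hnm : n = m := by rw [← tw_length x, ← tw_length z]; exact congrArg FreeMonoid.length h
    subst hnm
    exact Sigma.ext rfl (heq_of_eq (tw_injective h))
  refine (l1_sub_le_min (isProb_blockM_pow hq0 hq1 L a) (isProb_blockM_pow hq0 hq1 L (a + 1))
    ((G.sigma fun n => (Finset.univ : Finset (Fin n → Bool))).image
      fun p : (n : ℕ) × (Fin n → Bool) => tw p.2)).trans ?_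
  have hfin : 3 / 16 / ((1 + BB) * (1 + BB)) ≤
      ∑ n ∈ G, ∑ x : Fin n → Bool, min (val X (tw x)) (val Y (tw x)) := by
    refine le_trans ?_ (Finset.sum_le_sum hper)
    rw [← Finset.sum_div]
    exact div_le_div_of_nonneg_right hgood (by positivity)
  rw [Finset.sum_image hinj, Finset.sum_sigma]
  linarith

end Vale.Agent.P321.BO
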