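import Vale.Agent.P321.Algebra
import Vale.Agent.P321.BaseDefs
import Vale.Agent.P321.BaseOverlapTransfer

/-!
# P321 module 6: overlap for the periodic token background

Replace every tuple entry by the indicator of the entry `1` (`BaseOverlapTransfer`). Given the
number of entries the likelihood ratio against the product Bernoulli measure increases in the
indicators. Its second moment is bounded at typical lengths by a renewal inequality with an
exponential tilt (`BaseOverlapRenewal`), so Cauchy–Schwarz and FKG make the two laws overlap.
-/

namespace Vale.Agent.P321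

open Filter

theorem base_overlap (q : ℝ) (hq0 : 0 < q) (hq1 : q < 1) : ∃ (c : ℕ) (th : ℝ), 1 ≤ c ∧ 0 < th ∧
    ∀ᶠ L : ℕ in atTop, Overlap (lawHom q (tokW L L)) (c * L) th := by
  obtain ⟨c, th, hc, hth, h⟩ := BO.overlap_model q hq0 hq1
  refine ⟨c, th, hc, hth, h.mono fun L hL => ?_⟩
  unfold Overlap
  rw [← BO.resolve_block hq0, ← map_pow, ← map_pow, ← map_sub]
  exact (BO.l1_resolve hq0.le hq1.le _).trans hL

end Vale.Agent.P321
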