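import Mathlib

/-!
# P321, base overlap: count laws as polynomials

A law on `ℕ` is a polynomial with nonnegative coefficients and value `1` at `1`; independent sums
are products. For a power of a linear polynomial we prove the exact first difference identity, which
gives both a uniform bound on the coefficients and smoothness under shifts.
-/

namespace Vale.Agent.P321.BO

open Polynomial Finset

/-- Nonnegative coefficients and total mass one. -/
def PProb (P : ℝ[X]) : Prop := (∀ n, 0 ≤ P.coeff n) ∧ P.eval 1 = 1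

/-- A law on `{0, 1}`. -/
noncomputable def lin (a : ℝ) : ℝ[X] := C (1 - a) + C a * X

/-- Mean. -/
noncomputable def pmean (P : ℝ[X]) : ℝ := (derivative P).eval 1

/-- Variance. -/
noncomputable def pvar (P : ℝ[X]) : ℝ :=
  (derivative (derivative P)).eval 1 + pmean P - pmean P ^ 2

/-- Absolute values of the coefficients. -/
noncomputable def absP (P : ℝ[X]) : ℝ[X] := ∑ n ∈ P.support, monomial n |P.coeff n|

/-- The sum of the absolute values of the coefficients. -/
noncomputable def pl1 (P : ℝ[X]) : ℝ := (absP P).eval 1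

/-- Inner product of coefficient sequences. -/
noncomputable def pdot (P Q : ℝ[X]) : ℝ := ∑ n ∈ P.support, P.coeff n * Q.coeff n

theorem coeff_absP (P : ℝ[X]) (n : ℕ) : (absP P).coeff n = |P.coeff n| := by
  unfold absP
  rw [finsetSum_coeff]
  by_cases h : n ∈ P.support
  · rw [Finset.sum_eq_single n]
    · simp
    · intro b _ hb; simp [coeff_monomial, hb]
    · exact fun h' => absurd h h'
  · rw [Finset.sum_eq_zero]
    · simp [notMem_support_iff.mp h]
    · intro b hb; simp [coeff_monomial, show b ≠ n from fun e => h (e ▸ hb)]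

theorem eval_one_eq_sum (P : ℝ[X]) : P.eval 1 = ∑ n ∈ P.support, P.coeff n := by
  rw [eval_eq_sum]; simp [Polynomial.sum]

theorem sum_coeff_le_eval {P : ℝ[X]} (hP : ∀ n, 0 ≤ P.coeff n) (s : Finset ℕ) :
    ∑ n ∈ s, P.coeff n ≤ P.eval 1 := by
  rw [eval_one_eq_sum]
  calc ∑ n ∈ s, P.coeff n ≤ ∑ n ∈ s ∪ P.support, P.coeff n :=
        Finset.sum_le_sum_of_subset_of_nonneg Finset.subset_union_left fun n _ _ => hP n
    _ = ∑ n ∈ P.support, P.coeff n := by
        symm
        apply Finset.sum_subset Finset.subset_union_right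
        intro n _ h; exact notMem_support_iff.mp h

theorem pl1_nonneg (P : ℝ[X]) : 0 ≤ pl1 P := by
  rw [pl1, eval_one_eq_sum]
  exact Finset.sum_nonneg fun n _ => by rw [coeff_absP]; exact abs_nonneg _

theorem sum_abs_le_pl1 (P : ℝ[X]) (s : Finset ℕ) : ∑ n ∈ s, |P.coeff n| ≤ pl1 P := by
  have h := sum_coeff_le_eval (P := absP P) (fun n => by rw [coeff_absP]; exact abs_nonneg _) s
  simpa [coeff_absP, pl1] using h

theorem pl1_eq_eval {P : ℝ[X]} (hP : ∀ n, 0 ≤ P.coeff n) : pl1 P = P.eval 1 := by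
  have : absP P = P := Polynomial.ext fun n => by rw [coeff_absP, abs_of_nonneg (hP n)]
  rw [pl1, this]

theorem pl1_le_eval {P Q : ℝ[X]} (h : ∀ n, |P.coeff n| ≤ Q.coeff n) : pl1 P ≤ Q.eval 1 := by
  rw [pl1, eval_one_eq_sum]
  refine (Finset.sum_le_sum fun n _ => ?_).trans
    (sum_coeff_le_eval (fun n => (abs_nonneg _).trans (h n)) _)
  rw [coeff_absP]; exact h n

theorem pl1_mul_le (P Q : ℝ[X]) : pl1 (P * Q) ≤ pl1 P * pl1 Q := by
  simp only [pl1]
  rw [← eval_mul]
  refine pl1_le_eval fun n => ?_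
  rw [coeff_mul, coeff_mul]
  refine (Finset.abs_sum_le_sum_abs _ _).trans (le_of_eq ?_)
  exact Finset.sum_congr rfl fun x _ => by rw [abs_mul, coeff_absP, coeff_absP]

theorem pl1_add_le (P Q : ℝ[X]) : pl1 (P + Q) ≤ pl1 P + pl1 Q := by
  simp only [pl1]
  rw [← eval_add]
  refine pl1_le_eval fun n => ?_
  rw [coeff_add, coeff_add, coeff_absP, coeff_absP]
  exact abs_add_le _ _

theorem pl1_C_mul_le (a : ℝ) (P : ℝ[X]) : pl1 (C a * P) ≤ |a| * pl1 P := by
  have : |a| * pl1 P = (C |a| * absP P).eval 1 := by simp [pl1]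
  rw [this]
  refine pl1_le_eval fun n => ?_
  rw [coeff_C_mul, coeff_C_mul, coeff_absP, abs_mul]

/-! ### Probability polynomials -/

theorem PProb.one : PProb 1 :=
  ⟨fun n => by rw [coeff_one]; split_ifs <;> norm_num, by simp⟩

theorem PProb.mul {P Q : ℝ[X]} (hP : PProb P) (hQ : PProb Q) : PProb (P * Q) :=
  ⟨fun n => by
    rw [coeff_mul]; exact Finset.sum_nonneg fun x _ => mul_nonneg (hP.1 _) (hQ.1 _),
    by rw [eval_mul, hP.2, hQ.2, one_mul]⟩

theorem PProb.pow {P : ℝ[X]} (hP : PProb P) (n : ℕ) : PProb (P ^ n) := by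
  induction n with
  | zero => simpa using PProb.one
  | succ n ih => rw [pow_succ]; exact ih.mul hP

theorem pprob_lin {a : ℝ} (h0 : 0 ≤ a) (h1 : a ≤ 1) : PProb (lin a) := by
  refine ⟨fun n => ?_, by simp [lin]⟩
  rcases n with _ | _ | n <;> simp [lin, coeff_C, coeff_X, coeff_one]
  · linarith
  · linarith

theorem PProb.pl1 {P : ℝ[X]} (hP : PProb P) : pl1 P = 1 := by rw [pl1_eq_eval hP.1, hP.2]

theorem coeff_mul_le {A Q : ℝ[X]} {S : ℝ} (hS : ∀ n, A.coeff n ≤ S) (hQ : PProb Q) (hS0 : 0 ≤ S)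
    (n : ℕ) : (A * Q).coeff n ≤ S := by
  rw [coeff_mul, Finset.Nat.sum_antidiagonal_eq_sum_range_succ (fun i j => A.coeff i * Q.coeff j)]
  calc ∑ i ∈ range n.succ, A.coeff i * Q.coeff (n - i)
      ≤ ∑ i ∈ range n.succ, S * Q.coeff (n - i) :=
        Finset.sum_le_sum fun i _ => mul_le_mul_of_nonneg_right (hS i) (hQ.1 _)
    _ = S * ∑ i ∈ range (n + 1), Q.coeff i := by
        rw [← Finset.mul_sum, ← Finset.sum_range_reflect (fun i => Q.coeff i) (n + 1)]
        simp
    _ ≤ S * 1 := by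
        gcongr
        rw [← hQ.2]; exact sum_coeff_le_eval hQ.1 _
    _ = S := mul_one S

/-! ### Mean and variance -/

theorem pmean_mul {P Q : ℝ[X]} (hP : PProb P) (hQ : PProb Q) :
    pmean (P * Q) = pmean P + pmean Q := by
  simp only [pmean, derivative_mul, eval_add, eval_mul, hP.2, hQ.2]
  ring

theorem pvar_mul {P Q : ℝ[X]} (hP : PProb P) (hQ : PProb Q) :
    pvar (P * Q) = pvar P + pvar Q := by
  simp only [pvar, pmean, derivative_mul, derivative_add, eval_add, eval_mul, hP.2, hQ.2]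
  ring

theorem pmean_one : pmean (1 : ℝ[X]) = 0 := by simp [pmean]

theorem pvar_one : pvar (1 : ℝ[X]) = 0 := by simp [pvar, pmean]

theorem pmean_lin (a : ℝ) : pmean (lin a) = a := by simp [pmean, lin]

theorem pvar_lin (a : ℝ) : pvar (lin a) = a * (1 - a) := by
  simp [pvar, pmean, lin]; ring

theorem pmean_pow {P : ℝ[X]} (hP : PProb P) (n : ℕ) : pmean (P ^ n) = n * pmean P := by
  induction n with
  | zero => simp [pmean_one]
  | succ n ih => rw [pow_succ, pmean_mul (hP.pow n) hP, ih]; push_cast; ring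

theorem pvar_pow {P : ℝ[X]} (hP : PProb P) (n : ℕ) : pvar (P ^ n) = n * pvar P := by
  induction n with
  | zero => simp [pvar_one]
  | succ n ih => rw [pow_succ, pvar_mul (hP.pow n) hP, ih]; push_cast; ring

theorem sum_sq_dev (P : ℝ[X]) (μ : ℝ) :
    ∑ n ∈ P.support, P.coeff n * ((n : ℝ) - μ) ^ 2 =
      (derivative (derivative P)).eval 1 + (1 - 2 * μ) * (derivative P).eval 1
        + μ ^ 2 * P.eval 1 := by
  have key : P.sum (fun n a => a * ((n : ℝ) - μ) ^ 2) =
      (derivative (derivative P)).eval 1 + (1 - 2 * μ) * (derivative P).eval 1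
        + μ ^ 2 * P.eval 1 := by
    induction P using Polynomial.induction_on' with
    | add P Q hP hQ =>
      rw [sum_add_index P Q _ (by simp) (by intros; ring), hP, hQ]
      simp only [derivative_add, eval_add]; ring
    | monomial n a =>
      rw [sum_monomial_index a _ (by simp)]
      simp only [derivative_monomial, eval_monomial, one_pow, mul_one]
      rcases n with _ | n <;> simp <;> ring
  simpa [Polynomial.sum] using key

theorem sum_sq_dev_mean {P : ℝ[X]} (hP : PProb P) :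
    ∑ n ∈ P.support, P.coeff n * ((n : ℝ) - pmean P) ^ 2 = pvar P := by
  rw [sum_sq_dev, pvar, hP.2, ← show pmean P = (derivative P).eval 1 from rfl]; ring

theorem sum_sq_dev_le {P : ℝ[X]} (hP : PProb P) (s : Finset ℕ) :
    ∑ n ∈ s, P.coeff n * ((n : ℝ) - pmean P) ^ 2 ≤ pvar P := by
  rw [← sum_sq_dev_mean hP]
  calc _ ≤ ∑ n ∈ s ∪ P.support, P.coeff n * ((n : ℝ) - pmean P) ^ 2 :=
        Finset.sum_le_sum_of_subset_of_nonneg Finset.subset_union_left
          fun n _ _ => mul_nonneg (hP.1 n) (sq_nonneg _)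
    _ = _ := by
        symm
        apply Finset.sum_subset Finset.subset_union_right
        intro n _ h; simp [notMem_support_iff.mp h]

theorem pvar_nonneg {P : ℝ[X]} (hP : PProb P) : 0 ≤ pvar P := by
  rw [← sum_sq_dev_mean hP]
  exact Finset.sum_nonneg fun n _ => mul_nonneg (hP.1 n) (sq_nonneg _)

/-- Chebyshev. -/
theorem chebyshev {P : ℝ[X]} (hP : PProb P) {T : ℝ} (hT : 0 < T) (s : Finset ℕ)
    (hs : ∀ n ∈ s, T ≤ |(n : ℝ) - pmean P|) : ∑ n ∈ s, P.coeff n ≤ pvar P / T ^ 2 := by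
  rw [le_div_iff₀ (by positivity), Finset.sum_mul]
  refine le_trans (Finset.sum_le_sum fun n hn => ?_) (sum_sq_dev_le hP s)
  refine mul_le_mul_of_nonneg_left ?_ (hP.1 n)
  rw [← sq_abs ((n : ℝ) - pmean P)]
  exact pow_le_pow_left₀ hT.le (hs n hn) 2

/-! ### First differences of a binomial law -/

theorem derivative_lin_pow (a : ℝ) (N : ℕ) :
    derivative (lin a ^ (N + 1)) = C ((N + 1 : ℝ) * a) * lin a ^ N := by
  rw [derivative_pow_succ]
  simp [lin, map_mul]
  ring

/-- The first difference identity. -/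
theorem diff_identity (a : ℝ) (N : ℕ) :
    C ((N + 1 : ℝ) * a * (1 - a)) * (lin a ^ N * (1 - X)) =
      C ((N + 1 : ℝ) * a) * lin a ^ (N + 1) - X * derivative (lin a ^ (N + 1)) := by
  rw [derivative_lin_pow, pow_succ]
  simp only [lin, map_mul, map_sub, map_one, map_add, map_natCast]
  ring

theorem pl1_diff_lin_pow {a : ℝ} (h0 : 0 < a) (h1 : a < 1) (N : ℕ) :
    pl1 (lin a ^ N * (1 - X)) ≤ 1 / Real.sqrt ((N + 1 : ℝ) * a * (1 - a)) := by
  set v : ℝ := (N + 1 : ℝ) * a * (1 - a) with hv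
  have hvpos : 0 < v := by
    have : 0 < 1 - a := by linarith
    positivity
  set P := lin a ^ (N + 1) with hPdef
  have hlin := pprob_lin h0.le h1.le
  have hP : PProb P := hlin.pow _
  have hmean : pmean P = (N + 1 : ℝ) * a := by
    rw [hPdef, pmean_pow hlin, pmean_lin]; push_cast; ring
  have hvar : pvar P = v := by
    rw [hPdef, pvar_pow hlin, pvar_lin, hv]; push_cast; ring
  set D := lin a ^ N * (1 - X) with hD
  have hcoeff : ∀ n, v * D.coeff n = ((N + 1 : ℝ) * a - n) * P.coeff n := by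
    intro n
    have h := congrArg (fun p => Polynomial.coeff p n) (diff_identity a N)
    simp only [coeff_C_mul, coeff_sub, ← hPdef, ← hD] at h
    rw [h]
    rcases n with _ | n
    · simp
    · rw [coeff_X_mul, coeff_derivative]; push_cast; ring
  set s := Real.sqrt v with hs
  have hspos : 0 < s := Real.sqrt_pos.mpr hvpos
  have hssq : s ^ 2 = v := Real.sq_sqrt hvpos.le
  have hb : ∀ n : ℕ, |D.coeff n| ≤
      P.coeff n * ((n : ℝ) - pmean P) ^ 2 / (2 * s * v) + P.coeff n * s / (2 * v) := by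
    intro n
    have h := hcoeff n
    have hd : D.coeff n = ((N + 1 : ℝ) * a - n) * P.coeff n / v := by
      rw [← h]; field_simp
    rw [hd, abs_div, abs_mul, abs_of_nonneg (hP.1 n), abs_of_pos hvpos, hmean]
    set e : ℝ := (N + 1 : ℝ) * a - n with he
    have hk : |e| ≤ e ^ 2 / (2 * s) + s / 2 := by
      rw [div_add_div _ _ (by positivity) (by norm_num), le_div_iff₀ (by positivity)]
      nlinarith [sq_nonneg (|e| - s), sq_abs e]
    calc |e| * P.coeff n / v ≤ (e ^ 2 / (2 * s) + s / 2) * P.coeff n / v :=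
          div_le_div_of_nonneg_right (mul_le_mul_of_nonneg_right hk (hP.1 n)) hvpos.le
      _ = _ := by rw [he]; field_simp; ring
  rw [pl1, eval_one_eq_sum]
  calc ∑ n ∈ (absP D).support, (absP D).coeff n
      = ∑ n ∈ (absP D).support, |D.coeff n| := by simp [coeff_absP]
    _ ≤ ∑ n ∈ (absP D).support,
        (P.coeff n * ((n : ℝ) - pmean P) ^ 2 / (2 * s * v) + P.coeff n * s / (2 * v)) :=
        Finset.sum_le_sum fun n _ => hb n
    _ ≤ v / (2 * s * v) + 1 * s / (2 * v) := by
        rw [Finset.sum_add_distrib, ← Finset.sum_div, ← Finset.sum_div, ← Finset.sum_mul]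
        gcongr
        · exact (sum_sq_dev_le hP _).trans hvar.le
        · exact (sum_coeff_le_eval hP.1 _).trans hP.2.le
    _ = 1 / s := by
        rw [← hssq]; field_simp; ring

theorem coeff_le_pl1_diff (A : ℝ[X]) (n : ℕ) : A.coeff n ≤ pl1 (A * (1 - X)) := by
  have h : ∀ n, A.coeff n ≤ ∑ i ∈ range (n + 1), |(A * (1 - X)).coeff i| := by
    intro n
    induction n with
    | zero => simpa [mul_sub] using le_abs_self (A.coeff 0)
    | succ n ih =>
      rw [Finset.sum_range_succ]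
      have : (A * (1 - X)).coeff (n + 1) = A.coeff (n + 1) - A.coeff n := by
        simp [mul_sub, coeff_mul_X]
      rw [this]
      linarith [le_abs_self (A.coeff (n + 1) - A.coeff n)]
  exact (h n).trans (sum_abs_le_pl1 _ _)

/-- Uniform bound for the coefficients of a product with a binomial factor. -/
theorem coeff_binom_mul_le {a : ℝ} (h0 : 0 < a) (h1 : a < 1) {Q : ℝ[X]} (hQ : PProb Q)
    (N n : ℕ) : (lin a ^ N * Q).coeff n ≤ 1 / Real.sqrt ((N + 1 : ℝ) * a * (1 - a)) :=
  coeff_mul_le (fun i => (coeff_le_pl1_diff _ i).trans (pl1_diff_lin_pow h0 h1 N)) hQ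
    (by positivity) n

theorem pl1_shift_lin_pow {b : ℝ} (h0 : 0 ≤ b) (h1 : b ≤ 1) (A : ℝ[X]) (k : ℕ) :
    pl1 (A * (1 - lin b ^ k)) ≤ k * b * pl1 (A * (1 - X)) := by
  induction k with
  | zero => simp [pl1, absP]
  | succ k ih =>
    have e : A * (1 - lin b ^ (k + 1)) =
        A * (1 - lin b ^ k) + C b * ((A * (1 - X)) * lin b ^ k) := by
      rw [pow_succ]; simp [lin, map_sub]; ring
    rw [e]
    refine (pl1_add_le _ _).trans ?_
    have h2 : pl1 (C b * ((A * (1 - X)) * lin b ^ k)) ≤ b * pl1 (A * (1 - X)) := by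
      refine (pl1_C_mul_le _ _).trans ?_
      rw [abs_of_nonneg h0]
      refine mul_le_mul_of_nonneg_left ((pl1_mul_le _ _).trans ?_) h0
      rw [((pprob_lin h0 h1).pow k).pl1, mul_one]
    push_cast
    linarith

theorem pl1_shift_two {P Q : ℝ[X]} (hP : PProb P) (A : ℝ[X]) :
    pl1 (A * (1 - P * Q)) ≤ pl1 (A * (1 - P)) + pl1 (A * (1 - Q)) := by
  have e : A * (1 - P * Q) = A * (1 - P) + (A * (1 - Q)) * P := by ring
  rw [e]
  refine (pl1_add_le _ _).trans (add_le_add_right ?_ _)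
  refine (pl1_mul_le _ _).trans ?_
  rw [hP.pl1, mul_one]

/-! ### Inner products of coefficient sequences -/

theorem pdot_eq_sum (P Q : ℝ[X]) {s : Finset ℕ} (hs : P.support ⊆ s) :
    pdot P Q = ∑ n ∈ s, P.coeff n * Q.coeff n :=
  Finset.sum_subset hs fun n _ h => by simp [notMem_support_iff.mp h]

theorem pdot_comm (P Q : ℝ[X]) : pdot P Q = pdot Q P := by
  rw [pdot_eq_sum P Q (Finset.subset_union_left (s₂ := Q.support)),
    pdot_eq_sum Q P (Finset.subset_union_right (s₁ := P.support))]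
  exact Finset.sum_congr rfl fun n _ => mul_comm _ _

theorem pdot_nonneg {P Q : ℝ[X]} (hP : PProb P) (hQ : PProb Q) : 0 ≤ pdot P Q :=
  Finset.sum_nonneg fun n _ => mul_nonneg (hP.1 n) (hQ.1 n)

theorem pdot_le {P Q : ℝ[X]} (hP : PProb P) {S : ℝ} (hS : ∀ n, Q.coeff n ≤ S) :
    pdot P Q ≤ S := by
  calc pdot P Q ≤ ∑ n ∈ P.support, P.coeff n * S :=
        Finset.sum_le_sum fun n _ => mul_le_mul_of_nonneg_left (hS n) (hP.1 n)
    _ = S := by rw [← Finset.sum_mul, ← eval_one_eq_sum, hP.2, one_mul]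

/-- Two laws with far apart means have a small inner product. -/
theorem pdot_le_of_mean {P Q : ℝ[X]} (hP : PProb P) (hQ : PProb Q) {SP SQ : ℝ}
    (hSP : ∀ n, P.coeff n ≤ SP) (hSQ : ∀ n, Q.coeff n ≤ SQ) (h : pmean P ≠ pmean Q) :
    pdot P Q ≤ 4 * (SQ * pvar P + SP * pvar Q) / (pmean P - pmean Q) ^ 2 := by
  have hd : 0 < (pmean P - pmean Q) ^ 2 := by
    have := sub_ne_zero.mpr h; positivity
  have hSP0 : 0 ≤ SP := (hP.1 0).trans (hSP 0)
  have hSQ0 : 0 ≤ SQ := (hQ.1 0).trans (hSQ 0)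
  rw [le_div_iff₀ hd, pdot_eq_sum P Q (Finset.subset_union_left (s₂ := Q.support)),
    Finset.sum_mul]
  calc ∑ n ∈ P.support ∪ Q.support, P.coeff n * Q.coeff n * (pmean P - pmean Q) ^ 2
      ≤ ∑ n ∈ P.support ∪ Q.support, (4 * SQ * (P.coeff n * ((n : ℝ) - pmean P) ^ 2)
          + 4 * SP * (Q.coeff n * ((n : ℝ) - pmean Q) ^ 2)) := by
        refine Finset.sum_le_sum fun n _ => ?_
        set u := (n : ℝ) - pmean P
        set w := (n : ℝ) - pmean Q
        have hsq : (pmean P - pmean Q) ^ 2 ≤ 2 * u ^ 2 + 2 * w ^ 2 := by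
          have : pmean P - pmean Q = w - u := by ring
          rw [this]; nlinarith [sq_nonneg (u + w)]
        have h1 : P.coeff n * Q.coeff n * (2 * u ^ 2) ≤ 4 * SQ * (P.coeff n * u ^ 2) := by
          nlinarith [mul_le_mul_of_nonneg_left (hSQ n) (mul_nonneg (hP.1 n) (sq_nonneg u)),
            mul_nonneg (mul_nonneg hSQ0 (hP.1 n)) (sq_nonneg u)]
        have h2 : P.coeff n * Q.coeff n * (2 * w ^ 2) ≤ 4 * SP * (Q.coeff n * w ^ 2) := by
          nlinarith [mul_le_mul_of_nonneg_left (hSP n) (mul_nonneg (hQ.1 n) (sq_nonneg w)),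
            mul_nonneg (mul_nonneg hSP0 (hQ.1 n)) (sq_nonneg w)]
        nlinarith [mul_le_mul_of_nonneg_left hsq (mul_nonneg (hP.1 n) (hQ.1 n))]
    _ ≤ 4 * (SQ * pvar P + SP * pvar Q) := by
        rw [Finset.sum_add_distrib, ← Finset.mul_sum, ← Finset.mul_sum]
        nlinarith [mul_le_mul_of_nonneg_left (sum_sq_dev_le hP (P.support ∪ Q.support))
            (by linarith : (0:ℝ) ≤ 4 * SQ),
          mul_le_mul_of_nonneg_left (sum_sq_dev_le hQ (P.support ∪ Q.support))
            (by linarith : (0:ℝ) ≤ 4 * SP)]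

end Vale.Agent.P321.BO
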