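import Vale.Agent.P321.Algebra
import Vale.Agent.P321.BaseOverlapPoly

/-!
# P321, base overlap: the indicator model

Tuple entries are replaced by the indicator of the entry `1`. The model laws live in the same
algebra `Law`; the reference measure of the words of each length is the product of Bernoulli
measures of parameter `al`, and `ip` is the inner product of densities against it.
-/

namespace Vale.Agent.P321.BO

open Polynomial Finset Push
open scoped Classical

/-- Prefix letter `true`. -/
noncomputable def oneL : Law := MonoidAlgebra.single (FreeMonoid.of true) 1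

/-- Prefix letter `false`. -/
noncomputable def zeroL : Law := MonoidAlgebra.single (FreeMonoid.of false) 1

/-- One Bernoulli entry. -/
noncomputable def berL (al : ℝ) : Law := al • oneL + (1 - al) • zeroL

/-- The centred entry. -/
noncomputable def devL (al : ℝ) : Law := (1 - al) • oneL - (1 - al) • zeroL

/-- The product Bernoulli weight. -/
noncomputable def wgt (al : ℝ) : TW →* ℝ :=
  FreeMonoid.lift fun b => if b then al else 1 - al

theorem oneL_eq (al : ℝ) : oneL = berL al + devL al := by
  simp only [berL, devL, sub_smul, one_smul]; abel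

theorem wgt_pos {al : ℝ} (h0 : 0 < al) (h1 : al < 1) (y : TW) : 0 < wgt al y := by
  induction y using FreeMonoid.inductionOn' with
  | one => simp
  | of_mul b y ih =>
    rw [map_mul]
    refine mul_pos ?_ ih
    simp only [wgt, FreeMonoid.lift_eval_of]
    cases b <;> simp <;> linarith

/-- Inner product of densities. -/
noncomputable def ip (al : ℝ) (X Y : Law) : ℝ :=
  X.coeff.sum fun y a => a * val Y y / wgt al y

theorem ip_eq_sum (al : ℝ) (X Y : Law) {T : Finset TW} (hT : supp X ⊆ T) :
    ip al X Y = ∑ y ∈ T, val X y * val Y y / wgt al y :=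
  Finset.sum_subset hT fun y _ hy => by
    change val X y * _ / _ = 0
    rw [val_eq_zero hy]; simp

theorem ip_comm (al : ℝ) (X Y : Law) : ip al X Y = ip al Y X := by
  classical
  rw [ip_eq_sum al X Y (subset_union_left (s₂ := supp Y)),
    ip_eq_sum al Y X (subset_union_right (s₁ := supp X))]
  exact Finset.sum_congr rfl fun y _ => by ring

theorem ip_add_left (al : ℝ) (X X' Y : Law) : ip al (X + X') Y = ip al X Y + ip al X' Y := by
  classical
  rw [ip_eq_sum al (X + X') Y (supp_add_subset X X'),
    ip_eq_sum al X Y (subset_union_left (s₂ := supp X')),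
    ip_eq_sum al X' Y (subset_union_right (s₁ := supp X)), ← Finset.sum_add_distrib]
  refine Finset.sum_congr rfl fun y _ => ?_
  rw [val_add]; ring

theorem ip_smul_left (al c : ℝ) (X Y : Law) : ip al (c • X) Y = c * ip al X Y := by
  rw [ip_eq_sum al (c • X) Y (supp_smul_subset c X), ip_eq_sum al X Y subset_rfl, Finset.mul_sum]
  refine Finset.sum_congr rfl fun y _ => ?_
  rw [val_smul]; ring

theorem ip_zero_left (al : ℝ) (Y : Law) : ip al 0 Y = 0 := by simp [ip]

theorem ip_sub_left (al : ℝ) (X X' Y : Law) : ip al (X - X') Y = ip al X Y - ip al X' Y := by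
  rw [eq_sub_iff_add_eq, ← ip_add_left, sub_add_cancel]

theorem ip_add_right (al : ℝ) (X Y Y' : Law) : ip al X (Y + Y') = ip al X Y + ip al X Y' := by
  rw [ip_comm, ip_add_left, ip_comm al Y, ip_comm al Y']

theorem ip_smul_right (al c : ℝ) (X Y : Law) : ip al X (c • Y) = c * ip al X Y := by
  rw [ip_comm, ip_smul_left, ip_comm al Y]

theorem ip_zero_right (al : ℝ) (X : Law) : ip al X 0 = 0 := by rw [ip_comm, ip_zero_left]

theorem ip_sub_right (al : ℝ) (X Y Y' : Law) : ip al X (Y - Y') = ip al X Y - ip al X Y' := by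
  rw [ip_comm, ip_sub_left, ip_comm al Y, ip_comm al Y']

theorem ip_sum_left {ι : Type*} (al : ℝ) (s : Finset ι) (X : ι → Law) (Y : Law) :
    ip al (∑ i ∈ s, X i) Y = ∑ i ∈ s, ip al (X i) Y := by
  classical
  induction s using Finset.induction_on with
  | empty => simp [ip_zero_left]
  | insert a s ha ih => rw [Finset.sum_insert ha, Finset.sum_insert ha, ip_add_left, ih]

theorem ip_sum_right {ι : Type*} (al : ℝ) (X : Law) (s : Finset ι) (Y : ι → Law) :
    ip al X (∑ i ∈ s, Y i) = ∑ i ∈ s, ip al X (Y i) := by
  rw [ip_comm, ip_sum_left]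
  exact Finset.sum_congr rfl fun i _ => ip_comm _ _ _

theorem ip_single_left (al : ℝ) (x : TW) (a : ℝ) (Y : Law) :
    ip al (MonoidAlgebra.single x a) Y = a * val Y x / wgt al x := by
  simp [ip]

theorem ip_single_single (al : ℝ) (x y : TW) (a c : ℝ) :
    ip al (MonoidAlgebra.single x a) (MonoidAlgebra.single y c) =
      if y = x then a * c / wgt al x else 0 := by
  rw [ip_single_left, val_single]
  split_ifs <;> simp

theorem ip_self_nonneg {al : ℝ} (h0 : 0 < al) (h1 : al < 1) (X : Law) : 0 ≤ ip al X X := by
  rw [ip_eq_sum al X X subset_rfl]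
  exact Finset.sum_nonneg fun y _ => div_nonneg (mul_self_nonneg _) (wgt_pos h0 h1 y).le

theorem two_ip_le {al : ℝ} (h0 : 0 < al) (h1 : al < 1) (X Y : Law) :
    2 * ip al X Y ≤ ip al X X + ip al Y Y := by
  have h := ip_self_nonneg h0 h1 (X - Y)
  rw [ip_sub_left, ip_sub_right, ip_sub_right, ip_comm al Y X] at h
  linarith

theorem ip_single_mul (al : ℝ) (b b' : Bool) (X Y : Law) :
    ip al (MonoidAlgebra.single (FreeMonoid.of b) 1 * X)
        (MonoidAlgebra.single (FreeMonoid.of b') 1 * Y) =
      if b = b' then ip al X Y / (if b then al else 1 - al) else 0 := by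
  induction X using MonoidAlgebra.induction_linear with
  | zero => simp [ip_zero_left]
  | add X X' hX hX' =>
    rw [mul_add, ip_add_left, hX, hX', ip_add_left]
    split_ifs <;> ring
  | single x a =>
    induction Y using MonoidAlgebra.induction_linear with
    | zero => simp [ip_zero_right]
    | add Y Y' hY hY' =>
      rw [mul_add, ip_add_right, hY, hY', ip_add_right]
      split_ifs <;> ring
    | single y c =>
      rw [MonoidAlgebra.single_mul_single, MonoidAlgebra.single_mul_single, one_mul, one_mul,
        ip_single_single, ip_single_single, map_mul]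
      have hinj : (FreeMonoid.of b' * y = FreeMonoid.of b * x) ↔ b' = b ∧ y = x := by
        constructor
        · intro h
          have h' := congrArg FreeMonoid.toList h
          simp only [FreeMonoid.toList_of_mul, List.cons.injEq] at h'
          exact ⟨h'.1, FreeMonoid.toList.injective h'.2⟩
        · rintro ⟨rfl, rfl⟩; rfl
      simp only [hinj, wgt, FreeMonoid.lift_eval_of]
      by_cases hb : b = b'
      · subst hb
        by_cases hxy : y = x
        · cases b <;> simp [hxy, div_mul_eq_div_div_swap]
        · simp [hxy]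
      · simp [hb, Ne.symm hb]

theorem ip_one_single_mul (al : ℝ) (b : Bool) (Y : Law) :
    ip al 1 (MonoidAlgebra.single (FreeMonoid.of b) 1 * Y) = 0 := by
  induction Y using MonoidAlgebra.induction_linear with
  | zero => simp [ip_zero_right]
  | add Y Y' hY hY' => rw [mul_add, ip_add_right, hY, hY', add_zero]
  | single y c =>
    rw [MonoidAlgebra.single_mul_single, MonoidAlgebra.one_def, ip_single_single, if_neg]
    intro h
    simpa using congrArg FreeMonoid.toList h

section Rules

variable {al : ℝ} (h0 : 0 < al) (h1 : al < 1)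
include h0 h1

theorem ip_ber_ber (X Y : Law) : ip al (berL al * X) (berL al * Y) = ip al X Y := by
  have : (1 - al) ≠ 0 := by linarith
  simp only [berL, oneL, zeroL, add_mul, smul_mul_assoc, ip_add_left, ip_add_right, ip_smul_left,
    ip_smul_right, ip_single_mul]
  simp
  field_simp
  ring

theorem ip_dev_ber (X Y : Law) : ip al (devL al * X) (berL al * Y) = 0 := by
  have : (1 - al) ≠ 0 := by linarith
  simp only [berL, devL, oneL, zeroL, add_mul, sub_mul, smul_mul_assoc, ip_add_right,
    ip_sub_left, ip_smul_left, ip_smul_right, ip_single_mul]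
  simp
  field_simp
  ring

theorem ip_dev_dev (X Y : Law) :
    ip al (devL al * X) (devL al * Y) = (1 - al) / al * ip al X Y := by
  have : (1 - al) ≠ 0 := by linarith
  simp only [devL, oneL, zeroL, sub_mul, smul_mul_assoc, ip_sub_left, ip_sub_right,
    ip_smul_left, ip_smul_right, ip_single_mul]
  simp
  field_simp
  ring

omit h0 h1 in
theorem ip_one_ber (Y : Law) : ip al 1 (berL al * Y) = 0 := by
  simp only [berL, oneL, zeroL, add_mul, smul_mul_assoc, ip_add_right, ip_smul_right,
    ip_one_single_mul, mul_zero, add_zero]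

omit h0 h1 in
theorem ip_one_dev (Y : Law) : ip al 1 (devL al * Y) = 0 := by
  simp only [devL, oneL, zeroL, sub_mul, smul_mul_assoc, ip_sub_right, ip_smul_right,
    ip_one_single_mul, mul_zero, sub_zero]

omit h0 h1 in
theorem ip_one_one : ip al 1 1 = 1 := by
  rw [MonoidAlgebra.one_def, ip_single_single]; simp

theorem ip_pow_pow_dev (m n : ℕ) (X Y : Law) :
    ip al (berL al ^ m * (devL al * X)) (berL al ^ n * (devL al * Y)) =
      if m = n then (1 - al) / al * ip al X Y else 0 := by
  induction m generalizing n with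
  | zero =>
    rcases n with _ | n
    · simp [ip_dev_dev h0 h1]
    · rw [pow_zero, one_mul, pow_succ', mul_assoc, ip_dev_ber h0 h1]; simp
  | succ m ih =>
    rcases n with _ | n
    · rw [pow_zero, one_mul, pow_succ', mul_assoc, ip_comm, ip_dev_ber h0 h1]; simp
    · rw [pow_succ', pow_succ', mul_assoc, mul_assoc, ip_ber_ber h0 h1, ih n]; simp

theorem ip_pow_pow (m n : ℕ) :
    ip al (berL al ^ m) (berL al ^ n) = if m = n then 1 else 0 := by
  induction m generalizing n with
  | zero =>
    rcases n with _ | n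
    · simp [ip_one_one]
    · rw [pow_zero, pow_succ', ip_one_ber]; simp
  | succ m ih =>
    rcases n with _ | n
    · rw [pow_zero, pow_succ', ip_comm, ip_one_ber]; simp
    · rw [pow_succ', pow_succ', ip_ber_ber h0 h1, ih n]; simp

theorem ip_pow_dev_pow (m n : ℕ) (Y : Law) :
    ip al (berL al ^ m) (berL al ^ n * (devL al * Y)) = 0 := by
  induction m generalizing n with
  | zero =>
    rcases n with _ | n
    · simp [ip_one_dev]
    · rw [pow_zero, pow_succ', mul_assoc, ip_one_ber]
  | succ m ih =>
    rcases n with _ | n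
    · rw [pow_zero, one_mul, pow_succ', ip_comm, ip_dev_ber h0 h1]
    · rw [pow_succ', pow_succ', mul_assoc, ip_ber_ber h0 h1, ih n]

end Rules

/-- A polynomial in the Bernoulli entry: a mixture of independent sequences. -/
noncomputable def ev (al : ℝ) : ℝ[X] →ₐ[ℝ] Law := aeval (berL al)

theorem ev_eq_sum (al : ℝ) (P : ℝ[X]) :
    ev al P = ∑ n ∈ P.support, P.coeff n • berL al ^ n := by
  rw [ev, aeval_def, eval₂_eq_sum, Polynomial.sum]
  exact Finset.sum_congr rfl fun n _ => by rw [Algebra.smul_def]

theorem ev_mul_eq_sum (al : ℝ) (P : ℝ[X]) (U : Law) :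
    ev al P * U = ∑ n ∈ P.support, P.coeff n • (berL al ^ n * U) := by
  rw [ev_eq_sum, Finset.sum_mul]
  exact Finset.sum_congr rfl fun n _ => smul_mul_assoc _ _ _

section Ev

variable {al : ℝ} (h0 : 0 < al) (h1 : al < 1)
include h0 h1

theorem ip_ev_dev_ev_dev (P Q : ℝ[X]) (U V : Law) :
    ip al (ev al P * (devL al * U)) (ev al Q * (devL al * V)) =
      (1 - al) / al * pdot P Q * ip al U V := by
  rw [ev_mul_eq_sum, ev_mul_eq_sum, ip_sum_left, pdot, Finset.mul_sum, Finset.sum_mul]
  refine Finset.sum_congr rfl fun m _ => ?_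
  rw [ip_smul_left, ip_sum_right]
  simp only [ip_smul_right, ip_pow_pow_dev h0 h1, mul_ite, mul_zero, Finset.sum_ite_eq]
  by_cases hm : m ∈ Q.support
  · simp [hm]; ring
  · simp [hm, notMem_support_iff.mp hm]

theorem ip_ev_ev (P Q : ℝ[X]) : ip al (ev al P) (ev al Q) = pdot P Q := by
  rw [ev_eq_sum, ev_eq_sum, ip_sum_left, pdot]
  refine Finset.sum_congr rfl fun m _ => ?_
  rw [ip_smul_left, ip_sum_right]
  simp only [ip_smul_right, ip_pow_pow h0 h1, mul_ite, mul_one, mul_zero, Finset.sum_ite_eq]
  by_cases hm : m ∈ Q.support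
  · simp [hm]
  · simp [hm, notMem_support_iff.mp hm]

theorem ip_ev_ev_dev (P Q : ℝ[X]) (U : Law) : ip al (ev al P) (ev al Q * (devL al * U)) = 0 := by
  rw [ev_eq_sum al P, ev_mul_eq_sum, ip_sum_left]
  refine Finset.sum_eq_zero fun m _ => ?_
  rw [ip_smul_left, ip_sum_right, Finset.sum_eq_zero, mul_zero]
  intro n _
  rw [ip_smul_right, ip_pow_dev_pow h0 h1, mul_zero]

theorem ip_ev_mul_le {P : ℝ[X]} (hP : PProb P) (U : Law) :
    ip al (ev al P * U) (ev al P * U) ≤ ip al U U := by
  have hd : ∀ m, ip al (berL al ^ m * U) (berL al ^ m * U) = ip al U U := by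
    intro m
    induction m with
    | zero => simp
    | succ m ih => rw [pow_succ', mul_assoc, ip_ber_ber h0 h1, ih]
  rw [ev_mul_eq_sum, ip_sum_left]
  calc ∑ m ∈ P.support, ip al (P.coeff m • (berL al ^ m * U))
        (∑ n ∈ P.support, P.coeff n • (berL al ^ n * U))
      ≤ ∑ m ∈ P.support, ∑ n ∈ P.support, P.coeff m * (P.coeff n * ip al U U) := by
        refine Finset.sum_le_sum fun m _ => ?_
        rw [ip_smul_left, ip_sum_right, Finset.mul_sum]
        refine Finset.sum_le_sum fun n _ => ?_
        rw [ip_smul_right]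
        refine mul_le_mul_of_nonneg_left (mul_le_mul_of_nonneg_left ?_ (hP.1 n)) (hP.1 m)
        linarith [two_ip_le h0 h1 (berL al ^ m * U) (berL al ^ n * U), hd m, hd n]
    _ = ip al U U := by
        simp only [← Finset.mul_sum, ← Finset.sum_mul, ← eval_one_eq_sum, hP.2, one_mul]

/-- A token costs at most the factor `1 / al`. -/
theorem ip_token_le {b : ℝ} (hb0 : 0 ≤ b) (hb1 : b ≤ 1) (U : Law) :
    ip al (((1 - b) • (1 : Law) + b • oneL) * U) (((1 - b) • (1 : Law) + b • oneL) * U) ≤
      1 / al * ip al U U := by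
  have hV : ip al (oneL * U) (oneL * U) = 1 / al * ip al U U := by
    simp only [oneL, ip_single_mul]; simp; ring
  have hc := two_ip_le h0 h1 U (oneL * U)
  have hn := ip_self_nonneg h0 h1 U
  have hge : ip al U U ≤ 1 / al * ip al U U :=
    le_mul_of_one_le_left hn ((le_div_iff₀ h0).2 (by linarith))
  rw [add_mul, smul_mul_assoc, one_mul, smul_mul_assoc]
  simp only [ip_add_left, ip_add_right, ip_smul_left, ip_smul_right, ip_comm al (oneL * U) U, hV]
  rw [hV] at hc
  nlinarith [mul_nonneg (mul_nonneg hb0 (sub_nonneg.2 hb1))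
    (sub_nonneg.2 hc), mul_nonneg (sub_nonneg.2 hb1) (sub_nonneg.2 hge)]

end Ev

/-! ### Counts, slices and monotonicity -/

/-- The law of the length. -/
noncomputable def lenP : Law →ₐ[ℝ] ℝ[X] :=
  MonoidAlgebra.lift ℝ ℝ[X] TW (FreeMonoid.lift fun _ => Polynomial.X)

theorem lenP_single (y : TW) (a : ℝ) :
    lenP (MonoidAlgebra.single y a) = a • (Polynomial.X : ℝ[X]) ^ y.length := by
  rw [lenP, MonoidAlgebra.lift_single]
  congr 1
  induction y using FreeMonoid.inductionOn' with
  | one => simp
  | of_mul b y ih => simp [ih, pow_add]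

theorem lenP_ber (al : ℝ) : lenP (berL al) = Polynomial.X := by
  simp [berL, oneL, zeroL, lenP_single]

theorem lenP_one_letter : lenP oneL = Polynomial.X := by simp [oneL, lenP_single]

theorem lenP_ev (al : ℝ) (P : ℝ[X]) : lenP (ev al P) = P := by
  rw [ev, ← Polynomial.aeval_algHom_apply, lenP_ber, Polynomial.aeval_X_left_apply]

/-- The words of length `n`. -/
def tw {n : ℕ} (x : Fin n → Bool) : TW := FreeMonoid.ofList (List.ofFn x)

theorem tw_injective {n : ℕ} : Function.Injective (tw (n := n)) :=
  FreeMonoid.ofList.injective.comp List.ofFn_injective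

theorem tw_length {n : ℕ} (x : Fin n → Bool) : (tw x).length = n := by
  simp [tw, FreeMonoid.length]

theorem exists_tw (y : TW) : ∃ x : Fin y.length → Bool, tw x = y :=
  ⟨fun i => (FreeMonoid.toList y).get i, by
    rw [tw]
    change FreeMonoid.ofList (List.ofFn (FreeMonoid.toList y).get) = y
    rw [List.ofFn_get]
    rfl⟩

theorem sum_val_tw (X : Law) (n : ℕ) :
    ∑ x : Fin n → Bool, val X (tw x) = (lenP X).coeff n := by
  induction X using MonoidAlgebra.induction_linear with
  | zero => simp [val_zero]
  | add X Y hX hY => simp [val_add, Finset.sum_add_distrib, hX, hY]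
  | single y a =>
    rw [lenP_single, coeff_smul, coeff_X_pow, smul_eq_mul]
    simp only [val_single]
    by_cases hn : n = y.length
    · subst hn
      obtain ⟨x, hx⟩ := exists_tw y
      rw [Finset.sum_eq_single x (fun x' _ hx' => if_neg fun e => hx' (tw_injective (by rw [← e, hx])))
        (by simp), if_pos hx.symm]
      simp
    · rw [Finset.sum_eq_zero, if_neg hn, mul_zero]
      intro x _
      rw [if_neg]
      intro e
      exact hn (by rw [e, tw_length])

theorem wgt_tw (al : ℝ) {n : ℕ} (x : Fin n → Bool) :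
    wgt al (tw x) = ∏ i, if x i then al else 1 - al := by
  rw [wgt, tw, FreeMonoid.lift_ofList, List.map_ofFn, List.prod_ofFn]
  rfl

theorem sum_wgt_tw (al : ℝ) (n : ℕ) : ∑ x : Fin n → Bool, wgt al (tw x) = 1 := by
  simp only [wgt_tw]
  rw [← Fintype.prod_sum (fun _ : Fin n => fun b : Bool => if b then al else 1 - al)]
  simp

theorem sum_slices_le {al : ℝ} (h0 : 0 < al) (h1 : al < 1) (X : Law) (W : Finset ℕ) :
    ∑ n ∈ W, ∑ x : Fin n → Bool, val X (tw x) ^ 2 / wgt al (tw x) ≤ ip al X X := by
  classical
  rw [Finset.sum_sigma' W (fun _ => Finset.univ)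
    (fun (n : ℕ) (x : Fin n → Bool) => val X (tw x) ^ 2 / wgt al (tw x))]
  have hinj : Set.InjOn (fun p : (n : ℕ) × (Fin n → Bool) => tw p.2)
      (↑(W.sigma fun n => (Finset.univ : Finset (Fin n → Bool))) : Set _) := by
    rintro ⟨n, x⟩ _ ⟨m, z⟩ _ h
    have hnm : n = m := by rw [← tw_length x, ← tw_length z]; exact congrArg FreeMonoid.length h
    subst hnm
    exact Sigma.ext rfl (heq_of_eq (tw_injective h))
  rw [← Finset.sum_image (f := fun y => val X y ^ 2 / wgt al y) hinj,
    ip_eq_sum al X X (subset_union_left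
      (s₂ := (W.sigma fun n => (Finset.univ : Finset (Fin n → Bool))).image
        fun p : (n : ℕ) × (Fin n → Bool) => tw p.2))]
  refine le_trans (Finset.sum_le_sum_of_subset_of_nonneg (subset_union_right (s₁ := supp X))
    (fun y _ _ => div_nonneg (sq_nonneg _) (wgt_pos h0 h1 y).le)) (le_of_eq ?_)
  exact Finset.sum_congr rfl fun y _ => by ring

/-- Nonnegative laws whose density is increasing in the indicators. -/
def MonoW (al : ℝ) (X : Law) : Prop :=
  Pos X ∧ ∀ l l' : List Bool, List.Forall₂ (· ≤ ·) l l' →
    val X (FreeMonoid.ofList l) / wgt al (FreeMonoid.ofList l) ≤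
      val X (FreeMonoid.ofList l') / wgt al (FreeMonoid.ofList l')

theorem monoW_one (al : ℝ) : MonoW al (1 : Law) := by
  refine ⟨isProb_one.1, fun l l' h => ?_⟩
  cases h with
  | nil => exact le_rfl
  | cons _ _ =>
    simp only [MonoidAlgebra.one_def, val_single]
    rw [if_neg, if_neg, zero_div, zero_div] <;>
      exact fun e => by simpa using congrArg FreeMonoid.toList e

theorem MonoW.add {al : ℝ} {X Y : Law} (hX : MonoW al X) (hY : MonoW al Y) :
    MonoW al (X + Y) :=
  ⟨fun y => by rw [val_add]; exact add_nonneg (hX.1 y) (hY.1 y),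
   fun l l' h => by
    simp only [val_add, add_div]; exact add_le_add (hX.2 l l' h) (hY.2 l l' h)⟩

theorem MonoW.smul {al c : ℝ} {X : Law} (hc : 0 ≤ c) (hX : MonoW al X) : MonoW al (c • X) :=
  ⟨fun y => by rw [val_smul]; exact mul_nonneg hc (hX.1 y),
   fun l l' h => by
    simp only [val_smul, mul_div_assoc]
    exact mul_le_mul_of_nonneg_left (hX.2 l l' h) hc⟩

theorem monoW_zero (al : ℝ) : MonoW al (0 : Law) :=
  ⟨fun y => by simp [val_zero], fun _ _ _ => by simp [val_zero]⟩

theorem monoW_sum {ι : Type*} {al : ℝ} (s : Finset ι) (X : ι → Law)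
    (h : ∀ i ∈ s, MonoW al (X i)) : MonoW al (∑ i ∈ s, X i) := by
  classical
  induction s using Finset.induction_on with
  | empty => simpa using monoW_zero al
  | insert a s ha ih =>
    rw [Finset.sum_insert ha]
    exact (h a (Finset.mem_insert_self a s)).add (ih fun i hi => h i (Finset.mem_insert_of_mem hi))

theorem val_letter_mul_nil (b : Bool) (X : Law) :
    val (MonoidAlgebra.single (FreeMonoid.of b) 1 * X) (FreeMonoid.ofList []) = 0 := by
  induction X using MonoidAlgebra.induction_linear with
  | zero => simp [val_zero]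
  | add X Y hX hY => rw [mul_add, val_add, hX, hY, add_zero]
  | single x a =>
    rw [MonoidAlgebra.single_mul_single, val_single, if_neg]
    intro h; simpa using congrArg FreeMonoid.toList h

theorem val_letter_mul_cons (b c : Bool) (t : List Bool) (X : Law) :
    val (MonoidAlgebra.single (FreeMonoid.of b) 1 * X) (FreeMonoid.ofList (c :: t)) =
      if b = c then val X (FreeMonoid.ofList t) else 0 := by
  induction X using MonoidAlgebra.induction_linear with
  | zero => simp [val_zero]
  | add X Y hX hY =>
    rw [mul_add, val_add, hX, hY, val_add]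
    split_ifs <;> simp
  | single x a =>
    rw [MonoidAlgebra.single_mul_single, one_mul, val_single, val_single]
    have hinj : (FreeMonoid.of b * x = FreeMonoid.ofList (c :: t)) ↔
        b = c ∧ x = FreeMonoid.ofList t := by
      rw [FreeMonoid.ofList_cons]
      constructor
      · intro h
        have h' := congrArg FreeMonoid.toList h
        simp only [FreeMonoid.toList_of_mul, List.cons.injEq] at h'
        exact ⟨h'.1, FreeMonoid.toList.injective h'.2⟩
      · rintro ⟨rfl, rfl⟩; rfl
    simp only [hinj]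
    by_cases hb : b = c <;> simp [hb]

section Mono

variable {al : ℝ} (h0 : 0 < al) (h1 : al < 1)
include h0 h1

theorem monoW_ber_mul {X : Law} (hX : MonoW al X) : MonoW al (berL al * X) := by
  have hd : ∀ (c : Bool) (t : List Bool),
      val (berL al * X) (FreeMonoid.ofList (c :: t)) / wgt al (FreeMonoid.ofList (c :: t)) =
        val X (FreeMonoid.ofList t) / wgt al (FreeMonoid.ofList t) := by
    intro c t
    have : (1 - al) ≠ 0 := by linarith
    have := (wgt_pos h0 h1 (FreeMonoid.ofList t)).ne'
    simp only [berL, oneL, zeroL, add_mul, smul_mul_assoc, val_add, val_smul, val_letter_mul_cons]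
    rw [FreeMonoid.ofList_cons c t, map_mul]
    rw [show wgt al (FreeMonoid.of c) = if c then al else 1 - al from FreeMonoid.lift_eval_of _ _]
    cases c <;> simp <;> field_simp
  have hnil : val (berL al * X) (FreeMonoid.ofList []) = 0 := by
    simp only [berL, oneL, zeroL, add_mul, smul_mul_assoc, val_add, val_smul, val_letter_mul_nil]
    simp
  refine ⟨fun y => ?_, fun l l' h => ?_⟩
  · obtain ⟨l, rfl⟩ := FreeMonoid.ofList.surjective y
    cases l with
    | nil => rw [hnil]
    | cons c t =>
      have hp := wgt_pos h0 h1 (FreeMonoid.ofList (c :: t))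
      have := hd c t
      rw [div_eq_iff hp.ne'] at this
      rw [this]
      exact mul_nonneg (div_nonneg (hX.1 _) (wgt_pos h0 h1 _).le) hp.le
  · cases h with
    | nil => exact le_rfl
    | cons _ ht => rw [hd, hd]; exact hX.2 _ _ ht

theorem monoW_oneL_mul {X : Law} (hX : MonoW al X) : MonoW al (oneL * X) := by
  refine ⟨fun y => ?_, fun l l' h => ?_⟩
  · obtain ⟨l, rfl⟩ := FreeMonoid.ofList.surjective y
    cases l with
    | nil => rw [oneL, val_letter_mul_nil]
    | cons c t =>
      rw [oneL, val_letter_mul_cons]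
      split_ifs
      · exact hX.1 _
      · exact le_rfl
  · have hd : ∀ (c : Bool) (t : List Bool),
        val (oneL * X) (FreeMonoid.ofList (c :: t)) / wgt al (FreeMonoid.ofList (c :: t)) =
          (if c then 1 / al else 0) * (val X (FreeMonoid.ofList t) / wgt al (FreeMonoid.ofList t)) := by
      intro c t
      rw [oneL, val_letter_mul_cons, FreeMonoid.ofList_cons c t, map_mul,
        show wgt al (FreeMonoid.of c) = if c then al else 1 - al from FreeMonoid.lift_eval_of _ _]
      cases c
      · simp
      · simp only [if_true]; field_simp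
    cases h with
    | nil => exact le_rfl
    | @cons c c' t t' hc ht =>
      rw [hd, hd]
      refine mul_le_mul ?_ (hX.2 _ _ ht) (div_nonneg (hX.1 _) (wgt_pos h0 h1 _).le) ?_
      · cases c <;> cases c'
        · simp
        · simp [h0.le]
        · exact absurd hc (by decide)
        · simp
      · split_ifs <;> positivity

theorem monoW_ev_mul {P : ℝ[X]} (hP : ∀ n, 0 ≤ P.coeff n) {X : Law} (hX : MonoW al X) :
    MonoW al (ev al P * X) := by
  rw [ev_mul_eq_sum]
  refine monoW_sum _ _ fun n hn => MonoW.smul (hP n) ?_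
  clear hn
  induction n with
  | zero => simpa using hX
  | succ n ih => rw [pow_succ', mul_assoc]; exact monoW_ber_mul h0 h1 ih

theorem monoW_token_mul {b : ℝ} (hb0 : 0 ≤ b) (hb1 : b ≤ 1) {X : Law} (hX : MonoW al X) :
    MonoW al (((1 - b) • (1 : Law) + b • oneL) * X) := by
  rw [add_mul, smul_mul_assoc, one_mul, smul_mul_assoc]
  exact (hX.smul (sub_nonneg.2 hb1)).add ((monoW_oneL_mul h0 h1 hX).smul hb0)

/-- Correlation bound for the overlap of two laws with increasing densities, at one length. -/
theorem slice_min_ge {X Y : Law} (hX : MonoW al X) (hY : MonoW al Y) (n : ℕ) {m BX BY : ℝ}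
    (hm : 0 < m) (hmX : m ≤ (lenP X).coeff n) (hmY : m ≤ (lenP Y).coeff n)
    (hBX : ∑ x : Fin n → Bool, val X (tw x) ^ 2 / wgt al (tw x) ≤ BX * (lenP X).coeff n ^ 2)
    (hBY : ∑ x : Fin n → Bool, val Y (tw x) ^ 2 / wgt al (tw x) ≤ BY * (lenP Y).coeff n ^ 2) :
    m / ((1 + BX) * (1 + BY)) ≤
      ∑ x : Fin n → Bool, min (val X (tw x)) (val Y (tw x)) := by
  set μ : (Fin n → Bool) → ℝ := fun x => wgt al (tw x) with hμ
  have hμpos : ∀ x, 0 < μ x := fun x => wgt_pos h0 h1 _
  have key : ∀ {Z : Law} {B : ℝ}, MonoW al Z → 0 < (lenP Z).coeff n →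
      (∑ x : Fin n → Bool, val Z (tw x) ^ 2 / μ x ≤ B * (lenP Z).coeff n ^ 2) →
      0 ≤ B ∧ Monotone (fun x => min (val Z (tw x) / μ x / (lenP Z).coeff n) 1) ∧
      1 / (1 + B) ≤ ∑ x, μ x * min (val Z (tw x) / μ x / (lenP Z).coeff n) 1 := by
    intro Z B hZ hz hB
    set z := (lenP Z).coeff n with hzdef
    set r : (Fin n → Bool) → ℝ := fun x => val Z (tw x) / μ x / z with hr
    have hr0 : ∀ x, 0 ≤ r x := fun x => div_nonneg (div_nonneg (hZ.1 _) (hμpos x).le) hz.le
    have hsum : ∑ x, μ x * r x = 1 := by
      calc ∑ x, μ x * r x = ∑ x, val Z (tw x) / z :=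
            Finset.sum_congr rfl fun x _ => by
              simp only [hr]; have := (hμpos x).ne'; field_simp
        _ = 1 := by rw [← Finset.sum_div, sum_val_tw, ← hzdef, div_self hz.ne']
    have hsq : ∑ x, μ x * r x ^ 2 ≤ B := by
      calc ∑ x, μ x * r x ^ 2 = (∑ x, val Z (tw x) ^ 2 / μ x) / z ^ 2 := by
            rw [Finset.sum_div]
            exact Finset.sum_congr rfl fun x _ => by
              simp only [hr]; have := (hμpos x).ne'; field_simp
        _ ≤ B := by rw [div_le_iff₀ (by positivity)]; exact hB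
    have hB0 : 0 ≤ B :=
      le_trans (Finset.sum_nonneg fun x _ => mul_nonneg (hμpos x).le (sq_nonneg _)) hsq
    refine ⟨hB0, fun x y hxy => min_le_min ?_ le_rfl, ?_⟩
    · refine div_le_div_of_nonneg_right (hZ.2 _ _ ?_) hz.le
      rw [List.forall₂_iff_get]
      exact ⟨by simp, fun i hi hj => by simpa using hxy ⟨i, by simpa using hi⟩⟩
    · set u : ℝ := ∑ x, μ x * min (r x) 1
      have hu0 : 0 ≤ u :=
        Finset.sum_nonneg fun x _ => mul_nonneg (hμpos x).le (le_min (hr0 x) zero_le_one)
      have hcs : (∑ x, μ x * r x) ^ 2 ≤ u * ∑ x, μ x * (r x * max (r x) 1) := by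
        refine Finset.sum_sq_le_sum_mul_sum_of_sq_le_mul _
          (fun x _ => mul_nonneg (hμpos x).le (le_min (hr0 x) zero_le_one))
          (fun x _ => mul_nonneg (hμpos x).le
            (mul_nonneg (hr0 x) (zero_le_one.trans (le_max_right _ _)))) fun x _ => le_of_eq ?_
        calc (μ x * r x) ^ 2 = μ x ^ 2 * r x * (min (r x) 1 * max (r x) 1) := by
              rw [min_mul_max]; ring
          _ = _ := by ring
      have hw : ∑ x, μ x * (r x * max (r x) 1) ≤ 1 + B := by
        calc ∑ x, μ x * (r x * max (r x) 1) ≤ ∑ x, (μ x * r x + μ x * r x ^ 2) := by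
              refine Finset.sum_le_sum fun x _ => ?_
              rcases le_total (r x) 1 with h | h
              · rw [max_eq_right h]; nlinarith [mul_nonneg (hμpos x).le (sq_nonneg (r x))]
              · rw [max_eq_left h]; nlinarith [mul_nonneg (hμpos x).le (hr0 x)]
          _ ≤ 1 + B := by rw [Finset.sum_add_distrib, hsum]; linarith
      rw [hsum] at hcs
      rw [div_le_iff₀ (by linarith)]
      nlinarith [mul_le_mul_of_nonneg_left hw hu0]
  obtain ⟨hBX0, hfm, hf⟩ := key hX (hm.trans_le hmX) hBX
  obtain ⟨hBY0, hgm, hg⟩ := key hY (hm.trans_le hmY) hBY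
  set f : (Fin n → Bool) → ℝ := fun x => min (val X (tw x) / μ x / (lenP X).coeff n) 1
  set g : (Fin n → Bool) → ℝ := fun x => min (val Y (tw x) / μ x / (lenP Y).coeff n) 1
  have hf0 : (0 : (Fin n → Bool) → ℝ) ≤ f := fun x =>
    le_min (div_nonneg (div_nonneg (hX.1 _) (hμpos x).le) (hm.trans_le hmX).le) zero_le_one
  have hg0 : (0 : (Fin n → Bool) → ℝ) ≤ g := fun x =>
    le_min (div_nonneg (div_nonneg (hY.1 _) (hμpos x).le) (hm.trans_le hmY).le) zero_le_one
  have hlat : ∀ a b : Fin n → Bool, μ a * μ b ≤ μ (a ⊓ b) * μ (a ⊔ b) := fun a b => by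
    simp only [hμ, wgt_tw, ← Finset.prod_mul_distrib]
    refine le_of_eq (Finset.prod_congr rfl fun i _ => ?_)
    simp only [Pi.inf_apply, Pi.sup_apply]
    rcases Bool.eq_false_or_eq_true (a i) with ha | ha <;>
      rcases Bool.eq_false_or_eq_true (b i) with hb | hb <;> simp [ha, hb, mul_comm]
  have hfkg := fkg f g μ (fun x => (hμpos x).le) hf0 hg0 hfm hgm hlat
  rw [show ∑ a, μ a = 1 from sum_wgt_tw al n, one_mul] at hfkg
  calc m / ((1 + BX) * (1 + BY)) = m * (1 / (1 + BX) * (1 / (1 + BY))) := by
        field_simp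
    _ ≤ m * ∑ x, μ x * (f x * g x) := by
        refine mul_le_mul_of_nonneg_left (le_trans ?_ hfkg) hm.le
        exact mul_le_mul hf hg (by positivity) (le_trans (by positivity) hf)
    _ ≤ ∑ x, min (val X (tw x)) (val Y (tw x)) := by
        rw [Finset.mul_sum]
        refine Finset.sum_le_sum fun x _ => le_min ?_ ?_
        · calc m * (μ x * (f x * g x)) ≤ (lenP X).coeff n * (μ x * (f x * 1)) := by
                refine mul_le_mul hmX ?_ (mul_nonneg (hμpos x).le (mul_nonneg (hf0 x) (hg0 x)))
                  (hm.trans_le hmX).le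
                exact mul_le_mul_of_nonneg_left
                  (mul_le_mul_of_nonneg_left (min_le_right _ _) (hf0 x)) (hμpos x).le
            _ ≤ (lenP X).coeff n * (μ x * (val X (tw x) / μ x / (lenP X).coeff n)) := by
                rw [mul_one]
                exact mul_le_mul_of_nonneg_left
                  (mul_le_mul_of_nonneg_left (min_le_left _ _) (hμpos x).le) (hm.trans_le hmX).le
            _ = val X (tw x) := by
                have := (hμpos x).ne'; have := (hm.trans_le hmX).ne'; field_simp
        · calc m * (μ x * (f x * g x)) ≤ (lenP Y).coeff n * (μ x * (1 * g x)) := by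
                refine mul_le_mul hmY ?_ (mul_nonneg (hμpos x).le (mul_nonneg (hf0 x) (hg0 x)))
                  (hm.trans_le hmY).le
                exact mul_le_mul_of_nonneg_left
                  (mul_le_mul_of_nonneg_right (min_le_right _ _) (hg0 x)) (hμpos x).le
            _ ≤ (lenP Y).coeff n * (μ x * (val Y (tw x) / μ x / (lenP Y).coeff n)) := by
                rw [one_mul]
                exact mul_le_mul_of_nonneg_left
                  (mul_le_mul_of_nonneg_left (min_le_left _ _) (hμpos x).le) (hm.trans_le hmY).le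
            _ = val Y (tw x) := by
                have := (hμpos x).ne'; have := (hm.trans_le hmY).ne'; field_simp

end Mono

end Vale.Agent.P321.BO
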