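import Vale.Agent.P321.BasePairTerms

/-!
# P321 module 7, the expansion of a token pattern

`pat P` has `A + e + h` on `P` and `A + e - h` elsewhere, between two runs of `A`. The two
Thue–Morse halves differ only in the terms of odd order in `h`: the linear one is killed by
smoothing, the even-odd pairs gain, the others are small.
-/

namespace Vale.Agent.P321.BasePair

open Finset

/-- The sign of a slot. -/
noncomputable def sgn (P : Finset ℕ) (K : ℕ) (i : Fin K) : ℝ := if (i : ℕ) ∈ P then 1 else -1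

/-- A pattern of shifted tokens between runs of tokens. -/
noncomputable def pat (A e h : Law) (P : Finset ℕ) (R K : ℕ) : Law :=
  A ^ R * wordL (fun i : Fin K => A + e + sgn P K i • h) * A ^ R

theorem abs_sgn (P : Finset ℕ) (K : ℕ) (i : Fin K) : |sgn P K i| = 1 := by
  unfold sgn
  split_ifs <;> simp

theorem pat_expand (A e h : Law) (P : Finset ℕ) (R K : ℕ) :
    pat A e h P R K = ∑ κ : Fin K → Fin 3, chi (sgn P K) κ • term A e h R κ := by
  rw [pat, wordL_expand, Finset.mul_sum, Finset.sum_mul]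
  refine Finset.sum_congr rfl fun κ _ => ?_
  rw [term, chi, mul_smul_comm, smul_mul_assoc]

theorem chi_neg {K : ℕ} (s : Fin K → ℝ) (κ : Fin K → Fin 3) :
    chi (fun i => -s i) κ = (-1) ^ cnt κ 2 * chi s κ := by
  rw [chi, chi, cnt, ← Finset.prod_filter, ← Finset.prod_filter, ← Finset.prod_const,
    ← Finset.prod_mul_distrib]
  simp

/-- One odd slot and nothing else. -/
def single {K : ℕ} (i : Fin K) : Fin K → Fin 3 := fun k => if k = i then 2 else 0

theorem single_injective {K : ℕ} : Function.Injective (single (K := K)) := by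
  intro i j hij
  have := congrFun hij i
  by_contra hne
  simp [single, hne] at this

theorem mem_linear {K : ℕ} (κ : Fin K → Fin 3) :
    κ ∈ univ.image (single (K := K)) ↔ cnt κ 2 = 1 ∧ cnt κ 1 = 0 := by
  classical
  constructor
  · intro hκ
    obtain ⟨i, -, rfl⟩ := Finset.mem_image.mp hκ
    constructor
    · rw [cnt, Finset.card_eq_one]
      exact ⟨i, by ext k; by_cases hk : k = i <;> simp [single, hk]⟩
    · rw [cnt, Finset.card_eq_zero, Finset.filter_eq_empty_iff]
      intro k _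
      by_cases hk : k = i <;> simp [single, hk]
  · rintro ⟨h2, h1⟩
    obtain ⟨i, hi⟩ := Finset.card_eq_one.mp h2
    rw [cnt, Finset.card_eq_zero] at h1
    refine Finset.mem_image.mpr ⟨i, Finset.mem_univ _, funext fun k => ?_⟩
    have a := Finset.ext_iff.mp hi k
    have c := Finset.ext_iff.mp h1 k
    simp at a c
    unfold single
    split_ifs with hk
    · exact (a.2 hk).symm
    · have := mt a.1 hk
      omega

theorem eq_zero_of_cnt {K : ℕ} (κ : Fin K → Fin 3) (h1 : cnt κ 1 = 0) (h2 : cnt κ 2 = 0) :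
    κ = fun _ => 0 := by
  funext k
  rw [cnt, Finset.card_eq_zero, Finset.filter_eq_empty_iff] at h1 h2
  have := h1 (Finset.mem_univ k)
  have := h2 (Finset.mem_univ k)
  omega

theorem chi_single {K : ℕ} (s : Fin K → ℝ) (i : Fin K) : chi s (single i) = s i := by
  rw [chi, Finset.prod_eq_single i]
  · simp [single]
  · intro k _ hk; simp [single, hk]
  · simp

theorem term_single (A e h : Law) (R : ℕ) {K : ℕ} (i : Fin K) :
    term A e h R (single i) = A ^ (R + i) * h * A ^ (R + (K - 1 - i)) := by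
  rw [term, wordL_one_slot A _ i (fun k hk => by simp [single, hk, slot])]
  have : slot A e h (single i i) = h := by simp [single, slot]
  simp only [this, ← mul_assoc, ← pow_add]
  rw [mul_assoc, ← pow_add, Nat.add_comm (K - 1 - (i : ℕ)) R]

/-- The linear part is a Thue–Morse sum of translates. -/
theorem linear_eq (A e h : Law) (R r : ℕ) :
    ∑ κ ∈ univ.image (single (K := 2 ^ r)), chi (sgn (tmSets r).1 (2 ^ r)) κ • term A e h R κ =
      ∑ i ∈ (tmSets r).1, A ^ (R + i) * h * A ^ (R + (2 ^ r - 1 - i)) -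
        ∑ i ∈ (tmSets r).2, A ^ (R + i) * h * A ^ (R + (2 ^ r - 1 - i)) := by
  classical
  rw [Finset.sum_image fun a _ c _ hac => single_injective hac]
  simp only [chi_single, term_single, sgn]
  rw [Fin.sum_univ_eq_sum_range (fun i => (if i ∈ (tmSets r).1 then (1 : ℝ) else -1) •
      (A ^ (R + i) * h * A ^ (R + (2 ^ r - 1 - i)))),
    ← tm_union r, Finset.sum_union (tmSets_disjoint r), sub_eq_add_neg, ← Finset.sum_neg_distrib]
  congr 1
  · exact Finset.sum_congr rfl fun i hi => by rw [if_pos hi, one_smul]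
  · exact Finset.sum_congr rfl fun i hi => by
      rw [if_neg (Finset.disjoint_right.mp (tmSets_disjoint r) hi), neg_one_smul]

/-- The linear part is negligible. -/
theorem linear_small (th : ℝ) (hth : 0 < th) (n : ℕ) (hn : 970 ≤ n) (b : ℝ) (c : ℕ) :
    ∃ C : ℝ, 0 ≤ C ∧ ∀ (D : ℝ) (t : ℕ) (A Z e h : Law) (g R : ℕ), Near b D t A Z e h →
      1 ≤ g → Overlap A g th → (g : ℝ) * t ≤ c * R → 1 ≤ R →
      nsq (∑ κ ∈ univ.image (single (K := 2 ^ (2 * n))),
          chi (sgn (tmSets (2 * n)).1 (2 ^ (2 * n))) κ • term A e h R κ)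
        (A ^ (2 * R + 2 ^ (2 * n))) ≤ C / (t : ℝ) ^ 970 := by
  classical
  obtain ⟨Ct, hCt, htm⟩ := l1_tm_translates th hth (2 * n)
  generalize hr : 2 * n = r at htm ⊢
  generalize hB : (2 : ℝ) ^ r * (|b| + 1) ^ (2 ^ r) = B
  have hB0 : 0 ≤ B := by rw [← hB]; positivity
  refine ⟨B * Ct * (c : ℝ) ^ n, by positivity, ?_⟩
  intro D t A Z e h g R H hg hov hgR hR
  have hA := H.probA
  set S := univ.image (single (K := 2 ^ r))
  set X := ∑ κ ∈ S, chi (sgn (tmSets r).1 (2 ^ r)) κ • term A e h R κ with hX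
  have hbdd : Bdd B X (A ^ (2 * R + 2 ^ r)) := by
    have h1 := bdd_sum S (R := A ^ (2 * R + 2 ^ r)) (a := b ^ (2 ^ r))
      (X := fun κ => chi (sgn (tmSets r).1 (2 ^ r)) κ • term A e h R κ) fun κ _ => by
        simpa [abs_chi (abs_sgn _ _)] using
          bdd_smul (chi (sgn (tmSets r).1 (2 ^ r)) κ) (bdd_term H R κ)
    refine Bdd.mono (hA.pow _).1 ?_ h1
    rw [← hB]
    have hb : (0 : ℝ) ≤ b := zero_le_one.trans H.one_le_b
    refine mul_le_mul ?_ (pow_le_pow_left₀ hb (by linarith [le_abs_self b]) _)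
      (pow_nonneg hb _) (by positivity)
    rw [show (2 : ℝ) ^ r = ((2 ^ r : ℕ) : ℝ) by push_cast; rfl, Nat.cast_le]
    exact (Finset.card_image_le).trans (by simp)
  refine (nsq_le_of_bdd (hA.pow _).1 hbdd).trans ?_
  have hl : l1 X ≤ Ct * (c : ℝ) ^ n / (t : ℝ) ^ 970 := by
    rw [hX, linear_eq]
    refine (htm A h g R hA hg hR hov).trans ?_
    have hx : (0 : ℝ) ≤ (g : ℝ) / R := by positivity
    rw [← hr, pow_mul, Real.sq_sqrt hx, mul_assoc, mul_div_assoc]
    refine mul_le_mul_of_nonneg_left ?_ hCt.le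
    calc ((g : ℝ) / R) ^ n * l1 h ≤ ((g : ℝ) / R) ^ n :=
          mul_le_of_le_one_right (by positivity) H.l1_h
      _ ≤ ((c : ℝ) / t) ^ n := by
          refine pow_le_pow_left₀ hx ?_ n
          rw [div_le_div_iff₀ (by exact_mod_cast hR) (by exact_mod_cast H.t_pos)]
          exact hgR
      _ = (c : ℝ) ^ n / (t : ℝ) ^ n := div_pow _ _ _
      _ ≤ _ := div_pow_le_div_pow H.t_pos (by positivity) hn
  refine (mul_le_mul_of_nonneg_left hl hB0).trans (le_of_eq ?_)
  ring

/-- The difference of the two patterns, and the distance of one to the tokens. -/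
theorem pattern_bounds (th : ℝ) (hth : 0 < th) (n : ℕ) (hn : 970 ≤ n) (b D : ℝ) (c : ℕ) :
    ∃ C : ℝ, 0 ≤ C ∧ ∀ (t : ℕ) (A Z e h : Law) (g R : ℕ), Near b D t A Z e h →
      1 ≤ g → Overlap A g th → (g : ℝ) * t ≤ c * R → t ^ 60 ≤ R → 2 ^ (2 * n) ≤ t ^ 60 →
      nsq (pat A e h (tmSets (2 * n)).2 R (2 ^ (2 * n)) -
            pat A e h (tmSets (2 * n)).1 R (2 ^ (2 * n)))
          (A ^ (2 * R + 2 ^ (2 * n))) ≤ C / (t : ℝ) ^ 970 ∧
      nsq (pat A e h (tmSets (2 * n)).1 R (2 ^ (2 * n)) - A ^ (2 * R + 2 ^ (2 * n)))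
          (A ^ (2 * R + 2 ^ (2 * n))) ≤ C / (t : ℝ) ^ 600 := by
  classical
  obtain ⟨Cl, hCl, hlin⟩ := linear_small th hth n hn b c
  generalize hr : 2 * n = r at hlin ⊢
  generalize hN : ((Fintype.card (Fin (2 ^ r) → Fin 3) : ℕ) : ℝ) = N
  have hN0 : 0 ≤ N := by rw [← hN]; positivity
  generalize hQ : 7 * D ^ 2 + |D| ^ (2 ^ r) = Q
  have hQ0 : 0 ≤ Q := by rw [← hQ]; positivity
  refine ⟨8 * Cl + 2 * N ^ 2 * (4 * Q), by positivity, ?_⟩
  intro t A Z e h g R H hg hov hgR hR hK
  have hA := H.probA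
  have hR1 : 1 ≤ R := (Nat.one_le_pow _ _ H.t_pos).trans hR
  have hlin' := hlin D t A Z e h g R H hg hov hgR hR1
  set K := 2 ^ r with hKdef
  set X := A ^ (2 * R + K) with hX
  set s := sgn (tmSets r).1 K with hs
  set L := univ.image (single (K := K)) with hL
  have hXp : IsProb X := hA.pow _
  have hflip : sgn (tmSets r).2 K = fun i => -s i := by
    funext i
    have hi : (i : ℕ) ∈ (tmSets r).1 ∪ (tmSets r).2 := by
      rw [tm_union]; exact Finset.mem_range.mpr i.isLt
    rw [hs]
    unfold sgn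
    rcases Finset.mem_union.mp hi with h1 | h1
    · rw [if_pos h1, if_neg (Finset.disjoint_left.mp (tmSets_disjoint r) h1)]
    · rw [if_pos h1, if_neg (Finset.disjoint_right.mp (tmSets_disjoint r) h1), neg_neg]
  have habs : ∀ κ : Fin K → Fin 3, |chi s κ| = 1 := fun κ => abs_chi (abs_sgn _ _) κ
  have hchi2 : ∀ κ : Fin K → Fin 3, chi s κ ^ 2 = 1 := fun κ => by
    rw [← sq_abs, habs, one_pow]
  -- any combination whose nonlinear part has small terms
  have general : ∀ (co : (Fin K → Fin 3) → ℝ) (a : ℝ) (k : ℕ), k ≤ 970 → |a| ≤ 2 →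
      (∀ κ ∈ L, co κ = a * chi s κ) →
      (∀ κ ∉ L, co κ ^ 2 * nsq (term A e h R κ) X ≤ 4 * Q / (t : ℝ) ^ k) →
      nsq (∑ κ, co κ • term A e h R κ) X ≤
        (8 * Cl + 2 * N ^ 2 * (4 * Q)) / (t : ℝ) ^ k := by
    intro co a k hk ha hcoL hcoR
    rw [← Finset.sum_add_sum_compl L]
    refine (nsq_add hXp.1).trans ?_
    rw [show (8 * Cl + 2 * N ^ 2 * (4 * Q)) / (t : ℝ) ^ k =
      2 * (4 * (Cl / (t : ℝ) ^ k)) + 2 * (N ^ 2 * (4 * Q / (t : ℝ) ^ k)) by ring]
    refine add_le_add (mul_le_mul_of_nonneg_left ?_ zero_le_two)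
      (mul_le_mul_of_nonneg_left ?_ zero_le_two)
    · rw [show ∑ κ ∈ L, co κ • term A e h R κ = a • ∑ κ ∈ L, chi s κ • term A e h R κ by
        rw [Finset.smul_sum]
        exact Finset.sum_congr rfl fun κ hκ => by rw [hcoL κ hκ, mul_smul], nsq_smul]
      refine mul_le_mul ?_ (hlin'.trans (div_pow_le_div_pow H.t_pos hCl hk))
        (nsq_nonneg hXp.1) (by norm_num)
      nlinarith [sq_abs a, abs_nonneg a]
    · refine (nsq_sum_smul_le Lᶜ co _ hXp.1 (fun κ hκ => hcoR κ (Finset.mem_compl.mp hκ))).trans ?_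
      gcongr
      rw [← hN]
      exact_mod_cast Finset.card_le_univ _
  constructor
  · have hsum : pat A e h (tmSets r).2 R K - pat A e h (tmSets r).1 R K =
        ∑ κ : Fin K → Fin 3, (((-1) ^ cnt κ 2 - 1) * chi s κ) • term A e h R κ := by
      rw [pat_expand, pat_expand, hflip, ← hs, ← Finset.sum_sub_distrib]
      refine Finset.sum_congr rfl fun κ _ => ?_
      rw [chi_neg, ← sub_smul, sub_mul, one_mul]
    rw [hsum]
    refine general _ (-2) 970 le_rfl (by norm_num) (fun κ hκ => ?_) fun κ hκ => ?_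
    · rw [((mem_linear κ).mp hκ).1]; norm_num
    · rw [hL, mem_linear] at hκ
      rw [mul_pow, hchi2, mul_one]
      rcases Nat.even_or_odd (cnt κ 2) with hev | hodd
      · simp only [hev.neg_one_pow, sub_self, zero_pow two_ne_zero, zero_mul]
        positivity
      · rw [hodd.neg_one_pow, show ((-1 : ℝ) - 1) ^ 2 = 4 by norm_num, mul_div_assoc]
        refine mul_le_mul_of_nonneg_left ?_ (by norm_num)
        by_cases hp : cnt κ 2 = 1 ∧ cnt κ 1 = 1
        · refine (nsq_term_pair H hR hK hp.1 hp.2).trans ?_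
          gcongr
          rw [← hQ]
          linarith [pow_nonneg (abs_nonneg D) K]
        · obtain ⟨j, hj⟩ := hodd
          refine (nsq_term_crude H R κ (n := 970) (by omega)).trans ?_
          gcongr
          rw [← hQ, abs_of_nonneg H.D_nonneg]
          nlinarith
  · have hzero : term A e h R (fun _ : Fin K => 0) = X := by
      rw [term, hX, term_ref]; rfl
    have hsum : pat A e h (tmSets r).1 R K - X =
        ∑ κ : Fin K → Fin 3,
          (if κ = (fun _ => 0) then 0 else chi s κ) • term A e h R κ := by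
      rw [pat_expand, ← hs, ← hzero]
      rw [← Finset.add_sum_erase univ (fun κ => chi s κ • term A e h R κ)
        (Finset.mem_univ (fun _ : Fin K => (0 : Fin 3))),
        ← Finset.add_sum_erase univ (fun κ => (if κ = (fun _ => 0) then 0 else chi s κ) •
          term A e h R κ) (Finset.mem_univ (fun _ : Fin K => (0 : Fin 3)))]
      rw [show chi s (fun _ : Fin K => 0) = 1 by simp [chi]]
      simp only [if_true, one_smul, zero_smul, add_sub_cancel_left, zero_add]
      exact Finset.sum_congr rfl fun κ hκ => by rw [if_neg (Finset.ne_of_mem_erase hκ)]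
    rw [hsum]
    refine general _ 1 600 (by norm_num) (by norm_num) (fun κ hκ => ?_) fun κ hκ => ?_
    · rw [one_mul, if_neg]
      rintro rfl
      simpa [cnt] using ((mem_linear _).mp hκ).1
    · rw [hL, mem_linear] at hκ
      split_ifs with h0
      · simp only [zero_pow two_ne_zero, zero_mul]
        positivity
      · rw [hchi2, one_mul]
        have : ¬(cnt κ 1 = 0 ∧ cnt κ 2 = 0) := fun hc => h0 (eq_zero_of_cnt κ hc.1 hc.2)
        refine (nsq_term_crude H R κ (n := 600) (by omega)).trans ?_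
        gcongr
        rw [← hQ, abs_of_nonneg H.D_nonneg]
        nlinarith [pow_nonneg H.D_nonneg K]

end Vale.Agent.P321.BasePair
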