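import Vale.Agent.P321.LawDefs

/-!
# P321: the invariant of the recursion
-/

namespace Vale.Agent.P321

open Filter

/-- A pair of words at parameter `t`, with surrogate laws `A`, `B`. -/
structure Good (q C Lam th : ℝ) (alpha sigma J t : ℕ) (u v : TW) (A B : Law) (g : ℕ) : Prop where
  len_eq : u.length = v.length
  words_ne : u ≠ v
  len_le : (u.length : ℝ) ≤ C * (t : ℝ) ^ (sigma + 2)
  probA : IsProb A
  probB : IsProb B
  ratio : Ratio Lam A B
  chi : nsq (B - A) A ≤ C / (t : ℝ) ^ alpha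
  g_pos : 1 ≤ g
  g_le : (g : ℝ) ≤ C * (t : ℝ) ^ sigma
  overlap : Overlap A g th
  approxA : l1 (A - lawHom q u) ≤ C / (t : ℝ) ^ J
  approxB : l1 (B - lawHom q v) ≤ C / (t : ℝ) ^ J

/-- A family of pairs with exponents `alpha`, `sigma`, with arbitrarily exact surrogates. -/
def Fam (q : ℝ) (alpha sigma : ℕ) : Prop :=
  ∀ J : ℕ, ∃ C Lam th : ℝ, 1 ≤ C ∧ 1 ≤ Lam ∧ 0 < th ∧
    ∀ᶠ t : ℕ in atTop, ∃ (u v : TW) (A B : Law) (g : ℕ), Good q C Lam th alpha sigma J t u v A B g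

end Vale.Agent.P321
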