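import Vale.Agent.P321.Block
import Vale.Agent.P321.Frame
import Vale.Agent.P321.BaseBlocks
import Vale.Agent.P321.BaseOverlap
import Vale.Agent.P321.BasePairExpand

/-!
# P321 module 7: the base of the recursion

With `L = t ^ 240`: the word is `w₀^R [wp on the even Thue–Morse half, wm on the odd] w₀^R`,
`R = t ^ 241`, the partner swaps the two halves. Replace `t ^ 60` periods on each side of an
odd-even pair by pure periods and use the smearing bound.
-/

namespace Vale.Agent.P321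

open Filter

namespace BasePair

/-- The shape of the base word: a pattern between two runs. -/
def baseProd {α : Type*} [Monoid α] (w y x : α) (P : Finset ℕ) (R K : ℕ) : α :=
  w ^ R * patProd y x P K * w ^ R

theorem baseProd_hom {α β : Type*} [Monoid α] [Monoid β] (f : α →* β) (w y x : α) (P : Finset ℕ)
    (R K : ℕ) : f (baseProd w y x P R K) = baseProd (f w) (f y) (f x) P R K := by
  simp only [baseProd, map_mul, map_pow, patProd_hom]

theorem baseProd_wordL (W Y X : Law) (P : Finset ℕ) (R K : ℕ) :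
    baseProd W Y X P R K =
      W ^ R * wordL (fun i : Fin K => if (i : ℕ) ∈ P then X else Y) * W ^ R := by
  rw [baseProd, patProd_eq_ofFn, wordL]

theorem baseProd_pat (W Wp Wm : Law) (P : Finset ℕ) (R K : ℕ) :
    baseProd W Wm Wp P R K =
      pat W ((1 / 2 : ℝ) • (Wp + Wm - (2 : ℝ) • W)) ((1 / 2 : ℝ) • (Wp - Wm)) P R K := by
  rw [baseProd_wordL, pat]
  congr 3
  funext i
  unfold sgn
  split_ifs <;> module

theorem isProb_baseProd {W Y X : Law} (hW : IsProb W) (hY : IsProb Y) (hX : IsProb X)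
    (P : Finset ℕ) (R K : ℕ) : IsProb (baseProd W Y X P R K) := by
  rw [baseProd_wordL]
  exact ((hW.pow R).mul (wordL_isProb fun i => by split_ifs <;> assumption)).mul (hW.pow R)

theorem ratio_baseProd {W Y X : Law} {a : ℝ} (ha : 0 ≤ a) (hW : IsProb W) (hY : IsProb Y)
    (hX : IsProb X) (hYW : Ratio a Y W) (hXW : Ratio a X W) (P : Finset ℕ) (R K : ℕ) :
    Ratio (a ^ K) (baseProd W Y X P R K) (W ^ (2 * R + K)) := by
  have hf : ∀ i : Fin K, IsProb (if (i : ℕ) ∈ P then X else Y) := fun i => by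
    split_ifs <;> assumption
  have h1 := ratio_wordL ha hf (fun _ => hW) (fun i => by split_ifs <;> assumption)
  have h2 := Ratio.mul zero_le_one (pow_nonneg ha K) (hW.pow R) (hW.pow R) (wordL_isProb hf)
    (wordL_isProb fun _ => hW) (ratio_refl (A := W ^ R)) h1
  have h3 := Ratio.mul (by positivity) zero_le_one ((hW.pow R).mul (wordL_isProb hf))
    ((hW.pow R).mul (wordL_isProb fun _ => hW)) (hW.pow R) (hW.pow R) h2
    (ratio_refl (A := W ^ R))
  rw [term_ref, baseProd_wordL]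
  simpa using h3

theorem l1_baseProd_sub {W Y X w y x : Law} (hW : IsProb W) (hY : IsProb Y) (hX : IsProb X)
    (hw : IsProb w) (hy : IsProb y) (hx : IsProb x) {d : ℝ} (d₀ : l1 (W - w) ≤ d)
    (d₁ : l1 (Y - y) ≤ d) (d₂ : l1 (X - x) ≤ d) (P : Finset ℕ) (R K : ℕ) :
    l1 (baseProd W Y X P R K - baseProd w y x P R K) ≤ ((2 * R + K : ℕ) : ℝ) * d := by
  have hF : ∀ i : Fin K, IsProb (if (i : ℕ) ∈ P then X else Y) := fun i => by
    split_ifs <;> assumption
  have hf : ∀ i : Fin K, IsProb (if (i : ℕ) ∈ P then x else y) := fun i => by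
    split_ifs <;> assumption
  rw [baseProd_wordL, baseProd_wordL]
  refine (l1_mul_sub ((hW.pow R).mul (wordL_isProb hF)) (hw.pow R)).trans ?_
  have h0 := l1_pow_sub hW hw R
  have h1 := l1_mul_sub (A' := w ^ R) (B := wordL fun i : Fin K => if (i : ℕ) ∈ P then X else Y)
    (hW.pow R) (wordL_isProb hf)
  have h2 : l1 (wordL (fun i : Fin K => if (i : ℕ) ∈ P then X else Y) -
      wordL (fun i : Fin K => if (i : ℕ) ∈ P then x else y)) ≤ (K : ℝ) * d := by
    refine (l1_wordL_sub hF hf).trans ?_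
    refine (Finset.sum_le_sum fun i _ => ?_).trans_eq (b := ∑ _i : Fin K, d) (by simp)
    split_ifs <;> assumption
  have h3 : (R : ℝ) * l1 (W - w) ≤ R * d := mul_le_mul_of_nonneg_left d₀ (Nat.cast_nonneg _)
  push_cast
  linarith

/-! ### the words -/

theorem length_pow (w : TW) (n : ℕ) : (w ^ n).length = n * w.length := by
  induction n with
  | zero => simp
  | succ n ih => rw [pow_succ, FreeMonoid.length_mul, ih]; ring

theorem length_tokW (a b : ℕ) : (tokW a b).length = 2 * a + 1 + 2 * b := by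
  simp only [tokW, perW, FreeMonoid.length_mul, length_pow, FreeMonoid.length_of]
  ring

theorem length_prod {ι : Type*} (l : List ι) (f : ι → TW) (n : ℕ) (h : ∀ i ∈ l, (f i).length = n) :
    (l.map f).prod.length = l.length * n := by
  induction l with
  | nil => simp
  | cons i l ih =>
    rw [List.map_cons, List.prod_cons, FreeMonoid.length_mul, h i (List.mem_cons_self ..),
      ih fun j hj => h j (List.mem_cons_of_mem _ hj), List.length_cons]
    ring

theorem length_baseProd {w y x : TW} {n : ℕ} (hw : w.length = n) (hy : y.length = n)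
    (hx : x.length = n) (P : Finset ℕ) (R K : ℕ) :
    (baseProd w y x P R K).length = (2 * R + K) * n := by
  rw [baseProd, FreeMonoid.length_mul, FreeMonoid.length_mul, length_pow, hw, patProd,
    length_prod _ _ n (fun i _ => by split_ifs <;> assumption), List.length_range]
  ring

theorem baseProd_ne {w y x : TW} (hne : x ≠ y) (hlen : x.length = y.length) {P P' : Finset ℕ}
    (h : 0 ∈ P) (h' : 0 ∉ P') (R K : ℕ) :
    baseProd w y x P R (K + 1) ≠ baseProd w y x P' R (K + 1) := by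
  intro he
  rw [baseProd, baseProd] at he
  have h1 := mul_left_cancel (mul_right_cancel he)
  rw [patProd_succ, patProd_succ, if_pos h, if_neg h'] at h1
  have h2 := congrArg FreeMonoid.toList h1
  rw [FreeMonoid.toList_mul, FreeMonoid.toList_mul] at h2
  exact hne (FreeMonoid.toList.injective (List.append_inj h2 hlen).1)

theorem tok_ne (L : ℕ) (hL : 1 ≤ L) : tokW (L + 1) (L - 1) ≠ tokW (L - 1) (L + 1) := by
  obtain ⟨l, rfl⟩ : ∃ l, L = l + 1 := ⟨L - 1, by omega⟩
  intro he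
  simp only [Nat.add_sub_cancel, tokW, pow_succ _ (l + 1), pow_succ _ l, mul_assoc] at he
  have h1 := mul_left_cancel he
  have h2 := congrArg (fun u : TW => u.toList.head?) h1
  simp [perW] at h2

theorem quarter {a u : ℝ} (ha : 0 ≤ a) (hu : 0 < u) (h : a ≤ 1 / u ^ 60) :
    a ^ ((1 : ℝ) / 4) ≤ 1 / u ^ 15 := by
  refine (Real.rpow_le_rpow ha h (by norm_num)).trans (le_of_eq ?_)
  rw [show (1 : ℝ) / u ^ 60 = (1 / u ^ 15) ^ 4 by rw [div_pow, one_pow, ← pow_mul],
    show (1 : ℝ) / 4 = ((4 : ℕ) : ℝ)⁻¹ by norm_num,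
    Real.pow_rpow_inv_natCast (div_nonneg zero_le_one (pow_nonneg hu.le _)) (by norm_num)]

/-- The bounds on blocks at half-length `t ^ 240` give all the expansion uses. -/
theorem near_of_blocks {q C Lam C' : ℝ} {J L t : ℕ} {W₀ Wp Wm : Law} (hC : 1 ≤ C) (hLam : 1 ≤ Lam)
    (hL : L = t ^ 240) (ht : 1 ≤ t) (hD : Lam ^ 3 * C ≤ t) (hZ : IsProb (perLaw q ^ (2 * L)))
    (H : Blocks q C Lam C' J L W₀ Wp Wm) :
    Near (2 * Lam ^ 2 + 2) (Lam ^ 3 * C) t W₀ (perLaw q ^ (2 * L))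
      ((1 / 2 : ℝ) • (Wp + Wm - (2 : ℝ) • W₀)) ((1 / 2 : ℝ) • (Wp - Wm)) := by
  set Z := perLaw q ^ (2 * L)
  have hLam0 : 0 ≤ Lam := zero_le_one.trans hLam
  have ht1 : (1 : ℝ) ≤ t := by exact_mod_cast ht
  have ht0 : (0 : ℝ) < t := lt_of_lt_of_le one_pos ht1
  have hLR : (L : ℝ) = (t : ℝ) ^ 240 := by rw [hL, Nat.cast_pow]
  have hD1 : 1 ≤ Lam ^ 3 * C := one_le_mul_of_one_le_of_one_le (one_le_pow₀ hLam) hC
  have hCD : C ≤ Lam ^ 3 * C := le_mul_of_one_le_left (by linarith) (one_le_pow₀ hLam)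
  have r0 : Bdd Lam W₀ Z := bdd_of_ratio H.prob₀.1 H.ratio₀
  have hZW : ∀ y, val Z y ≤ Lam * val W₀ y := fun y => (H.ratio₀ y).2
  have bp : Bdd (Lam ^ 2) Wp W₀ := by
    rw [sq]
    exact bdd_of_ratio H.probp.1 (ratio_trans hLam0 hLam0 H.ratiop (ratio_symm H.ratio₀))
  have bm : Bdd (Lam ^ 2) Wm W₀ := by
    rw [sq]
    exact bdd_of_ratio H.probm.1 (ratio_trans hLam0 hLam0 H.ratiom (ratio_symm H.ratio₀))
  have dpZ := dom_of_bdd (bdd_of_ratio H.probp.1 H.ratiop)
  have dmZ := dom_of_bdd (bdd_of_ratio H.probm.1 H.ratiom)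
  have doddZ : Dom (Wp - Wm) Z := Dom.sub dpZ dmZ
  have devenZ : Dom (Wp + Wm - (2 : ℝ) • W₀) Z :=
    Dom.sub (Dom.add dpZ dmZ) (Dom.smul 2 (dom_of_bdd r0))
  have bodd : Bdd (2 * Lam ^ 2 + 2) ((1 / 2 : ℝ) • (Wp - Wm)) W₀ := fun y => by
    rw [val_smul, val_sub, abs_mul, abs_of_pos (by norm_num : (0 : ℝ) < 1 / 2)]
    have := H.prob₀.1 y
    nlinarith [abs_sub (val Wp y) (val Wm y), bp y, bm y]
  have beven : Bdd (2 * Lam ^ 2 + 2) ((1 / 2 : ℝ) • (Wp + Wm - (2 : ℝ) • W₀)) W₀ := fun y => by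
    rw [val_smul, val_sub, val_add, val_smul, abs_mul,
      abs_of_pos (by norm_num : (0 : ℝ) < 1 / 2)]
    have h0 := H.prob₀.1 y
    nlinarith [abs_sub (val Wp y + val Wm y) (2 * val W₀ y), abs_add_le (val Wp y) (val Wm y),
      bp y, bm y, abs_of_nonneg (mul_nonneg zero_le_two h0)]
  have scale : ∀ (X : Law) (k : ℕ), Dom X Z → nq X Z ≤ C / (L : ℝ) ^ k →
      nq ((1 / 2 : ℝ) • X) W₀ ≤ Lam ^ 3 * C / (t : ℝ) ^ (240 * k) := by
    intro X k hd hX
    rw [nq_smul]
    refine (mul_le_of_le_one_left (nq_nonneg H.prob₀.1) (by norm_num)).trans ?_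
    refine (nq_change hLam0 hZ.1 hd hZW).trans ?_
    refine (mul_le_mul_of_nonneg_left hX (pow_nonneg hLam0 3)).trans (le_of_eq ?_)
    rw [hLR, ← pow_mul, mul_div_assoc]
  have root : ∀ (X : Law) (k : ℕ), Dom X W₀ → nq X W₀ ≤ Lam ^ 3 * C / (t : ℝ) ^ (2 * k) →
      nsq X W₀ ≤ Lam ^ 3 * C / (t : ℝ) ^ k := by
    intro X k hd hX
    refine (nsq_le_sqrt_nq H.prob₀ hd).trans ((Real.sqrt_le_sqrt hX).trans ?_)
    rw [Real.sqrt_div (by linarith), mul_comm 2 k, pow_mul, Real.sqrt_sq (pow_nonneg ht0.le k)]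
    gcongr
    exact Real.sqrt_le_iff.mpr ⟨by linarith, by nlinarith⟩
  have qo : nq ((1 / 2 : ℝ) • (Wp - Wm)) W₀ ≤ Lam ^ 3 * C / (t : ℝ) ^ 720 :=
    scale _ 3 doddZ H.odd_nq
  have qe : nq ((1 / 2 : ℝ) • (Wp + Wm - (2 : ℝ) • W₀)) W₀ ≤ Lam ^ 3 * C / (t : ℝ) ^ 1200 :=
    scale _ 5 devenZ H.even_nq
  have smear : ∀ (X Y : Law),
      (∀ Gam m : ℕ, L ≤ Gam → m ≤ Gam →
        l1 (perLaw q ^ Gam * X * perLaw q ^ m * Y * perLaw q ^ Gam) ≤
          C / (L : ℝ) ^ 2 * ((L : ℝ) / Gam) ^ ((1 : ℝ) / 4)) →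
      ∀ m : ℕ, m ≤ t ^ 60 →
        l1 (Z ^ (t ^ 60) * ((1 / 2 : ℝ) • X) * Z ^ m * ((1 / 2 : ℝ) • Y) * Z ^ (t ^ 60)) ≤
          Lam ^ 3 * C / (t : ℝ) ^ 495 := by
    intro X Y hXY m hm
    simp only [Z, ← pow_mul, mul_smul_comm, smul_mul_assoc, l1_smul]
    have hW1 : 1 ≤ t ^ 60 := Nat.one_le_pow _ _ ht
    refine (mul_le_of_le_one_left (mul_nonneg (abs_nonneg _) (l1_nonneg _)) (by norm_num)).trans ?_
    refine (mul_le_of_le_one_left (l1_nonneg _) (by norm_num)).trans ?_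
    refine (hXY (2 * L * t ^ 60) (2 * L * m) (by nlinarith) (Nat.mul_le_mul_left _ hm)).trans ?_
    have hq : (((L : ℕ) : ℝ) / ((2 * L * t ^ 60 : ℕ) : ℝ)) ≤ 1 / (t : ℝ) ^ 60 := by
      have hL0 : (0 : ℝ) < L := by rw [hLR]; positivity
      push_cast
      rw [div_le_div_iff₀ (by positivity) (by positivity), one_mul, mul_comm (2 : ℝ) L, mul_assoc]
      refine mul_le_mul_of_nonneg_left ?_ hL0.le
      linarith [pow_pos ht0 60]
    refine (mul_le_mul_of_nonneg_left (quarter (by positivity) ht0 hq)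
      (div_nonneg (by linarith) (by positivity))).trans ?_
    rw [hLR, ← pow_mul, div_mul_div_comm, mul_one, ← pow_add]
    exact div_le_div_of_nonneg_right hCD (pow_nonneg ht0.le _)
  refine
    { t_pos := ht, one_le_b := by nlinarith, one_le_D := hD1
      D_le := hD.trans (le_self_pow₀ ht1 (by norm_num))
      probA := H.prob₀, probZ := hZ, domA := dom_of_bdd r0, bdd_e := beven, bdd_h := bodd
      l1_h := ?_, nsq_e := root _ 600 (dom_of_bdd beven) qe, nsq_h := root _ 360 (dom_of_bdd bodd) qo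
      nq_e := qe, nq_h := qo, zero := ?_
      smear_he := smear _ _ H.smear_oe, smear_eh := smear _ _ H.smear_eo }
  · rw [l1_smul, abs_of_pos (by norm_num : (0 : ℝ) < 1 / 2)]
    have := l1_sub Wp Wm
    rw [l1_of_isProb H.probp, l1_of_isProb H.probm] at this
    linarith
  · refine H.zero_nsq.trans ?_
    rw [hLR, show (240 : ℕ) = 120 * 2 from rfl, pow_mul, Real.sqrt_sq (pow_nonneg ht0.le _)]
    exact div_le_div_of_nonneg_right hCD (pow_nonneg ht0.le _)

end BasePair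

open BasePair in
theorem fam_base (q : ℝ) (hq0 : 0 < q) (hq1 : q < 1) : Fam q 970 482 := by
  obtain ⟨C₀, Lam, hC₀, hLam, hblocks⟩ := base_blocks q hq0 hq1
  obtain ⟨c, th₀, hc, hth₀, hov₀⟩ := base_overlap q hq0 hq1
  obtain ⟨n, hn⟩ : ∃ n, 970 ≤ n := ⟨970, le_rfl⟩
  obtain ⟨Cp, hCp, hpat⟩ :=
    pattern_bounds (th₀ / 2) (half_pos hth₀) n hn (2 * Lam ^ 2 + 2) (Lam ^ 3 * C₀) c
  obtain ⟨Co, hCo, hblock⟩ := block_overlap (th₀ / 2) (half_pos hth₀)
  generalize hr : 2 * n = r at hpat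
  obtain ⟨K₀, hK₀⟩ : ∃ k, 2 ^ r = k + 1 := ⟨2 ^ r - 1, by have := Nat.one_le_two_pow (n := r); omega⟩
  intro J
  obtain ⟨C₁, hev⟩ := hblocks (J + 2)
  set C' := max C₁ 0 with hC'
  have hC'0 : 0 ≤ C' := le_max_right _ _
  set Λ : ℝ := (Lam ^ 2) ^ (2 ^ r) with hΛdef
  have hLam0 : 0 ≤ Lam := zero_le_one.trans hLam
  have hΛ : 1 ≤ Λ := one_le_pow₀ (one_le_pow₀ hLam)
  have hΛC : 0 ≤ Λ * Cp := mul_nonneg (zero_le_one.trans hΛ) hCp
  refine ⟨15 + Λ * Cp + 3 * C', Λ * Λ, 1 / 2, by linarith,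
    one_le_mul_of_one_le_of_one_le hΛ hΛ, by norm_num, ?_⟩
  have hLtop : Tendsto (fun t : ℕ => t ^ 240) atTop atTop := tendsto_pow_atTop (by norm_num)
  filter_upwards [hLtop.eventually hev, hLtop.eventually hov₀, eventually_ge_atTop 1,
    eventually_ge_atTop (2 ^ r), eventually_ge_atTop ⌈Lam ^ 3 * C₀⌉₊,
    eventually_ge_atTop ⌈4 * c * C' / th₀⌉₊,
    eventually_ge_atTop ⌈(2 * Co) ^ 2 * (3 * c + 2 * Cp) + 2 * Cp⌉₊]
    with t hb hov ht htK htD htth htC
  obtain ⟨W₀, Wp, Wm, H⟩ := hb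
  set L := t ^ 240 with hLdef
  set R := t ^ 241 with hRdef
  set K := 2 ^ r with hKdef
  have ht0 : (0 : ℝ) < t := by exact_mod_cast ht
  have ht1 : (1 : ℝ) ≤ t := by exact_mod_cast ht
  have htD' : Lam ^ 3 * C₀ ≤ t := Nat.ceil_le.mp htD
  have htth' : 4 * c * C' / th₀ ≤ t := Nat.ceil_le.mp htth
  have htC' : (2 * Co) ^ 2 * (3 * c + 2 * Cp) + 2 * Cp ≤ t := Nat.ceil_le.mp htC
  have hq0' := hq0.le
  have hq1' := hq1.le
  have hlaw := fun w => isProb_lawHom hq0' hq1' w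
  have hZ : IsProb (perLaw q ^ (2 * L)) := (hlaw perW).pow _
  have N := near_of_blocks hC₀ hLam hLdef ht htD' hZ H
  set e := (1 / 2 : ℝ) • (Wp + Wm - (2 : ℝ) • W₀) with he
  set h := (1 / 2 : ℝ) • (Wp - Wm) with hh
  have hL1 : 1 ≤ L := Nat.one_le_pow _ _ ht
  have hR1 : 1 ≤ R := Nat.one_le_pow _ _ ht
  have hKW : K ≤ t ^ 60 := htK.trans (Nat.le_self_pow (by norm_num) t)
  have hKR : K ≤ R := htK.trans (Nat.le_self_pow (by norm_num) t)
  have hWR : t ^ 60 ≤ R := Nat.pow_le_pow_right ht (by norm_num)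
  -- distances of the surrogates
  have dist : ∀ {X : ℝ}, X ≤ C₁ / ((L : ℕ) : ℝ) ^ (J + 2) → X ≤ C' / (t : ℝ) ^ (241 + J) := by
    intro X hX
    exact hX.trans ((div_le_div_of_nonneg_right (le_max_left C₁ 0) (by positivity)).trans (by
      rw [hLdef, Nat.cast_pow, ← pow_mul]
      exact div_pow_le_div_pow ht hC'0 (by omega)))
  have a₀ := dist H.approx₀
  have ap := dist H.approxp
  have am := dist H.approxm
  set w₀ := tokW L L with hw₀
  set wp := tokW (L + 1) (L - 1) with hwp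
  set wm := tokW (L - 1) (L + 1) with hwm
  set P := (tmSets r).1 with hP
  set P' := (tmSets r).2 with hP'
  set A := baseProd W₀ Wm Wp P R K with hA
  set B := baseProd W₀ Wm Wp P' R K with hB
  set G := 2 * R + K with hG
  have pA : IsProb A := isProb_baseProd H.prob₀ H.probm H.probp P R K
  have pB : IsProb B := isProb_baseProd H.prob₀ H.probm H.probp P' R K
  -- overlap of powers of the surrogate token
  set g := c * L with hg
  have hg1 : 1 ≤ g := Nat.mul_le_mul hc hL1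
  have hgt : 4 * (g : ℝ) * (C' / (t : ℝ) ^ (241 + J)) ≤ th₀ := by
    rw [hg, hLdef, Nat.cast_mul, Nat.cast_pow, show 241 + J = 240 + (J + 1) by omega, pow_add]
    calc 4 * ((c : ℝ) * (t : ℝ) ^ 240) * (C' / ((t : ℝ) ^ 240 * (t : ℝ) ^ (J + 1)))
        = 4 * c * C' / (t : ℝ) ^ (J + 1) := by field_simp
      _ ≤ 4 * c * C' / t := by
          gcongr
          exact le_self_pow₀ ht1 (by omega)
      _ ≤ th₀ := by
          rw [div_le_iff₀ ht0]
          rw [div_le_iff₀ hth₀] at htth'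
          linarith
  have hovW : Overlap W₀ g (th₀ / 2) := by
    unfold Overlap at hov ⊢
    have x1 := l1_pow_sub H.prob₀ (hlaw w₀) g
    have x2 := l1_pow_sub H.prob₀ (hlaw w₀) (g + 1)
    have x3 := l1_sub_sub (W₀ ^ g) (lawHom q w₀ ^ g) (W₀ ^ (g + 1))
    have x4 := l1_sub_sub (lawHom q w₀ ^ g) (lawHom q w₀ ^ (g + 1)) (W₀ ^ (g + 1))
    have x5 := l1_sub_comm (lawHom q w₀ ^ (g + 1)) (W₀ ^ (g + 1))
    have x6 : ((g + 1 : ℕ) : ℝ) ≤ 3 * g := by exact_mod_cast (by omega : g + 1 ≤ 3 * g)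
    have x7 : (g : ℝ) * l1 (W₀ - lawHom q w₀) ≤ g * (C' / (t : ℝ) ^ (241 + J)) :=
      mul_le_mul_of_nonneg_left a₀ (Nat.cast_nonneg _)
    have x8 : ((g + 1 : ℕ) : ℝ) * l1 (W₀ - lawHom q w₀) ≤ 3 * g * (C' / (t : ℝ) ^ (241 + J)) :=
      mul_le_mul x6 a₀ (l1_nonneg _) (by positivity)
    linarith
  have hgR : (g : ℝ) * t ≤ c * R := by
    rw [hg, hLdef, hRdef, Nat.cast_mul, Nat.cast_pow, Nat.cast_pow, mul_assoc, ← pow_succ]
  obtain ⟨hdiff, hnear⟩ := hpat t W₀ (perLaw q ^ (2 * L)) e h g R N hg1 hovW hgR hWR hKW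
  have eA : pat W₀ e h P R K = A := (baseProd_pat W₀ Wp Wm P R K).symm
  have eB : pat W₀ e h P' R K = B := (baseProd_pat W₀ Wp Wm P' R K).symm
  rw [eA, eB, ← hG] at hdiff
  rw [eA, ← hG] at hnear
  -- comparisons
  have hL2 : (0 : ℝ) ≤ Lam ^ 2 := by positivity
  have rpW : Ratio (Lam ^ 2) Wp W₀ := by
    rw [sq]; exact ratio_trans hLam0 hLam0 H.ratiop (ratio_symm H.ratio₀)
  have rmW : Ratio (Lam ^ 2) Wm W₀ := by
    rw [sq]; exact ratio_trans hLam0 hLam0 H.ratiom (ratio_symm H.ratio₀)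
  have rA : Ratio Λ A (W₀ ^ G) := ratio_baseProd hL2 H.prob₀ H.probm H.probp rmW rpW P R K
  have rB : Ratio Λ B (W₀ ^ G) := ratio_baseProd hL2 H.prob₀ H.probm H.probp rmW rpW P' R K
  have domA : Dom A (W₀ ^ G) := dom_of_bdd (bdd_of_ratio pA.1 rA)
  have domB : Dom B (W₀ ^ G) := dom_of_bdd (bdd_of_ratio pB.1 rB)
  have tok_len : ∀ a b : ℕ, a + b = 2 * L → (tokW a b).length = 4 * L + 1 := fun a b hab => by
    rw [length_tokW]; omega
  have l₀ : w₀.length = 4 * L + 1 := tok_len L L (by omega)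
  have lp : wp.length = 4 * L + 1 := tok_len (L + 1) (L - 1) (by omega)
  have lm : wm.length = 4 * L + 1 := tok_len (L - 1) (L + 1) (by omega)
  have h3R : G ≤ 3 * R := by omega
  have happrox : ∀ S : Finset ℕ,
      l1 (baseProd W₀ Wm Wp S R K - lawHom q (baseProd w₀ wm wp S R K)) ≤
        (15 + Λ * Cp + 3 * C') / (t : ℝ) ^ J := by
    intro S
    rw [baseProd_hom]
    refine (l1_baseProd_sub H.prob₀ H.probm H.probp (hlaw _) (hlaw _) (hlaw _) a₀ am ap S R K).trans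
      ?_
    calc ((2 * R + K : ℕ) : ℝ) * (C' / (t : ℝ) ^ (241 + J))
        ≤ (3 * (t : ℝ) ^ 241) * (C' / (t : ℝ) ^ (241 + J)) := by
          refine mul_le_mul_of_nonneg_right ?_ (div_nonneg hC'0 (pow_nonneg ht0.le _))
          have := (Nat.cast_le (α := ℝ)).mpr h3R
          rw [hG, hRdef] at this
          rw [hRdef]
          push_cast at this ⊢
          exact this
      _ = 3 * C' / (t : ℝ) ^ J := by rw [pow_add]; field_simp
      _ ≤ _ := div_le_div_of_nonneg_right (by linarith) (pow_nonneg ht0.le _)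
  refine ⟨baseProd w₀ wm wp P R K, baseProd w₀ wm wp P' R K, A, B, t ^ 482,
    { len_eq := by rw [length_baseProd l₀ lm lp, length_baseProd l₀ lm lp]
      words_ne := ?_
      len_le := ?_
      probA := pA
      probB := pB
      ratio := ratio_trans (zero_le_one.trans hΛ) (zero_le_one.trans hΛ) rA (ratio_symm rB)
      chi := ?_
      g_pos := Nat.one_le_pow _ _ ht
      g_le := ?_
      overlap := ?_
      approxA := happrox P
      approxB := happrox P' }⟩
  · rw [hK₀]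
    exact baseProd_ne (tok_ne L hL1) (lp.trans lm.symm) (zero_mem_tm r)
      (Finset.disjoint_left.mp (tmSets_disjoint r) (zero_mem_tm r)) R K₀
  · rw [length_baseProd l₀ lm lp]
    have h5 : G * (4 * L + 1) ≤ 15 * (t ^ 241 * t ^ 240) := by
      calc G * (4 * L + 1) ≤ (3 * R) * (5 * L) := Nat.mul_le_mul h3R (by omega)
        _ = _ := by rw [hRdef, hLdef]; ring
    have h6 := (Nat.cast_le (α := ℝ)).mpr h5
    push_cast at h6
    rw [← pow_add] at h6
    rw [hG] at h6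
    push_cast
    refine le_trans (by push_cast at h6; exact h6) ?_
    refine mul_le_mul (by linarith) (pow_le_pow_right₀ ht1 (by omega))
      (pow_nonneg ht0.le _) (by linarith)
  · refine (nsq_change (zero_le_one.trans hΛ) (H.prob₀.pow G).1 (Dom.sub domB domA)
      fun y => (rA y).2).trans ?_
    refine (mul_le_mul_of_nonneg_left hdiff (zero_le_one.trans hΛ)).trans ?_
    rw [← mul_div_assoc]
    exact div_le_div_of_nonneg_right (by linarith) (pow_nonneg ht0.le _)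
  · rw [Nat.cast_pow]
    exact le_mul_of_one_le_left (pow_nonneg ht0.le _) (by linarith)
  · unfold Overlap
    have hg'1 : 1 ≤ t ^ 482 := Nat.one_le_pow _ _ ht
    have hsucc : ((t ^ 482 : ℕ) : ℝ) + 1 ≤ 2 * (t : ℝ) ^ 482 := by
      rw [Nat.cast_pow]
      linarith [one_le_pow₀ (n := 482) ht1]
    have heps : (((t ^ 482 : ℕ) : ℝ) + 1) * (Cp / (t : ℝ) ^ 600) ≤ 2 * Cp / t := by
      refine (mul_le_mul_of_nonneg_right hsucc (div_nonneg hCp (pow_nonneg ht0.le _))).trans ?_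
      calc 2 * (t : ℝ) ^ 482 * (Cp / (t : ℝ) ^ 600) = 2 * Cp / (t : ℝ) ^ 118 := by
            rw [show (600 : ℕ) = 482 + 118 from rfl, pow_add]
            field_simp
        _ ≤ 2 * Cp / t := by
            refine div_le_div_of_nonneg_left (by linarith) ht0 (le_self_pow₀ ht1 (by norm_num))
    have hrat : ((G : ℕ) : ℝ) * g / ((t ^ 482 : ℕ) : ℝ) ≤ 3 * c / t := by
      have h7 : G * g * t ≤ 3 * c * t ^ 482 := by
        calc G * g * t ≤ (3 * R) * g * t :=
              Nat.mul_le_mul_right _ (Nat.mul_le_mul_right _ h3R)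
          _ = _ := by rw [hRdef, hg, hLdef]; ring
      rw [div_le_div_iff₀ (by exact_mod_cast hg'1) ht0]
      exact_mod_cast h7
    have hbig : (2 * Co) ^ 2 * (3 * c + 2 * Cp) ≤ t := by linarith
    have hsmall : ∀ x y : ℝ, 0 ≤ y → y ≤ 3 * c + 2 * Cp → x ≤ y / t →
        Co * Real.sqrt x ≤ 1 / 2 := by
      intro x y hy hy' hx
      have h8 : Real.sqrt x ≤ 1 / (2 * Co) := by
        rw [Real.sqrt_le_left (by positivity)]
        refine hx.trans ?_
        rw [div_pow, one_pow, div_le_div_iff₀ ht0 (by positivity), one_mul, mul_comm]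
        exact (mul_le_mul_of_nonneg_left hy' (by positivity)).trans hbig
      calc Co * Real.sqrt x ≤ Co * (1 / (2 * Co)) := mul_le_mul_of_nonneg_left h8 hCo.le
        _ = 1 / 2 := by field_simp
    have hc0 : (0 : ℝ) ≤ c := Nat.cast_nonneg c
    refine (hblock W₀ A g (t ^ 482) G (Cp / (t : ℝ) ^ 600) H.prob₀ pA domA hg1 hg'1
      (by omega) hovW hnear ?_).trans ?_
    · refine heps.trans ?_
      rw [div_le_one ht0]
      have h9 : 0 ≤ (2 * Co) ^ 2 * (3 * c + 2 * Cp) :=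
        mul_nonneg (sq_nonneg _) (by linarith)
      linarith
    · rw [mul_add]
      have y1 := hsmall _ (3 * c) (by linarith) (by linarith) hrat
      have y2 := hsmall _ (2 * Cp) (by linarith) (by linarith) heps
      linarith

end Vale.Agent.P321
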