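import Vale.Agent.P321.BasePairTools

/-!
# P321 module 7, the terms of the expansion of a token pattern

`A` is the surrogate token, `Z` the pure periods, `e` and `h` the even and odd parts of the shifted
tokens. An even-odd pair gains `t ^ (-10)` from the smearing bound.
-/

namespace Vale.Agent.P321.BasePair

open Finset

/-- All the bounds on `A`, `e`, `h` at parameter `t` that the expansion uses. -/
structure Near (b D : ℝ) (t : ℕ) (A Z e h : Law) : Prop where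
  t_pos : 1 ≤ t
  one_le_b : 1 ≤ b
  one_le_D : 1 ≤ D
  D_le : D ≤ (t : ℝ) ^ 60
  probA : IsProb A
  probZ : IsProb Z
  domA : Dom A Z
  bdd_e : Bdd b e A
  bdd_h : Bdd b h A
  l1_h : l1 h ≤ 1
  nsq_e : nsq e A ≤ D / (t : ℝ) ^ 600
  nsq_h : nsq h A ≤ D / (t : ℝ) ^ 360
  nq_e : nq e A ≤ D / (t : ℝ) ^ 1200
  nq_h : nq h A ≤ D / (t : ℝ) ^ 720
  zero : nsq (A - Z) Z ≤ D / (t : ℝ) ^ 120
  smear_he : ∀ m : ℕ, m ≤ t ^ 60 →
    l1 (Z ^ (t ^ 60) * h * Z ^ m * e * Z ^ (t ^ 60)) ≤ D / (t : ℝ) ^ 495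
  smear_eh : ∀ m : ℕ, m ≤ t ^ 60 →
    l1 (Z ^ (t ^ 60) * e * Z ^ m * h * Z ^ (t ^ 60)) ≤ D / (t : ℝ) ^ 495

/-- A word of tokens with one factor of the expansion in each slot. -/
noncomputable def term (A e h : Law) (R : ℕ) {K : ℕ} (κ : Fin K → Fin 3) : Law :=
  A ^ R * wordL (fun i => slot A e h (κ i)) * A ^ R

/-- The sign of a term. -/
noncomputable def chi {K : ℕ} (s : Fin K → ℝ) (κ : Fin K → Fin 3) : ℝ :=
  ∏ i, if κ i = 2 then s i else 1

/-- The number of slots of a given type. -/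
def cnt {K : ℕ} (κ : Fin K → Fin 3) (j : Fin 3) : ℕ := (univ.filter fun i => κ i = j).card

theorem div_pow_le_div_pow {t : ℕ} (ht : 1 ≤ t) {a : ℝ} (ha : 0 ≤ a) {m n : ℕ} (hmn : m ≤ n) :
    a / (t : ℝ) ^ n ≤ a / (t : ℝ) ^ m := by
  have h1 : (1 : ℝ) ≤ t := by exact_mod_cast ht
  gcongr

theorem interp_bound {x y a u : ℝ} (hx0 : 0 ≤ x) (hy0 : 0 ≤ y) (ha : 0 ≤ a) (hu : 0 < u)
    (hx : x ≤ a / u ^ 495) (hy : y ≤ a / u ^ 1920) :
    x ^ ((2 : ℝ) / 3) * y ^ ((1 : ℝ) / 3) ≤ a / u ^ 970 := by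
  have hx2 : x ^ ((2 : ℝ) / 3) ≤ (a / u ^ 495) ^ ((2 : ℝ) / 3) :=
    Real.rpow_le_rpow hx0 hx (by norm_num)
  have hy2 : y ^ ((1 : ℝ) / 3) ≤ (a / u ^ 1920) ^ ((1 : ℝ) / 3) :=
    Real.rpow_le_rpow hy0 hy (by norm_num)
  refine (mul_le_mul hx2 hy2 (Real.rpow_nonneg hy0 _)
    (Real.rpow_nonneg (div_nonneg ha (pow_nonneg hu.le _)) _)).trans (le_of_eq ?_)
  rw [Real.div_rpow ha (by positivity), Real.div_rpow ha (by positivity),
    ← Real.rpow_natCast u 495, ← Real.rpow_natCast u 1920, ← Real.rpow_mul hu.le,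
    ← Real.rpow_mul hu.le, div_mul_div_comm, ← Real.rpow_add hu, ← Real.rpow_add' ha (by norm_num),
    ← Real.rpow_natCast u 970]
  norm_num

variable {b D : ℝ} {t : ℕ} {A Z e h : Law}

theorem Near.D_nonneg (H : Near b D t A Z e h) : 0 ≤ D := zero_le_one.trans H.one_le_D

theorem Near.dom_e (H : Near b D t A Z e h) : Dom e A := dom_of_bdd H.bdd_e

theorem Near.dom_h (H : Near b D t A Z e h) : Dom h A := dom_of_bdd H.bdd_h

theorem l1_le_of_nsq {X R : Law} (hR : IsProb R) (hd : Dom X R) {a u : ℝ} (ha : 0 ≤ a)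
    (hu : 0 ≤ u) (k : ℕ) (h : nsq X R ≤ a / u ^ (2 * k)) : l1 X ≤ Real.sqrt a / u ^ k := by
  refine (l1_le_sqrt_nsq hR hd).trans ((Real.sqrt_le_sqrt h).trans (le_of_eq ?_))
  rw [Real.sqrt_div ha, mul_comm, pow_mul, Real.sqrt_sq (pow_nonneg hu k)]

/-- An even-odd pair between windows. -/
theorem pair_core (H : Near b D t A Z e h) {x y : Law}
    (hxy : x = h ∧ y = e ∨ x = e ∧ y = h) {m : ℕ} (hm : m ≤ t ^ 60) :
    nsq (A ^ (t ^ 60) * x * A ^ m * y * A ^ (t ^ 60))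
        (A ^ (t ^ 60) * A * A ^ m * A * A ^ (t ^ 60)) ≤ 7 * D ^ 2 / (t : ℝ) ^ 970 := by
  have hA := H.probA
  have hD := H.D_nonneg
  have ht : (1 : ℝ) ≤ t := by exact_mod_cast H.t_pos
  have ht0 : (0 : ℝ) < t := lt_of_lt_of_le one_pos ht
  set W := t ^ 60 with hW
  have hdx : Dom x A := by rcases hxy with ⟨rfl, -⟩ | ⟨rfl, -⟩ <;> [exact H.dom_h; exact H.dom_e]
  have hdy : Dom y A := by rcases hxy with ⟨-, rfl⟩ | ⟨-, rfl⟩ <;> [exact H.dom_e; exact H.dom_h]
  have hl : l1 x * l1 y ≤ D / (t : ℝ) ^ 480 := by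
    have h1 : l1 h ≤ Real.sqrt D / (t : ℝ) ^ 180 :=
      l1_le_of_nsq hA H.dom_h hD ht0.le 180 H.nsq_h
    have h2 : l1 e ≤ Real.sqrt D / (t : ℝ) ^ 300 :=
      l1_le_of_nsq hA H.dom_e hD ht0.le 300 H.nsq_e
    have h3 := mul_le_mul h1 h2 (l1_nonneg _) (div_nonneg (Real.sqrt_nonneg D) (pow_nonneg ht0.le _))
    rw [div_mul_div_comm, Real.mul_self_sqrt hD, ← pow_add] at h3
    rcases hxy with ⟨rfl, rfl⟩ | ⟨rfl, rfl⟩
    · exact h3
    · rw [mul_comm]; exact h3
  have hq : nq x A * nq y A ≤ D ^ 2 / (t : ℝ) ^ 1920 := by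
    have h3 := mul_le_mul H.nq_h H.nq_e (nq_nonneg hA.1) (div_nonneg hD (pow_nonneg ht0.le _))
    rw [div_mul_div_comm, ← sq, ← pow_add] at h3
    rcases hxy with ⟨rfl, rfl⟩ | ⟨rfl, rfl⟩
    · exact h3
    · rw [mul_comm]; exact h3
  have hsm : l1 (Z ^ W * x * Z ^ m * y * Z ^ W) ≤ D / (t : ℝ) ^ 495 := by
    rcases hxy with ⟨rfl, rfl⟩ | ⟨rfl, rfl⟩
    · exact H.smear_he m hm
    · exact H.smear_eh m hm
  set d : ℝ := 2 * D / (t : ℝ) ^ 30 with hd
  have hpow : ∀ n, n ≤ W → l1 (A ^ n - Z ^ n) ≤ d := by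
    intro n hn
    have hWδ : (W : ℝ) * (D / (t : ℝ) ^ 120) = D / (t : ℝ) ^ 60 := by
      rw [hW, Nat.cast_pow, show (120 : ℕ) = 60 + 60 from rfl, pow_add]
      field_simp
    refine (l1_pow_sub_le_sqrt hA H.probZ H.domA H.zero hn ?_).trans ?_
    · rw [hWδ, div_le_one (by positivity)]; exact H.D_le
    · rw [hWδ, Real.sqrt_le_left (by positivity), hd, div_pow, mul_pow, ← pow_mul,
        ← mul_div_assoc]
      gcongr
      all_goals nlinarith [H.one_le_D]
  have hd0 : 0 ≤ d := by positivity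
  -- reference-free bound of the total variation
  have hsplit : A ^ W * x * A ^ m * y * A ^ W =
      Z ^ W * x * Z ^ m * y * Z ^ W + (A ^ W - Z ^ W) * (x * A ^ m * y * A ^ W)
        + Z ^ W * x * ((A ^ m - Z ^ m) * (y * A ^ W))
        + Z ^ W * x * Z ^ m * y * (A ^ W - Z ^ W) := by
    simp only [sub_mul, mul_sub, mul_assoc]
    abel
  have hl1 : l1 (A ^ W * x * A ^ m * y * A ^ W) ≤ 7 * D ^ 2 / (t : ℝ) ^ 495 := by
    rw [hsplit]
    have e1 : ∀ n, l1 (A ^ n) = 1 := fun n => l1_of_isProb (hA.pow n)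
    have e2 : ∀ n, l1 (Z ^ n) = 1 := fun n => l1_of_isProb (H.probZ.pow n)
    have hx0 := l1_nonneg x
    have hy0 := l1_nonneg y
    have mid1 : l1 ((A ^ W - Z ^ W) * (x * A ^ m * y * A ^ W)) ≤ d * (l1 x * l1 y) := by
      refine (l1_mul _ _).trans (mul_le_mul (hpow W le_rfl) ?_ (l1_nonneg _) hd0)
      calc l1 (x * A ^ m * y * A ^ W) ≤ l1 (x * A ^ m * y) * l1 (A ^ W) := l1_mul _ _
        _ ≤ l1 (x * A ^ m) * l1 y := by rw [e1, mul_one]; exact l1_mul _ _
        _ ≤ l1 x * l1 y := by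
          gcongr
          exact (l1_mul _ _).trans (by rw [e1, mul_one])
    have mid2 : l1 (Z ^ W * x * ((A ^ m - Z ^ m) * (y * A ^ W))) ≤ d * (l1 x * l1 y) := by
      refine (l1_mul _ _).trans ?_
      have a1 : l1 (Z ^ W * x) ≤ l1 x := (l1_mul _ _).trans (by rw [e2, one_mul])
      have a2 : l1 ((A ^ m - Z ^ m) * (y * A ^ W)) ≤ d * l1 y :=
        (l1_mul _ _).trans (mul_le_mul (hpow m hm)
          ((l1_mul _ _).trans (by rw [e1, mul_one])) (l1_nonneg _) hd0)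
      refine (mul_le_mul a1 a2 (l1_nonneg _) hx0).trans (le_of_eq (by ring))
    have mid3 : l1 (Z ^ W * x * Z ^ m * y * (A ^ W - Z ^ W)) ≤ d * (l1 x * l1 y) := by
      refine (l1_mul _ _).trans ?_
      rw [mul_comm d]
      refine mul_le_mul ?_ (hpow W le_rfl) (l1_nonneg _) (by positivity)
      calc l1 (Z ^ W * x * Z ^ m * y) ≤ l1 (Z ^ W * x * Z ^ m) * l1 y := l1_mul _ _
        _ ≤ l1 (Z ^ W * x) * l1 y := by
          gcongr
          exact (l1_mul _ _).trans (by rw [e2, mul_one])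
        _ ≤ l1 x * l1 y := by
          gcongr
          exact (l1_mul _ _).trans (by rw [e2, one_mul])
    have hdl : d * (l1 x * l1 y) ≤ 2 * D ^ 2 / (t : ℝ) ^ 495 := by
      refine (mul_le_mul_of_nonneg_left hl hd0).trans ?_
      rw [hd, div_mul_div_comm, ← pow_add, mul_assoc, ← sq]
      exact div_pow_le_div_pow H.t_pos (by positivity) (by norm_num)
    refine (l1_add _ _).trans ((add_le_add ((l1_add _ _).trans (add_le_add
      ((l1_add _ _).trans (add_le_add hsm (mid1.trans hdl))) (mid2.trans hdl)))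
      (mid3.trans hdl)).trans ?_)
    rw [← add_div, ← add_div, ← add_div]
    gcongr
    nlinarith [H.one_le_D]
  -- the quartic norm in the exact reference
  have hWd : ∀ n, Dom (A ^ n) (A ^ n) := fun n => dom_self _
  have p1 := Dom.mul (hA.pow W).1 hA.1 (hWd W) hdx
  have pp1 := (hA.pow W).mul hA
  have p2 := Dom.mul pp1.1 (hA.pow m).1 p1 (hWd m)
  have pp2 := pp1.mul (hA.pow m)
  have p3 := Dom.mul pp2.1 hA.1 p2 hdy
  have pp3 := pp2.mul hA
  have p4 := Dom.mul pp3.1 (hA.pow W).1 p3 (hWd W)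
  have hnq : nq (A ^ W * x * A ^ m * y * A ^ W) (A ^ W * A * A ^ m * A * A ^ W) ≤
      7 * D ^ 2 / (t : ℝ) ^ 1920 := by
    refine (nq_mul pp3.1 (hA.pow W).1 p3 (hWd W)).trans ?_
    rw [nq_self (hA.pow W), mul_one]
    refine (nq_mul pp2.1 hA.1 p2 hdy).trans ?_
    refine le_trans (mul_le_mul_of_nonneg_right
      (show nq (A ^ W * x * A ^ m) (A ^ W * A * A ^ m) ≤ nq x A from ?_) (nq_nonneg hA.1)) ?_
    · refine (nq_mul pp1.1 (hA.pow m).1 p1 (hWd m)).trans ?_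
      rw [nq_self (hA.pow m), mul_one]
      refine (nq_mul (hA.pow W).1 hA.1 (hWd W) hdx).trans ?_
      rw [nq_self (hA.pow W), one_mul]
    · refine hq.trans ?_
      gcongr
      nlinarith
  exact (nsq_interp (pp3.mul (hA.pow W)).1 p4).trans (interp_bound (l1_nonneg _)
    (nq_nonneg (pp3.mul (hA.pow W)).1) (by positivity) ht0 hl1 hnq)

theorem slot_dom (H : Near b D t A Z e h) : ∀ j, Dom (slot A e h j) A := by
  intro j
  fin_cases j
  · exact dom_self A
  · exact H.dom_e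
  · exact H.dom_h

theorem term_ref (A : Law) (R K : ℕ) :
    A ^ (2 * R + K) = A ^ R * wordL (fun _ : Fin K => A) * A ^ R := by
  rw [wordL_const, ← pow_add, ← pow_add]
  congr 1
  omega

/-- A pair term inherits the gain. -/
theorem nsq_term_pair (H : Near b D t A Z e h) {R K : ℕ} (hR : t ^ 60 ≤ R) (hK : K ≤ t ^ 60)
    {κ : Fin K → Fin 3} (h2 : cnt κ 2 = 1) (h1 : cnt κ 1 = 1) :
    nsq (term A e h R κ) (A ^ (2 * R + K)) ≤ 7 * D ^ 2 / (t : ℝ) ^ 970 := by
  classical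
  have hA := H.probA
  obtain ⟨i, hi⟩ := Finset.card_eq_one.mp h2
  obtain ⟨j, hj⟩ := Finset.card_eq_one.mp h1
  have hi' : ∀ k, κ k = 2 ↔ k = i := fun k => by
    simpa using Finset.ext_iff.mp hi k
  have hj' : ∀ k, κ k = 1 ↔ k = j := fun k => by
    simpa using Finset.ext_iff.mp hj k
  have hκi : κ i = 2 := (hi' i).2 rfl
  have hκj : κ j = 1 := (hj' j).2 rfl
  have hne : i ≠ j := fun he => by rw [he, hκj] at hκi; exact absurd hκi (by decide)
  have hrest : ∀ k, k ≠ i → k ≠ j → slot A e h (κ k) = A := fun k hki hkj => by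
    have a : κ k = 0 := by
      have := mt (hi' k).1 hki
      have := mt (hj' k).1 hkj
      omega
    rw [a]; rfl
  suffices key : ∀ u v : Fin K, u < v → (∀ k, k ≠ u → k ≠ v → slot A e h (κ k) = A) →
      (slot A e h (κ u) = h ∧ slot A e h (κ v) = e ∨ slot A e h (κ u) = e ∧ slot A e h (κ v) = h) →
      nsq (term A e h R κ) (A ^ (2 * R + K)) ≤ 7 * D ^ 2 / (t : ℝ) ^ 970 by
    rcases lt_or_gt_of_ne hne with hlt | hlt
    · exact key i j hlt hrest (Or.inl ⟨by rw [hκi]; rfl, by rw [hκj]; rfl⟩)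
    · exact key j i hlt (fun k a c => hrest k c a) (Or.inr ⟨by rw [hκj]; rfl, by rw [hκi]; rfl⟩)
  intro u v huv hr hxy
  set x := slot A e h (κ u) with hx
  set y := slot A e h (κ v) with hy
  set m : ℕ := (v : ℕ) - (u : ℕ) - 1 with hm
  have hv := v.isLt
  have huv' : (u : ℕ) < v := huv
  have hmW : m ≤ t ^ 60 := by omega
  have core := pair_core H hxy hmW
  obtain ⟨R', hR'⟩ := Nat.exists_eq_add_of_le hR
  set W := t ^ 60 with hW
  set mid := A ^ W * x * A ^ m * y * A ^ W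
  set mref := A ^ W * A * A ^ m * A * A ^ W
  have hterm : term A e h R κ = A ^ (R' + u) * mid * A ^ (K - 1 - v + R') := by
    rw [term, wordL_two_slots A (fun i => slot A e h (κ i)) u v huv hr, hR']
    simp only [mid, ← hx, ← hy, ← hm, ← mul_assoc, ← pow_add]
    rw [show R' + (u : ℕ) + W = W + R' + u by omega]
    simp only [mul_assoc, ← pow_add]
    rw [show W + (K - 1 - (v : ℕ) + R') = K - 1 - (v : ℕ) + (W + R') by omega]
  have href : A ^ (2 * R + K) = A ^ (R' + u) * mref * A ^ (K - 1 - v + R') := by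
    simp only [mref, mul_assoc, ← pow_succ', ← pow_add]
    congr 1
    omega
  rw [hterm, href]
  have hdx : Dom x A := slot_dom H _
  have hdy : Dom y A := slot_dom H _
  have pmref : IsProb mref := ((((hA.pow W).mul hA).mul (hA.pow m)).mul hA).mul (hA.pow W)
  have pmid : Dom mid mref :=
    Dom.mul (((((hA.pow W).mul hA).mul (hA.pow m)).mul hA)).1 (hA.pow W).1
      (Dom.mul (((hA.pow W).mul hA).mul (hA.pow m)).1 hA.1
        (Dom.mul ((hA.pow W).mul hA).1 (hA.pow m).1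
          (Dom.mul (hA.pow W).1 hA.1 (dom_self _) hdx) (dom_self _)) hdy) (dom_self _)
  refine (nsq_mul ((hA.pow _).mul pmref).1 (hA.pow _).1
    (Dom.mul (hA.pow _).1 pmref.1 (dom_self _) pmid) (dom_self _)).trans ?_
  rw [nsq_self (hA.pow _), mul_one]
  refine (nsq_mul (hA.pow _).1 pmref.1 (dom_self _) pmid).trans ?_
  rw [nsq_self (hA.pow _), one_mul]
  exact core

/-- The weight of a slot. -/
def wgt : Fin 3 → ℕ := ![0, 600, 360]

theorem sum_wgt {K : ℕ} (κ : Fin K → Fin 3) :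
    ∑ i, wgt (κ i) = 600 * cnt κ 1 + 360 * cnt κ 2 := by
  have : ∀ i, wgt (κ i) = 600 * (if κ i = 1 then 1 else 0) + 360 * (if κ i = 2 then 1 else 0) := by
    intro i
    generalize κ i = j
    fin_cases j <;> simp [wgt]
  simp only [this, Finset.sum_add_distrib, ← Finset.mul_sum, cnt, Finset.card_filter]

/-- The crude bound of a term. -/
theorem nsq_term_crude (H : Near b D t A Z e h) (R : ℕ) {K : ℕ} (κ : Fin K → Fin 3) {n : ℕ}
    (hn : n ≤ 600 * cnt κ 1 + 360 * cnt κ 2) :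
    nsq (term A e h R κ) (A ^ (2 * R + K)) ≤ D ^ K / (t : ℝ) ^ n := by
  have hA := H.probA
  have hdom : Dom (wordL fun i => slot A e h (κ i)) (wordL fun _ : Fin K => A) :=
    wordL_dom (fun _ => hA) fun i => slot_dom H _
  have hAK : IsProb (wordL fun _ : Fin K => A) := wordL_isProb fun _ => hA
  rw [term, term_ref]
  refine (nsq_mul ((hA.pow R).mul hAK).1 (hA.pow R).1
    (Dom.mul (hA.pow R).1 hAK.1 (dom_self _) hdom) (dom_self _)).trans ?_
  rw [nsq_self (hA.pow R), mul_one]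
  refine (nsq_mul (hA.pow R).1 hAK.1 (dom_self _) hdom).trans ?_
  rw [nsq_self (hA.pow R), one_mul]
  refine (nsq_wordL (fun _ => hA) fun i => slot_dom H _).trans ?_
  have hstep : ∀ i, nsq (slot A e h (κ i)) A ≤ D / (t : ℝ) ^ wgt (κ i) := by
    intro i
    generalize κ i = j
    fin_cases j
    · simpa [slot, wgt, nsq_self hA] using H.one_le_D
    · exact H.nsq_e
    · exact H.nsq_h
  refine (Finset.prod_le_prod (fun i _ => nsq_nonneg hA.1) fun i _ => hstep i).trans ?_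
  rw [Finset.prod_div_distrib, Finset.prod_pow_eq_pow_sum, Finset.prod_const, Finset.card_univ,
    Fintype.card_fin, sum_wgt]
  exact div_pow_le_div_pow H.t_pos (pow_nonneg H.D_nonneg K) hn

theorem abs_chi {K : ℕ} {s : Fin K → ℝ} (hs : ∀ i, |s i| = 1) (κ : Fin K → Fin 3) :
    |chi s κ| = 1 := by
  rw [chi, Finset.abs_prod]
  refine Finset.prod_eq_one fun i _ => ?_
  split_ifs <;> simp [hs]

theorem bdd_term (H : Near b D t A Z e h) (R : ℕ) {K : ℕ} (κ : Fin K → Fin 3) :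
    Bdd (b ^ K) (term A e h R κ) (A ^ (2 * R + K)) := by
  have hA := H.probA
  have hb : (0 : ℝ) ≤ b := zero_le_one.trans H.one_le_b
  have hs : ∀ i, Bdd b (slot A e h (κ i)) A := by
    intro i
    generalize κ i = j
    fin_cases j
    · exact Bdd.mono hA.1 H.one_le_b (bdd_self hA.1)
    · exact H.bdd_e
    · exact H.bdd_h
  have hw : Bdd (b ^ K) (wordL fun i => slot A e h (κ i)) (wordL fun _ : Fin K => A) := by
    simpa using bdd_wordL (a := fun _ : Fin K => b) (fun _ => hb) hs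
  rw [term, term_ref]
  simpa using Bdd.mul (by positivity) zero_le_one
    (Bdd.mul zero_le_one (pow_nonneg hb K) (bdd_self (hA.pow R).1) hw) (bdd_self (hA.pow R).1)

end Vale.Agent.P321.BasePair
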