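import Mathlib

/-!
# P321 module 3a: binomial estimates for the smoothing lemma
-/

namespace Vale.Agent.P321

open Finset

/-- Weighted absolute sum with binomial weights. -/
noncomputable def binN (w : ℕ) (f : ℕ → ℝ) : ℝ :=
  ∑ j ∈ range (w + 1), (w.choose j : ℝ) * |f j|

theorem binN_nonneg (w : ℕ) (f : ℕ → ℝ) : 0 ≤ binN w f :=
  sum_nonneg fun _ _ => by positivity

theorem binN_succ (w : ℕ) (f : ℕ → ℝ) :
    binN (w + 1) f = binN w f + binN w (fun j => f (j + 1)) := by
  simpa [binN] using Finset.sum_choose_succ_mul (fun j _ => |f j|) w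

/-- `z.choose (i - j)`, zero for `i < j`. -/
noncomputable def shiftChoose (z i j : ℕ) : ℝ := if j ≤ i then (z.choose (i - j) : ℝ) else 0

theorem shiftChoose_succ (z i j : ℕ) :
    shiftChoose (z + 1) i j = shiftChoose z i j + shiftChoose z i (j + 1) := by
  rcases lt_trichotomy j i with h | h | h
  · obtain ⟨d, rfl⟩ : ∃ d, i = j + 1 + d := ⟨i - (j + 1), by omega⟩
    have e1 : j + 1 + d - j = d + 1 := by omega
    have e2 : j + 1 + d - (j + 1) = d := by omega
    simp [shiftChoose, e1, e2, Nat.choose_succ_succ', h.le]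
    ring
  · subst h; simp [shiftChoose]
  · simp [shiftChoose, not_le.2 h, not_le.2 (Nat.lt_succ_of_lt h)]

theorem shiftChoose_zero (i j : ℕ) : shiftChoose 0 i j = if j = i then 1 else 0 := by
  rcases lt_trichotomy j i with h | h | h
  · obtain ⟨d, rfl⟩ : ∃ d, i = j + 1 + d := ⟨i - (j + 1), by omega⟩
    have e1 : j + 1 + d - j = d + 1 := by omega
    simp [shiftChoose, e1]
    omega
  · subst h; simp [shiftChoose]
  · simp [shiftChoose, not_le.2 h, h.ne']

theorem choose_mid_sq_upper (m : ℕ) : m.centralBinom ^ 2 * (m + 1) ≤ 16 ^ m := by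
  induction m with
  | zero => simp
  | succ m ih =>
    refine Nat.le_of_mul_le_mul_left (c := (m + 1) ^ 3) ?_ (pow_pos (Nat.succ_pos m) 3)
    have e := Nat.succ_mul_centralBinom_succ m
    calc (m + 1) ^ 3 * ((m + 1).centralBinom ^ 2 * (m + 1 + 1))
        = ((m + 1) * (m + 1).centralBinom) ^ 2 * ((m + 1) * (m + 2)) := by ring
      _ = 4 * ((2 * m + 1) ^ 2 * (m + 2)) * (m.centralBinom ^ 2 * (m + 1)) := by rw [e]; ring
      _ ≤ 4 * (4 * (m + 1) ^ 3) * 16 ^ m :=
          Nat.mul_le_mul (Nat.mul_le_mul_left 4 (by ring_nf; omega)) ih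
      _ = (m + 1) ^ 3 * 16 ^ (m + 1) := by ring

theorem choose_mid_sq_lower (m : ℕ) : 16 ^ m ≤ m.centralBinom ^ 2 * (4 * m + 1) := by
  induction m with
  | zero => simp
  | succ m ih =>
    refine Nat.le_of_mul_le_mul_left (c := (4 * m + 1) * (m + 1) ^ 2) ?_
      (Nat.mul_pos (Nat.succ_pos _) (pow_pos (Nat.succ_pos m) 2))
    have e := Nat.succ_mul_centralBinom_succ m
    calc (4 * m + 1) * (m + 1) ^ 2 * 16 ^ (m + 1)
        = 4 * ((4 * m + 1) * 4 * (m + 1) ^ 2) * 16 ^ m := by ring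
      _ ≤ 4 * ((2 * m + 1) ^ 2 * (4 * (m + 1) + 1)) * (m.centralBinom ^ 2 * (4 * m + 1)) :=
          Nat.mul_le_mul (Nat.mul_le_mul_left 4 (by ring_nf; omega)) ih
      _ = (4 * m + 1) * ((m + 1) * (m + 1).centralBinom) ^ 2 * (4 * (m + 1) + 1) := by
          rw [e]; ring
      _ = _ := by ring

theorem centralBinom_succ_half (m : ℕ) :
    (m + 1).centralBinom = 2 * (2 * m + 1).choose m := by
  rw [Nat.centralBinom, show 2 * (m + 1) = 2 * m + 1 + 1 by ring, Nat.choose_succ_succ',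
    Nat.choose_symm_half, two_mul ((2 * m + 1).choose m)]

theorem choose_sq_le_sm (n k : ℕ) : n.choose k ^ 2 * (n + 1) ≤ 2 * 4 ^ n := by
  refine (Nat.mul_le_mul_right _ (Nat.pow_le_pow_left (Nat.choose_le_middle k n) 2)).trans ?_
  rcases Nat.even_or_odd' n with ⟨m, rfl | rfl⟩
  · have h := choose_mid_sq_upper m
    rw [Nat.centralBinom] at h
    rw [show 2 * m / 2 = m by omega]
    calc (2 * m).choose m ^ 2 * (2 * m + 1) ≤ (2 * m).choose m ^ 2 * (2 * (m + 1)) := by
          gcongr; omega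
      _ ≤ _ := by rw [pow_mul]; norm_num; linarith
  · have h := choose_mid_sq_upper (m + 1)
    rw [centralBinom_succ_half] at h
    rw [show (2 * m + 1) / 2 = m by omega, pow_succ 4 (2 * m), pow_mul]
    norm_num
    rw [pow_succ 16 m] at h
    nlinarith [Nat.zero_le ((2 * m + 1).choose m ^ 2)]

theorem choose_le_real (n k : ℕ) :
    (n.choose k : ℝ) ≤ 2 * 2 ^ n / Real.sqrt ((n : ℝ) + 1) := by
  rw [le_div_iff₀ (by positivity)]
  refine le_of_sq_le_sq ?_ (by positivity)
  have h : (n.choose k : ℝ) ^ 2 * ((n : ℝ) + 1) ≤ 2 * 4 ^ n := by exact_mod_cast choose_sq_le_sm n k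
  rw [mul_pow, mul_pow, Real.sq_sqrt (by positivity), ← pow_mul, mul_comm n 2, pow_mul]
  norm_num
  nlinarith [pow_nonneg (by norm_num : (0 : ℝ) ≤ 4) n]

theorem choose_mid_ge_real (m : ℕ) :
    (2 : ℝ) ^ (2 * m + 1) ≤ ((2 * m + 1).choose m : ℝ) * Real.sqrt (4 * (m : ℝ) + 5) := by
  refine le_of_sq_le_sq ?_ (by positivity)
  have h := choose_mid_sq_lower (m + 1)
  rw [centralBinom_succ_half] at h
  have h' : (16 : ℝ) ^ (m + 1) ≤
      (2 * ((2 * m + 1).choose m : ℝ)) ^ 2 * (4 * ((m : ℝ) + 1) + 1) := by exact_mod_cast h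
  rw [mul_pow, Real.sq_sqrt (by positivity), pow_succ (2 : ℝ) (2 * m), pow_mul]
  rw [pow_succ (16 : ℝ) m] at h'
  norm_num
  rw [mul_pow, ← pow_mul, mul_comm m 2, pow_mul]
  norm_num
  nlinarith

theorem sum_abs_choose_diff (z n : ℕ) :
    ∑ k ∈ range n, |(z.choose (k + 1) : ℝ) - z.choose k| ≤ 2 * z.choose (z / 2) := by
  suffices h : ∀ n, ∑ k ∈ range n, |(z.choose (k + 1) : ℝ) - z.choose k| ≤
      if n ≤ z / 2 then (z.choose n : ℝ) else 2 * (z.choose (z / 2) : ℝ) - z.choose n by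
    have h1 := h n
    have h2 : (z.choose n : ℝ) ≤ z.choose (z / 2) := by exact_mod_cast Nat.choose_le_middle n z
    have h3 : (0 : ℝ) ≤ z.choose n := by positivity
    have h4 : (0 : ℝ) ≤ z.choose (z / 2) := by positivity
    split_ifs at h1 <;> linarith
  intro n
  induction n with
  | zero => simp
  | succ n ih =>
    rw [sum_range_succ]
    by_cases hn : n < z / 2
    · have hm : (z.choose n : ℝ) ≤ z.choose (n + 1) := by
        exact_mod_cast Nat.choose_le_succ_of_lt_half_left hn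
      rw [if_pos hn.le] at ih
      rw [if_pos (show n + 1 ≤ z / 2 by omega), abs_of_nonneg (sub_nonneg.2 hm)]
      linarith
    · have hm : z.choose (n + 1) ≤ z.choose n := by
        refine Nat.le_of_mul_le_mul_right ?_ (Nat.succ_pos n)
        rw [Nat.choose_succ_right_eq]
        exact Nat.mul_le_mul_left _ (by omega)
      have hm' : (z.choose (n + 1) : ℝ) ≤ z.choose n := by exact_mod_cast hm
      rw [if_neg (by omega), abs_of_nonpos (sub_nonpos.2 hm')]
      split_ifs at ih with h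
      · have : n = z / 2 := by omega
        subst this
        linarith
      · linarith

theorem binN_shift_le (w z m : ℕ) :
    binN w (fun j => shiftChoose z (m + 1) j - shiftChoose z m j) ≤
      12 * 2 ^ (w + z) / (Real.sqrt ((w : ℝ) + 1) * Real.sqrt ((z : ℝ) + 1)) := by
  have hw : ∀ j, (w.choose j : ℝ) ≤ 2 * 2 ^ w / Real.sqrt ((w : ℝ) + 1) := choose_le_real w
  set F := fun j => |shiftChoose z (m + 1) j - shiftChoose z m j|
  have hsum : ∑ j ∈ range (w + 1), F j ≤ 3 * (z.choose (z / 2) : ℝ) := by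
    calc ∑ j ∈ range (w + 1), F j ≤ ∑ j ∈ range (m + 2 + (w + 1)), F j :=
          sum_le_sum_of_subset_of_nonneg (range_subset_range.2 (by omega))
            fun _ _ _ => abs_nonneg _
      _ = ∑ j ∈ range (m + 1 + 1), F j := by
          rw [sum_range_add _ (m + 2), add_eq_left]
          refine sum_eq_zero fun j _ => ?_
          simp [F, shiftChoose, show ¬ m + 2 + j ≤ m + 1 by omega, show ¬ m + 2 + j ≤ m by omega]
      _ = ∑ k ∈ range (m + 1), |(z.choose (k + 1) : ℝ) - z.choose k| + 1 := by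
          rw [sum_range_succ, ← sum_range_reflect
            (fun k => |(z.choose (k + 1) : ℝ) - z.choose k|) (m + 1)]
          congr 1
          · refine sum_congr rfl fun j hj => ?_
            rw [mem_range] at hj
            simp [F, shiftChoose, show j ≤ m + 1 by omega, show j ≤ m by omega,
              show m + 1 - j = m - j + 1 by omega]
          · simp [F, shiftChoose]
      _ ≤ _ := by
          have : (1 : ℝ) ≤ z.choose (z / 2) := by
            exact_mod_cast Nat.choose_pos (Nat.div_le_self z 2)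
          linarith [sum_abs_choose_diff z (m + 1)]
  calc binN w _ ≤ ∑ j ∈ range (w + 1), 2 * 2 ^ w / Real.sqrt ((w : ℝ) + 1) * F j :=
        sum_le_sum fun j _ => mul_le_mul_of_nonneg_right (hw j) (abs_nonneg _)
    _ ≤ 2 * 2 ^ w / Real.sqrt ((w : ℝ) + 1) * (3 * (2 * 2 ^ z / Real.sqrt ((z : ℝ) + 1))) := by
        rw [← mul_sum]
        refine mul_le_mul_of_nonneg_left ?_ (by positivity)
        exact hsum.trans (by linarith [choose_le_real z (z / 2)])
    _ = _ := by
        rw [pow_add]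
        field_simp
        ring

theorem inv_sqrt_mul_le {a b : ℝ} (ha : 0 < a) (hb : 0 < b) :
    1 / (Real.sqrt a * Real.sqrt b) ≤ (1 / a + 1 / b) / 2 := by
  have h := sq_nonneg (1 / Real.sqrt a - 1 / Real.sqrt b)
  have e1 : (1 / Real.sqrt a) ^ 2 = 1 / a := by rw [div_pow, one_pow, Real.sq_sqrt ha.le]
  have e2 : (1 / Real.sqrt b) ^ 2 = 1 / b := by rw [div_pow, one_pow, Real.sq_sqrt hb.le]
  have e3 : 1 / (Real.sqrt a * Real.sqrt b) = 1 / Real.sqrt a * (1 / Real.sqrt b) :=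
    (one_div_mul_one_div _ _).symm
  nlinarith

theorem binom_inv_le {p q : ℝ} (hp : 0 < p) (hq : 0 ≤ q) (hpq : p + q = 1) (n : ℕ) :
    ∑ z ∈ range (n + 1), p ^ z * q ^ (n - z) * n.choose z / ((z : ℝ) + 1) ≤
      1 / (p * ((n : ℝ) + 1)) := by
  rw [le_div_iff₀ (by positivity), sum_mul]
  calc ∑ z ∈ range (n + 1), p ^ z * q ^ (n - z) * n.choose z / ((z : ℝ) + 1) * (p * ((n : ℝ) + 1))
      = ∑ z ∈ range (n + 1), p ^ (z + 1) * q ^ (n + 1 - (z + 1)) * (n + 1).choose (z + 1) := by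
        refine sum_congr rfl fun z _ => ?_
        have e : ((n + 1).choose (z + 1) : ℝ) * ((z : ℝ) + 1) = ((n : ℝ) + 1) * n.choose z := by
          exact_mod_cast (Nat.add_one_mul_choose_eq n z).symm
        have hz : ((z : ℝ) + 1) ≠ 0 := by positivity
        rw [show n + 1 - (z + 1) = n - z by omega, pow_succ, div_mul_eq_mul_div, div_eq_iff hz]
        linear_combination (-(p ^ z * q ^ (n - z) * p)) * e
    _ ≤ ∑ z ∈ range (n + 1 + 1), p ^ z * q ^ (n + 1 - z) * (n + 1).choose z := by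
        rw [sum_range_succ' _ (n + 1)]
        have : 0 ≤ p ^ 0 * q ^ (n + 1 - 0) * (((n + 1).choose 0 : ℕ) : ℝ) := by positivity
        linarith
    _ = 1 := by rw [← add_pow, hpq, one_pow]

/-- The smoothing estimate for the middle binomial coefficient. -/
theorem smoothing_sum {t : ℝ} (ht0 : 0 < t) (ht1 : t < 1) (m : ℕ) :
    ∑ p ∈ antidiagonal (2 * m + 1), ((2 * m + 1).choose p.1 : ℝ) * (t ^ p.1 * (1 - t) ^ p.2 *
        binN p.2 (fun j => shiftChoose p.1 (m + 1) j - shiftChoose p.1 m j)) ≤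
      9 * (1 / t + 1 / (1 - t)) / Real.sqrt ((m : ℝ) + 1) * (2 * m + 1).choose m := by
  have hu : 0 < 1 - t := by linarith
  set n := 2 * m + 1
  have hA := binom_inv_le ht0 hu.le (by ring) n
  have hB := binom_inv_le hu ht0.le (by ring) n
  rw [← Nat.sum_antidiagonal_eq_sum_range_succ
    (fun a b => t ^ a * (1 - t) ^ b * n.choose a / ((a : ℝ) + 1)) n] at hA
  rw [← Nat.sum_antidiagonal_eq_sum_range_succ
    (fun a b => (1 - t) ^ a * t ^ b * n.choose a / ((a : ℝ) + 1)) n] at hB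
  rw [← Finset.Nat.sum_antidiagonal_swap] at hB
  have hle : ∀ p ∈ antidiagonal n, (n.choose p.1 : ℝ) * (t ^ p.1 * (1 - t) ^ p.2 *
      binN p.2 (fun j => shiftChoose p.1 (m + 1) j - shiftChoose p.1 m j)) ≤
      6 * 2 ^ n * (t ^ p.1 * (1 - t) ^ p.2 * n.choose p.1 / ((p.1 : ℝ) + 1) +
        (1 - t) ^ p.swap.1 * t ^ p.swap.2 * n.choose p.swap.1 / ((p.swap.1 : ℝ) + 1)) := by
    intro p hp
    rw [HasAntidiagonal.mem_antidiagonal] at hp
    have h1 := binN_shift_le p.2 p.1 m
    rw [show p.2 + p.1 = n by omega, div_eq_mul_one_div (12 * (2 : ℝ) ^ n)] at h1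
    have h2 := inv_sqrt_mul_le (a := (p.2 : ℝ) + 1) (b := (p.1 : ℝ) + 1) (by positivity)
      (by positivity)
    have h3 : binN p.2 (fun j => shiftChoose p.1 (m + 1) j - shiftChoose p.1 m j) ≤
        6 * 2 ^ n * (1 / ((p.1 : ℝ) + 1) + 1 / ((p.2 : ℝ) + 1)) := by
      refine h1.trans ?_
      have h0 : (0 : ℝ) ≤ 12 * 2 ^ n := by positivity
      nlinarith [mul_le_mul_of_nonneg_left h2 h0]
    refine (mul_le_mul_of_nonneg_left (mul_le_mul_of_nonneg_left h3 (by positivity))
      (by positivity)).trans (le_of_eq ?_)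
    simp only [Prod.fst_swap, Prod.snd_swap]
    rw [← Nat.choose_symm_of_eq_add hp.symm]
    field_simp
  refine (sum_le_sum hle).trans ?_
  rw [← mul_sum, sum_add_distrib]
  refine (mul_le_mul_of_nonneg_left (add_le_add hA hB) (by positivity)).trans ?_
  have hc := choose_mid_ge_real m
  have hs : Real.sqrt (4 * (m : ℝ) + 5) ≤ 3 * Real.sqrt ((m : ℝ) + 1) := by
    rw [show (3 : ℝ) * Real.sqrt ((m : ℝ) + 1) = Real.sqrt (9 * ((m : ℝ) + 1)) by
      rw [Real.sqrt_mul (by norm_num), show (9 : ℝ) = 3 ^ 2 by norm_num,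
        Real.sqrt_sq (by norm_num)]]
    exact Real.sqrt_le_sqrt (by linarith [(m.cast_nonneg : (0 : ℝ) ≤ m)])
  have hpos : 0 < Real.sqrt ((m : ℝ) + 1) := by positivity
  have hss := Real.mul_self_sqrt (show (0 : ℝ) ≤ (m : ℝ) + 1 by positivity)
  have hc2 : (2 : ℝ) ^ n ≤ (n.choose m : ℝ) * (3 * Real.sqrt ((m : ℝ) + 1)) :=
    hc.trans (mul_le_mul_of_nonneg_left hs (by positivity))
  have hn : (n : ℝ) + 1 = 2 * ((m : ℝ) + 1) := by simp [n]; ring
  rw [hn]
  calc 6 * (2 : ℝ) ^ n * (1 / (t * (2 * ((m : ℝ) + 1))) + 1 / ((1 - t) * (2 * ((m : ℝ) + 1))))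
      = 3 * (1 / t + 1 / (1 - t)) / ((m : ℝ) + 1) * 2 ^ n := by field_simp; ring
    _ ≤ 3 * (1 / t + 1 / (1 - t)) / ((m : ℝ) + 1) *
        ((n.choose m : ℝ) * (3 * Real.sqrt ((m : ℝ) + 1))) :=
      mul_le_mul_of_nonneg_left hc2 (by positivity)
    _ = _ := by
      rw [div_mul_eq_mul_div, div_mul_eq_mul_div, div_eq_div_iff (by positivity) hpos.ne']
      linear_combination (9 * (1 / t + 1 / (1 - t)) * (n.choose m : ℝ)) * hss

end Vale.Agent.P321
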