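import Vale.Agent.P321.Algebra
import Vale.Agent.P321.SmoothingBinom

/-!
# P321 module 3: smoothing

An overlap of `A ^ g` and `A ^ (g + 1)` makes the law of `A ^ a` insensitive to shifts of `a`:
write both as mixtures with a common part of mass `t`, expand a product of `S = 2m+1` segments
symmetrised over the order of the segments (powers commute), so that the `z` segments in the
common part contribute `choose z (i - j)`, and compare `i = m` with `i = m + 1`
(`SmoothingBinom`).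
-/

namespace Vale.Agent.P321

open Finset

theorem tmSets_subset (r : ℕ) :
    (tmSets r).1 ⊆ Finset.range (2 ^ r) ∧ (tmSets r).2 ⊆ Finset.range (2 ^ r) := by
  induction r with
  | zero => simp [tmSets]
  | succ r ih =>
    obtain ⟨h1, h2⟩ := ih
    simp only [tmSets, subset_iff, mem_union, mem_image, mem_range] at h1 h2 ⊢
    rw [pow_succ]
    constructor <;> rintro x (hx | ⟨a, ha, rfl⟩)
    · have := h1 hx; omega
    · have := h2 ha; omega
    · have := h2 hx; omega
    · have := h1 ha; omega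

theorem tmSets_disjoint (r : ℕ) : Disjoint (tmSets r).1 (tmSets r).2 := by
  induction r with
  | zero => simp [tmSets]
  | succ r ih =>
    obtain ⟨h1, h2⟩ := tmSets_subset r
    simp only [subset_iff, mem_range] at h1 h2
    rw [disjoint_left] at ih
    simp only [tmSets, disjoint_left, mem_union, mem_image]
    rintro x (hx | ⟨a, ha, rfl⟩) (hy | ⟨b, hb, hab⟩)
    · exact ih hx hy
    · have := h1 hx; omega
    · have := h2 hy; omega
    · obtain rfl : b = a := by omega
      exact ih hb ha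

theorem tmSets_nonempty (r : ℕ) : (tmSets r).1.Nonempty := by
  induction r with
  | zero => simp [tmSets]
  | succ r ih => exact ih.mono subset_union_left

namespace Smoothing

theorem val_add' (X Y : Law) (y : TW) : val (X + Y) y = val X y + val Y y := by
  simp [val, MonoidAlgebra.coeff_add]

theorem val_sub' (X Y : Law) (y : TW) : val (X - Y) y = val X y - val Y y := by
  rw [eq_sub_iff_add_eq, ← val_add', sub_add_cancel]

theorem mem_supp' {X : Law} {y : TW} : y ∈ supp X ↔ val X y ≠ 0 := by simp [supp, val]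

theorem mass_eq_sum' {X : Law} {s : Finset TW} (h : supp X ⊆ s) :
    mass X = ∑ y ∈ s, val X y :=
  sum_subset h fun y _ hy => by simpa [mem_supp'] using hy

theorem l1_eq_sum' {X : Law} {s : Finset TW} (h : supp X ⊆ s) :
    l1 X = ∑ y ∈ s, |val X y| :=
  sum_subset h fun y _ hy => by simpa [mem_supp'] using hy

theorem l1_of_pos' {X : Law} (h : Pos X) : l1 X = mass X :=
  sum_congr rfl fun y _ => abs_of_nonneg (h y)

/-- A common part of prescribed mass of two laws which are not too far apart. -/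
theorem common_part {X Y : Law} {t : ℝ} (hX : IsProb X) (hY : IsProb Y) (ht : 0 < t)
    (h : l1 (X - Y) ≤ 2 - 2 * t) :
    ∃ M : Law, l1 M ≤ t ∧ l1 (X - M) ≤ 1 - t ∧ l1 (Y - M) ≤ 1 - t := by
  classical
  set s := supp X ∪ supp Y
  set f : TW → ℝ := fun y => min (val X y) (val Y y)
  set μ := ∑ y ∈ s, f y
  have hμ : t ≤ μ := by
    have hd : supp (X - Y) ⊆ s := by
      intro y hy
      rw [mem_supp', val_sub'] at hy
      by_contra hs
      simp only [s, mem_union, mem_supp', not_or, not_not] at hs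
      simp [hs] at hy
    rw [l1_eq_sum' hd] at h
    have h1 : ∑ y ∈ s, val X y = 1 := (mass_eq_sum' subset_union_left).symm.trans hX.2
    have h2 : ∑ y ∈ s, val Y y = 1 := (mass_eq_sum' subset_union_right).symm.trans hY.2
    have h3 : 2 * μ = ∑ y ∈ s, val X y + ∑ y ∈ s, val Y y - ∑ y ∈ s, |val (X - Y) y| := by
      rw [← sum_add_distrib, ← sum_sub_distrib, mul_sum]
      refine sum_congr rfl fun y _ => ?_
      rw [val_sub']
      simp only [f]
      rcases le_total (val X y) (val Y y) with hxy | hxy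
      · rw [min_eq_left hxy, abs_of_nonpos (by linarith)]; ring
      · rw [min_eq_right hxy, abs_of_nonneg (by linarith)]; ring
    linarith
  have hμ0 : 0 < μ := ht.trans_le hμ
  set M : Law := ∑ y ∈ s, MonoidAlgebra.single y (t / μ * f y)
  have hval : ∀ y, val M y = if y ∈ s then t / μ * f y else 0 := by
    intro y
    simp [M, val, MonoidAlgebra.coeff_sum, Finsupp.single_apply]
  have hle : ∀ y, 0 ≤ val M y ∧ val M y ≤ val X y ∧ val M y ≤ val Y y := by
    intro y
    rw [hval]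
    have hc1 : t / μ ≤ 1 := (div_le_one hμ0).2 hμ
    have hc0 : 0 ≤ t / μ := by positivity
    have hf0 : 0 ≤ f y := le_min (hX.1 y) (hY.1 y)
    have hfle : t / μ * f y ≤ f y := mul_le_of_le_one_left hf0 hc1
    split_ifs
    · exact ⟨mul_nonneg hc0 hf0, hfle.trans (min_le_left _ _), hfle.trans (min_le_right _ _)⟩
    · exact ⟨le_rfl, hX.1 y, hY.1 y⟩
  have hmass : mass M = t := by
    have hs : supp M ⊆ s := by
      intro y hy
      rw [mem_supp', hval] at hy
      by_contra hy'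
      simp [hy'] at hy
    rw [mass_eq_sum' hs]
    calc ∑ y ∈ s, val M y = t / μ * μ := by
          rw [mul_sum]; exact sum_congr rfl fun y hy => by rw [hval, if_pos hy]
      _ = t := by field_simp
  have hpX : Pos (X - M) := fun y => by rw [val_sub']; linarith [hle y]
  have hpY : Pos (Y - M) := fun y => by rw [val_sub']; linarith [hle y]
  refine ⟨M, ?_, ?_, ?_⟩
  · rw [l1_of_pos' fun y => (hle y).1, hmass]
  · rw [l1_of_pos' hpX, mass_sub, hX.2, hmass]
  · rw [l1_of_pos' hpY, mass_sub, hY.2, hmass]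

/-- Expansion of `S` segments, symmetrised over the order of the segments. -/
theorem expand {A M : Law} {g : ℕ} {t : ℝ} (ht1 : t ≤ 1)
    (hM : l1 M ≤ t) (hU : l1 (A ^ g - M) ≤ 1 - t) (hV : l1 (A ^ (g + 1) - M) ≤ 1 - t) (S : ℕ) :
    ∀ c : ℕ → ℕ → ℝ, (∀ z j, c (z + 1) j = c z j + c z (j + 1)) →
      l1 (∑ i ∈ range (S + 1), S.choose i • (c 0 i • A ^ (S * g + i))) ≤
        ∑ p ∈ antidiagonal S, (S.choose p.1 : ℝ) * (t ^ p.1 * (1 - t) ^ p.2 *
          binN p.2 (c p.1)) := by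
  induction S with
  | zero =>
    intro c _
    simp [binN, l1_smul, l1_of_isProb isProb_one]
  | succ S ih =>
    intro c hc
    set E : (ℕ → ℝ) → Law := fun d => ∑ i ∈ range (S + 1), S.choose i • (d i • A ^ (S * g + i))
    set U := A ^ g - M
    set V := A ^ (g + 1) - M
    have hu : (0 : ℝ) ≤ 1 - t := by linarith
    have key : ∑ i ∈ range (S + 1 + 1), (S + 1).choose i • (c 0 i • A ^ ((S + 1) * g + i)) =
        E (c 1) * M + (E (c 0) * U + E (fun j => c 0 (j + 1)) * V) := by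
      have e : E (c 1) = E (c 0) + E (fun j => c 0 (j + 1)) := by
        simp only [E, ← sum_add_distrib]
        exact sum_congr rfl fun i _ => by rw [hc 0 i, add_smul, smul_add]
      rw [Finset.sum_choose_succ_nsmul (fun i _ => c 0 i • A ^ ((S + 1) * g + i)) S, e]
      have e1 : ∑ i ∈ range (S + 1), S.choose i • (c 0 i • A ^ ((S + 1) * g + i)) =
          E (c 0) * A ^ g := by
        simp only [E, sum_mul, smul_mul_assoc, ← pow_add]
        exact sum_congr rfl fun i _ => by rw [show (S + 1) * g + i = S * g + i + g by ring]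
      have e2 : ∑ i ∈ range (S + 1), S.choose i • (c 0 (i + 1) • A ^ ((S + 1) * g + (i + 1))) =
          E (fun j => c 0 (j + 1)) * A ^ (g + 1) := by
        simp only [E, sum_mul, smul_mul_assoc, ← pow_add]
        exact sum_congr rfl fun i _ => by
          rw [show (S + 1) * g + (i + 1) = S * g + i + (g + 1) by ring]
      rw [e1, e2, show A ^ g = M + U by simp [U], show A ^ (g + 1) = M + V by simp [V],
        add_mul, mul_add, mul_add]
      abel
    rw [key]
    have i1 := ih (fun z => c (z + 1)) fun z j => hc (z + 1) j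
    have i2 := ih c hc
    have i3 := ih (fun z j => c z (j + 1)) fun z j => hc z (j + 1)
    have b : ∀ {Z W : Law} {x y : ℝ}, l1 Z ≤ x → l1 W ≤ y → l1 (Z * W) ≤ x * y := by
      intro Z W x y hx hy
      exact (l1_mul Z W).trans (mul_le_mul hx hy (l1_nonneg W) ((l1_nonneg Z).trans hx))
    refine (l1_add _ _).trans ((add_le_add (b i1 hM)
      ((l1_add _ _).trans (add_le_add (b i2 hU) (b i3 hV)))).trans (le_of_eq ?_))
    rw [sum_antidiagonal_choose_succ_mul (fun z w => t ^ z * (1 - t) ^ w * binN w (c z)) S,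
      sum_mul, sum_mul, sum_mul, ← sum_add_distrib, ← sum_add_distrib, ← sum_add_distrib]
    refine sum_congr rfl fun p hp => ?_
    rw [HasAntidiagonal.mem_antidiagonal] at hp
    rw [← Nat.choose_symm_of_eq_add hp.symm, binN_succ]
    ring

/-- The shift by one at the special exponents. -/
theorem shift_special {A : Law} {g : ℕ} {t : ℝ} (ht0 : 0 < t) (ht1 : t < 1) (hA : IsProb A)
    (h : l1 (A ^ g - A ^ (g + 1)) ≤ 2 - 2 * t) (m : ℕ) :
    l1 (A ^ ((2 * m + 1) * g + m + 1) - A ^ ((2 * m + 1) * g + m)) ≤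
      9 * (1 / t + 1 / (1 - t)) / Real.sqrt ((m : ℝ) + 1) := by
  obtain ⟨M, hM, hU, hV⟩ := common_part (hA.pow g) (hA.pow (g + 1)) ht0 h
  have hx := expand ht1.le hM hU hV (2 * m + 1)
    (fun z j => shiftChoose z (m + 1) j - shiftChoose z m j)
    fun z j => by simp only [shiftChoose_succ]; ring
  have e : ∑ i ∈ range (2 * m + 1 + 1), (2 * m + 1).choose i •
      ((shiftChoose 0 (m + 1) i - shiftChoose 0 m i) • A ^ ((2 * m + 1) * g + i)) =
      ((2 * m + 1).choose m : ℝ) •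
        (A ^ ((2 * m + 1) * g + m + 1) - A ^ ((2 * m + 1) * g + m)) := by
    rw [sum_eq_add_of_mem (m + 1) m (by simp; omega) (by simp; omega) (by omega)]
    · simp only [shiftChoose_zero, if_true, if_neg (show ¬ m = m + 1 by omega),
        if_neg (show ¬ m + 1 = m by omega), sub_zero, zero_sub, one_smul, neg_smul, smul_neg]
      rw [Nat.choose_symm_half, ← Nat.cast_smul_eq_nsmul ℝ, ← Nat.cast_smul_eq_nsmul ℝ,
        ← sub_eq_add_neg, ← smul_sub, add_assoc _ m 1]
    · intro i _ hi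
      simp [shiftChoose_zero, hi.1, hi.2]
  rw [e, l1_smul, Nat.abs_cast] at hx
  have hb : (0 : ℝ) < (2 * m + 1).choose m := by exact_mod_cast Nat.choose_pos (by omega)
  refine le_of_mul_le_mul_left ((hx.trans (smoothing_sum ht0 ht1 m)).trans ?_) hb
  rw [mul_comm]

theorem l1_sub_le' (X Y : Law) : l1 (X - Y) ≤ l1 X + l1 Y := by
  rw [sub_eq_add_neg]
  exact (l1_add X (-Y)).trans_eq (by rw [l1_neg])

theorem l1_pow' {A : Law} (hA : IsProb A) (n : ℕ) : l1 (A ^ n) = 1 := l1_of_isProb (hA.pow n)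

/-- The shift by one at every exponent. -/
theorem shift_one {A : Law} {g a : ℕ} {t : ℝ} (ht0 : 0 < t) (ht1 : t < 1) (hA : IsProb A)
    (hg : 1 ≤ g) (ha : 1 ≤ a) (h : l1 (A ^ g - A ^ (g + 1)) ≤ 2 - 2 * t) :
    l1 (A ^ (a + 1) - A ^ a) ≤ 18 * (1 / t + 1 / (1 - t)) * Real.sqrt ((g : ℝ) / a) := by
  have hu : 0 < 1 - t := by linarith
  have hK : 1 ≤ 1 / t + 1 / (1 - t) :=
    (one_le_one_div ht0 ht1.le).trans (le_add_of_nonneg_right (by positivity))
  set K := 1 / t + 1 / (1 - t)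
  have hg' : (1 : ℝ) ≤ g := by exact_mod_cast hg
  have ha' : (1 : ℝ) ≤ a := by exact_mod_cast ha
  have hquart : ∀ n : ℝ, 0 < n → (a : ℝ) ≤ 4 * g * n →
      1 / Real.sqrt n ≤ 2 * Real.sqrt ((g : ℝ) / a) := by
    intro n hn han
    rw [show (2 : ℝ) * Real.sqrt ((g : ℝ) / a) = Real.sqrt (4 * ((g : ℝ) / a)) by
        rw [Real.sqrt_mul (by norm_num), show (4 : ℝ) = 2 ^ 2 by norm_num,
          Real.sqrt_sq (by norm_num)],
      ← Real.sqrt_one, ← Real.sqrt_div' _ hn.le]
    refine Real.sqrt_le_sqrt ?_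
    rw [← mul_div_assoc, div_le_div_iff₀ hn (by positivity)]
    linarith
  by_cases hsmall : a ≤ 4 * g
  · have h2 := hquart 1 one_pos (by rw [mul_one]; exact_mod_cast hsmall)
    rw [Real.sqrt_one] at h2
    refine (l1_sub_le' _ _).trans ?_
    rw [l1_pow' hA, l1_pow' hA]
    nlinarith
  · set m := a / (4 * g)
    have hm1 : 1 ≤ m := (Nat.one_le_div_iff (by omega)).2 (by omega)
    have hlo : (2 * m + 1) * g + m ≤ a := by
      have h1 : m * (4 * g) ≤ a := Nat.div_mul_le_self a (4 * g)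
      nlinarith
    have hhi : a ≤ 4 * g * (m + 1) := (Nat.lt_mul_div_succ a (by omega)).le
    obtain ⟨d, hd⟩ := Nat.exists_eq_add_of_le hlo
    have h1 := shift_special ht0 ht1 hA h m
    have hmul : A ^ (a + 1) - A ^ a =
        (A ^ ((2 * m + 1) * g + m + 1) - A ^ ((2 * m + 1) * g + m)) * A ^ d := by
      rw [sub_mul, ← pow_add, ← pow_add, hd, add_right_comm]
    rw [hmul]
    refine (l1_mul _ _).trans ?_
    rw [l1_pow' hA, mul_one]
    refine h1.trans ?_
    rw [div_eq_mul_one_div]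
    have h2 := hquart ((m : ℝ) + 1) (by positivity) (by exact_mod_cast hhi)
    have h3 : 9 * K * (1 / Real.sqrt ((m : ℝ) + 1)) ≤ 9 * K * (2 * Real.sqrt ((g : ℝ) / a)) :=
      mul_le_mul_of_nonneg_left h2 (by linarith)
    linarith

end Smoothing

open Smoothing

theorem l1_pow_shift (th : ℝ) (hth : 0 < th) : ∃ C : ℝ, 0 < C ∧
    ∀ (A : Law) (g a k : ℕ), IsProb A → 1 ≤ g → 1 ≤ a → Overlap A g th →
      l1 (A ^ (a + k) - A ^ a) ≤ C * k * Real.sqrt ((g : ℝ) / a) := by
  set t := min th (1 / 2)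
  have ht0 : 0 < t := lt_min hth (by norm_num)
  have ht1 : t < 1 := lt_of_le_of_lt (min_le_right _ _) (by norm_num)
  have htt : t ≤ th := min_le_left _ _
  have hu : 0 < 1 - t := by linarith
  refine ⟨18 * (1 / t + 1 / (1 - t)), by positivity, ?_⟩
  intro A g a k hA hg ha hov
  set C := 18 * (1 / t + 1 / (1 - t))
  have hov' : l1 (A ^ g - A ^ (g + 1)) ≤ 2 - 2 * t := hov.trans (by linarith)
  rw [show A ^ (a + k) - A ^ a = ∑ j ∈ range k, (A ^ (a + (j + 1)) - A ^ (a + j)) by
    rw [sum_range_sub (fun j => A ^ (a + j)), add_zero]]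
  refine (l1_sum _ _).trans ?_
  calc ∑ j ∈ range k, l1 (A ^ (a + (j + 1)) - A ^ (a + j))
      ≤ ∑ _j ∈ range k, C * Real.sqrt ((g : ℝ) / a) := by
        refine sum_le_sum fun j _ => ?_
        refine (shift_one ht0 ht1 hA hg (show 1 ≤ a + j by omega) hov').trans ?_
        refine mul_le_mul_of_nonneg_left (Real.sqrt_le_sqrt ?_) (by positivity)
        refine div_le_div_of_nonneg_left (by positivity) (by exact_mod_cast ha) ?_
        exact_mod_cast Nat.le_add_right a j
    _ = C * k * Real.sqrt ((g : ℝ) / a) := by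
        rw [sum_const, card_range, nsmul_eq_mul]; ring

namespace Smoothing

/-- The Thue–Morse sum of translates. -/
noncomputable def tmSum (A : Law) (r N : ℕ) (T : Law) : Law :=
  ∑ i ∈ (tmSets r).1, A ^ (N + i) * T * A ^ (N + (2 ^ r - 1 - i)) -
    ∑ i ∈ (tmSets r).2, A ^ (N + i) * T * A ^ (N + (2 ^ r - 1 - i))

theorem regroup (A X : Law) (a b c d : ℕ) :
    A ^ a * (A ^ b * X * A ^ c) * A ^ d = A ^ (a + b) * X * A ^ (c + d) := by
  simp only [pow_add, mul_assoc]

theorem tmSum_succ (A : Law) (r N₁ N₂ : ℕ) (T : Law) :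
    tmSum A (r + 1) (N₂ + N₁) T =
      tmSum A r N₂ (A ^ N₁ * (T * A ^ 2 ^ r - A ^ 2 ^ r * T) * A ^ N₁) := by
  obtain ⟨h1, h2⟩ := tmSets_subset r
  simp only [subset_iff, mem_range] at h1 h2
  have hd : ∀ {P Q : Finset ℕ}, (∀ ⦃x⦄, x ∈ P → x < 2 ^ r) →
      Disjoint P (Q.image (· + 2 ^ r)) := by
    intro P Q hP
    rw [disjoint_left]
    intro x hx hx'
    rw [mem_image] at hx'
    obtain ⟨b, -, rfl⟩ := hx'
    have := hP hx
    omega
  have hi : ∀ {Q : Finset ℕ}, Set.InjOn (· + 2 ^ r) (Q : Set ℕ) :=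
    fun {Q} a _ b _ hab => Nat.add_right_cancel hab
  have hp : 2 ^ (r + 1) = 2 ^ r + 2 ^ r := by rw [pow_succ, mul_two]
  have key : ∀ i, i < 2 ^ r →
      A ^ (N₂ + i) * (A ^ N₁ * (T * A ^ 2 ^ r - A ^ 2 ^ r * T) * A ^ N₁) *
          A ^ (N₂ + (2 ^ r - 1 - i)) =
        A ^ (N₂ + N₁ + i) * T * A ^ (N₂ + N₁ + (2 ^ (r + 1) - 1 - i)) -
          A ^ (N₂ + N₁ + (i + 2 ^ r)) * T *
            A ^ (N₂ + N₁ + (2 ^ (r + 1) - 1 - (i + 2 ^ r))) := by
    intro i hi
    rw [show 2 ^ (r + 1) - 1 - i = 2 ^ r + (2 ^ r - 1 - i) by omega,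
      show 2 ^ (r + 1) - 1 - (i + 2 ^ r) = 2 ^ r - 1 - i by omega]
    rw [mul_sub, sub_mul, mul_sub, sub_mul,
      show A ^ N₁ * (T * A ^ 2 ^ r) * A ^ N₁ = A ^ N₁ * T * A ^ (2 ^ r + N₁) by
        simp only [pow_add, mul_assoc],
      show A ^ N₁ * (A ^ 2 ^ r * T) * A ^ N₁ = A ^ (N₁ + 2 ^ r) * T * A ^ N₁ by
        simp only [pow_add, mul_assoc],
      regroup, regroup]
    congr 1
    · rw [show N₂ + i + N₁ = N₂ + N₁ + i by ring,
        show 2 ^ r + N₁ + (N₂ + (2 ^ r - 1 - i)) = N₂ + N₁ + (2 ^ r + (2 ^ r - 1 - i)) by ring]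
    · rw [show N₂ + i + (N₁ + 2 ^ r) = N₂ + N₁ + (i + 2 ^ r) by ring,
        show N₁ + (N₂ + (2 ^ r - 1 - i)) = N₂ + N₁ + (2 ^ r - 1 - i) by ring]
  unfold tmSum
  rw [sum_congr rfl fun i hi => key i (h1 hi), sum_congr rfl fun i hi => key i (h2 hi),
    sum_sub_distrib, sum_sub_distrib]
  simp only [tmSets]
  rw [sum_union (hd h1), sum_union (hd h2), sum_image hi, sum_image hi]
  abel

theorem tmSum_le {A : Law} (hA : IsProb A) (r N : ℕ) (T : Law) :
    l1 (tmSum A r N T) ≤ 2 ^ r * l1 T := by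
  have hterm : ∀ P : Finset ℕ,
      l1 (∑ i ∈ P, A ^ (N + i) * T * A ^ (N + (2 ^ r - 1 - i))) ≤ P.card * l1 T := by
    intro P
    refine (l1_sum _ _).trans ?_
    rw [← nsmul_eq_mul]
    refine sum_le_card_nsmul _ _ _ fun i _ => ?_
    refine (l1_mul _ _).trans ?_
    rw [l1_pow' hA, mul_one]
    refine (l1_mul _ _).trans ?_
    rw [l1_pow' hA, one_mul]
  have hc : (tmSets r).1.card + (tmSets r).2.card ≤ 2 ^ r := by
    rw [← card_union_of_disjoint (tmSets_disjoint r)]
    exact (card_le_card (union_subset (tmSets_subset r).1 (tmSets_subset r).2)).trans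
      (card_range _).le
  have hc' : ((tmSets r).1.card : ℝ) + (tmSets r).2.card ≤ 2 ^ r := by exact_mod_cast hc
  refine (l1_sub_le' _ _).trans ((add_le_add (hterm _) (hterm _)).trans ?_)
  rw [← add_mul]
  exact mul_le_mul_of_nonneg_right hc' (l1_nonneg T)

theorem sqrt_part_le {g N M : ℕ} (hN : 1 ≤ N) (hM : 1 ≤ M) (h : N ≤ 4 * M) :
    Real.sqrt ((g : ℝ) / M) ≤ 2 * Real.sqrt ((g : ℝ) / N) := by
  rw [show (2 : ℝ) * Real.sqrt ((g : ℝ) / N) = Real.sqrt (4 * ((g : ℝ) / N)) by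
      rw [Real.sqrt_mul (by norm_num), show (4 : ℝ) = 2 ^ 2 by norm_num,
        Real.sqrt_sq (by norm_num)]]
  refine Real.sqrt_le_sqrt ?_
  have hN' : (0 : ℝ) < N := by exact_mod_cast hN
  have hM' : (0 : ℝ) < M := by exact_mod_cast hM
  have h' : (N : ℝ) ≤ 4 * M := by exact_mod_cast h
  rw [← mul_div_assoc, div_le_div_iff₀ hM' hN']
  nlinarith [(g.cast_nonneg : (0 : ℝ) ≤ g)]

end Smoothing

/-- Thue–Morse sums of translates are tiny. -/
theorem l1_tm_translates (th : ℝ) (hth : 0 < th) (r : ℕ) : ∃ C : ℝ, 0 < C ∧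
    ∀ (A T : Law) (g N : ℕ), IsProb A → 1 ≤ g → 1 ≤ N → Overlap A g th →
      l1 (∑ i ∈ (tmSets r).1, A ^ (N + i) * T * A ^ (N + (2 ^ r - 1 - i)) -
          ∑ i ∈ (tmSets r).2, A ^ (N + i) * T * A ^ (N + (2 ^ r - 1 - i))) ≤
        C * Real.sqrt ((g : ℝ) / N) ^ r * l1 T := by
  obtain ⟨C₁, hC₁, hshift⟩ := l1_pow_shift th hth
  induction r with
  | zero =>
    refine ⟨1, one_pos, fun A T g N hA _ _ _ => ?_⟩
    simpa [tmSum] using tmSum_le hA 0 N T
  | succ r ih =>
    obtain ⟨C, hC, ih⟩ := ih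
    refine ⟨2 ^ (r + 1) + C * 2 ^ (r + 2) * C₁ * 2 ^ r, by positivity, ?_⟩
    intro A T g N hA hg hN hov
    change l1 (tmSum A (r + 1) N T) ≤ _
    set s := Real.sqrt ((g : ℝ) / N)
    have hs : 0 ≤ s := Real.sqrt_nonneg _
    have hT := l1_nonneg T
    obtain rfl | hN2 : N = 1 ∨ 2 ≤ N := by omega
    · have hs1 : 1 ≤ s := by
        refine Real.one_le_sqrt.2 ?_
        simpa using hg
      refine (tmSum_le hA (r + 1) 1 T).trans ?_
      refine mul_le_mul_of_nonneg_right ?_ hT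
      have h1 : (1 : ℝ) ≤ s ^ (r + 1) := one_le_pow₀ hs1
      have h2 : (0 : ℝ) ≤ C * 2 ^ (r + 2) * C₁ * 2 ^ r := by positivity
      have h3 : (0 : ℝ) ≤ 2 ^ (r + 1) := by positivity
      nlinarith
    · obtain ⟨N₁, N₂, hNN, h₁, h₂, hb₁, hb₂⟩ : ∃ N₁ N₂, N = N₂ + N₁ ∧ 1 ≤ N₁ ∧ 1 ≤ N₂ ∧
          N ≤ 4 * N₁ ∧ N ≤ 4 * N₂ :=
        ⟨N / 2, N - N / 2, by omega, by omega, by omega, by omega, by omega⟩
      have hs₁ : Real.sqrt ((g : ℝ) / N₁) ≤ 2 * s := sqrt_part_le hN h₁ hb₁
      have hs₂ : Real.sqrt ((g : ℝ) / N₂) ≤ 2 * s := sqrt_part_le hN h₂ hb₂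
      set h := 2 ^ r with hh
      set D := A ^ (N₁ + h) - A ^ N₁
      have hD : l1 D ≤ C₁ * 2 ^ r * (2 * s) := by
        refine (hshift A g N₁ h hA hg h₁ hov).trans ?_
        rw [hh, Nat.cast_pow, Nat.cast_ofNat]
        exact mul_le_mul_of_nonneg_left hs₁ (by positivity)
      have hmid : l1 (A ^ N₁ * (T * A ^ h - A ^ h * T) * A ^ N₁) ≤
          2 * (C₁ * 2 ^ r * (2 * s)) * l1 T := by
        rw [show A ^ N₁ * (T * A ^ h - A ^ h * T) * A ^ N₁ = A ^ N₁ * T * D - D * T * A ^ N₁ by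
          rw [show A ^ N₁ * (T * A ^ h - A ^ h * T) * A ^ N₁ =
              A ^ N₁ * T * A ^ (h + N₁) - A ^ (N₁ + h) * T * A ^ N₁ by
            simp only [mul_sub, sub_mul, pow_add, mul_assoc]]
          simp only [D, mul_sub, sub_mul, add_comm h N₁]
          abel]
        refine (l1_sub_le' _ _).trans ?_
        have e1 : l1 (A ^ N₁ * T * D) ≤ l1 T * l1 D := by
          refine (l1_mul _ _).trans (mul_le_mul_of_nonneg_right ?_ (l1_nonneg D))
          exact (l1_mul _ _).trans_eq (by rw [l1_pow' hA, one_mul])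
        have e2 : l1 (D * T * A ^ N₁) ≤ l1 D * l1 T := by
          refine (l1_mul _ _).trans ?_
          rw [l1_pow' hA, mul_one]
          exact l1_mul _ _
        nlinarith [l1_nonneg D]
      rw [hNN, tmSum_succ]
      refine (ih A _ g N₂ hA hg h₂ hov).trans ?_
      calc C * Real.sqrt ((g : ℝ) / N₂) ^ r * _
          ≤ C * (2 * s) ^ r * (2 * (C₁ * 2 ^ r * (2 * s)) * l1 T) :=
            mul_le_mul (mul_le_mul_of_nonneg_left
              (pow_le_pow_left₀ (Real.sqrt_nonneg _) hs₂ r) hC.le) hmid (l1_nonneg _)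
              (by positivity)
        _ = C * 2 ^ (r + 2) * C₁ * 2 ^ r * s ^ (r + 1) * l1 T := by
            rw [mul_pow, pow_add (2 : ℝ) r 2, pow_succ s]; ring
        _ ≤ _ := by
            refine mul_le_mul_of_nonneg_right (mul_le_mul_of_nonneg_right ?_ (by positivity)) hT
            linarith [show (0 : ℝ) ≤ 2 ^ (r + 1) by positivity]

end Vale.Agent.P321
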