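import Vale.Agent.P321.Words
import Vale.Agent.P321.Smoothing

/-!
# P321 module 7, helper lemmas

Multilinear expansion of a product of slots, telescoping in total variation, and facts about
patterns.
-/

namespace Vale.Agent.P321.BasePair

open Finset

/-! ### patterns -/

theorem tm_union (r : ℕ) : (tmSets r).1 ∪ (tmSets r).2 = Finset.range (2 ^ r) := by
  induction r with
  | zero => simp [tmSets]
  | succ r ih =>
    have h : ∀ (P₀ P₁ : Finset ℕ) (f : ℕ → ℕ),
        (P₀ ∪ P₁.image f) ∪ (P₁ ∪ P₀.image f) = (P₀ ∪ P₁) ∪ (P₀ ∪ P₁).image f := by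
      intro P₀ P₁ f
      ext x
      simp only [Finset.mem_union, Finset.mem_image]
      aesop
    show ((tmSets r).1 ∪ (tmSets r).2.image (· + 2 ^ r)) ∪
      ((tmSets r).2 ∪ (tmSets r).1.image (· + 2 ^ r)) = _
    rw [h, ih]
    ext x
    simp only [Finset.mem_union, Finset.mem_image, Finset.mem_range]
    constructor
    · rintro (hx | ⟨a, ha, rfl⟩) <;> rw [pow_succ] <;> omega
    · intro hx
      by_cases hlt : x < 2 ^ r
      · exact Or.inl hlt
      · refine Or.inr ⟨x - 2 ^ r, ?_, ?_⟩ <;> rw [pow_succ] at hx <;> omega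

theorem zero_mem_tm (r : ℕ) : 0 ∈ (tmSets r).1 := by
  induction r with
  | zero => simp [tmSets]
  | succ r ih => exact Finset.mem_union_left _ ih

theorem patProd_eq_ofFn {α : Type*} [Monoid α] (x y : α) (P : Finset ℕ) (K : ℕ) :
    patProd x y P K = (List.ofFn fun i : Fin K => if (i : ℕ) ∈ P then y else x).prod := by
  rw [patProd, List.ofFn_eq_map, ← List.map_coe_finRange_eq_range, List.map_map]
  rfl

theorem patProd_hom {α β : Type*} [Monoid α] [Monoid β] (f : α →* β) (x y : α) (P : Finset ℕ)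
    (K : ℕ) : f (patProd x y P K) = patProd (f x) (f y) P K := by
  rw [patProd, patProd, map_list_prod, List.map_map]
  congr 1
  apply List.map_congr_left
  intro i _
  simp [apply_ite f]

theorem patProd_succ {α : Type*} [Monoid α] (x y : α) (P : Finset ℕ) (K : ℕ) :
    patProd x y P (K + 1) = (if 0 ∈ P then y else x) *
      ((List.range K).map fun i => if i + 1 ∈ P then y else x).prod := by
  rw [patProd, List.range_succ_eq_map, List.map_cons, List.prod_cons, List.map_map]
  rfl

/-! ### products over slots -/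

theorem wordL_succ {K : ℕ} (f : Fin (K + 1) → Law) :
    wordL f = f 0 * wordL (fun i : Fin K => f i.succ) := by
  rw [wordL, wordL, List.ofFn_succ, List.prod_cons]

theorem wordL_zero (f : Fin 0 → Law) : wordL f = 1 := by
  simp [wordL]

theorem wordL_const (K : ℕ) (A : Law) : wordL (fun _ : Fin K => A) = A ^ K := by
  simp [wordL]

theorem wordL_one_slot {K : ℕ} (A : Law) (f : Fin K → Law) (i : Fin K)
    (h : ∀ k, k ≠ i → f k = A) :
    wordL f = A ^ (i : ℕ) * f i * A ^ (K - 1 - (i : ℕ)) := by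
  induction K with
  | zero => exact i.elim0
  | succ K ih =>
    rw [wordL_succ]
    refine Fin.cases ?_ ?_ i h
    · intro h
      have : (fun k : Fin K => f k.succ) = fun _ => A :=
        funext fun k => h _ (Fin.succ_ne_zero k)
      rw [this, wordL_const]
      simp
    · intro j h
      rw [h 0 (Fin.succ_ne_zero j).symm,
        ih (fun k : Fin K => f k.succ) j (fun k hk => h _ (fun he => hk (Fin.succ_injective _ he)))]
      rw [Fin.val_succ, pow_succ', show K + 1 - 1 - ((j : ℕ) + 1) = K - 1 - (j : ℕ) by omega]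
      simp only [mul_assoc]

theorem wordL_two_slots {K : ℕ} (A : Law) (f : Fin K → Law) (i j : Fin K) (hij : i < j)
    (h : ∀ k, k ≠ i → k ≠ j → f k = A) :
    wordL f = A ^ (i : ℕ) * f i * A ^ ((j : ℕ) - (i : ℕ) - 1) * f j *
      A ^ (K - 1 - (j : ℕ)) := by
  induction K with
  | zero => exact i.elim0
  | succ K ih =>
    obtain ⟨j', rfl⟩ : ∃ j' : Fin K, j = j'.succ := ⟨j.pred (by
      intro h0; rw [h0] at hij; exact (Fin.not_lt_zero i hij)), by simp⟩
    rw [wordL_succ]
    refine Fin.cases ?_ ?_ i hij h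
    · intro _ h
      rw [wordL_one_slot A (fun k : Fin K => f k.succ) j'
        (fun k hk => h _ (Fin.succ_ne_zero k) (fun he => hk (Fin.succ_injective _ he)))]
      rw [Fin.val_succ, show K + 1 - 1 - ((j' : ℕ) + 1) = K - 1 - (j' : ℕ) by omega]
      simp [mul_assoc]
    · intro i' hij h
      rw [h 0 (Fin.succ_ne_zero i').symm (Fin.succ_ne_zero j').symm,
        ih (fun k : Fin K => f k.succ) i' j' (Fin.succ_lt_succ_iff.mp hij)
          (fun k hk hk' => h _ (fun he => hk (Fin.succ_injective _ he))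
            (fun he => hk' (Fin.succ_injective _ he)))]
      rw [Fin.val_succ, Fin.val_succ, pow_succ',
        show K + 1 - 1 - ((j' : ℕ) + 1) = K - 1 - (j' : ℕ) by omega,
        show (j' : ℕ) + 1 - ((i' : ℕ) + 1) - 1 = (j' : ℕ) - (i' : ℕ) - 1 by omega]
      simp only [mul_assoc]

/-- The three values of a slot: the base, the even part, the odd part. -/
noncomputable def slot (A e h : Law) : Fin 3 → Law := ![A, e, h]

/-- Multilinear expansion of a product of slots `A + e + s i • h`. -/
theorem wordL_expand {K : ℕ} (A e h : Law) (s : Fin K → ℝ) :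
    wordL (fun i => A + e + s i • h) =
      ∑ κ : Fin K → Fin 3, (∏ i, if κ i = 2 then s i else 1) •
        wordL (fun i => slot A e h (κ i)) := by
  have h1 : (fun i => A + e + s i • h) =
      fun i : Fin K => ∑ j : Fin 3, (if j = 2 then s i else 1) • slot A e h j := by
    funext i
    rw [Fin.sum_univ_three]
    simp [slot]
  rw [h1]
  show (MultilinearMap.mkPiAlgebraFin ℝ K Law) _ = _
  rw [MultilinearMap.map_sum]
  refine Finset.sum_congr rfl fun κ _ => ?_
  rw [MultilinearMap.map_smul_univ]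
  rfl

/-! ### norms -/

theorem val_add (X Y : Law) (y : TW) : val (X + Y) y = val X y + val Y y := by
  simp [val]

theorem val_sub (X Y : Law) (y : TW) : val (X - Y) y = val X y - val Y y := by
  simp [val]

theorem val_smul (c : ℝ) (X : Law) (y : TW) : val (c • X) y = c * val X y := by
  simp [val]

theorem val_zero (y : TW) : val 0 y = 0 := by
  simp [val]

theorem val_eq_zero_of_not_mem {X : Law} {y : TW} (h : y ∉ supp X) : val X y = 0 :=
  Finsupp.notMem_support_iff.mp h

theorem bdd_self {R : Law} (hR : Pos R) : Bdd 1 R R := fun y => by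
  rw [one_mul, abs_of_nonneg (hR y)]

theorem Bdd.mono {X R : Law} {a b : ℝ} (hR : Pos R) (h : a ≤ b) (hX : Bdd a X R) : Bdd b X R :=
  fun y => (hX y).trans (mul_le_mul_of_nonneg_right h (hR y))

theorem bdd_smul {X R : Law} {a : ℝ} (c : ℝ) (hX : Bdd a X R) : Bdd (|c| * a) (c • X) R :=
  fun y => by
    rw [val_smul, abs_mul, mul_assoc]
    exact mul_le_mul_of_nonneg_left (hX y) (abs_nonneg _)

theorem bdd_sum {ι : Type*} (s : Finset ι) {X : ι → Law} {R : Law} {a : ℝ}
    (h : ∀ i ∈ s, Bdd a (X i) R) : Bdd (s.card * a) (∑ i ∈ s, X i) R := by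
  classical
  intro y
  induction s using Finset.induction_on with
  | empty => simp [val_zero]
  | insert i s hi ih =>
    rw [Finset.sum_insert hi, val_add, Finset.card_insert_of_notMem hi]
    have h1 := h i (Finset.mem_insert_self i s) y
    have h2 := ih fun j hj => h j (Finset.mem_insert_of_mem hj)
    push_cast
    nlinarith [abs_add_le (val (X i) y) (val (∑ j ∈ s, X j) y)]

theorem bdd_of_ratio {A B : Law} {Lam : ℝ} (hA : Pos A) (h : Ratio Lam A B) : Bdd Lam A B :=
  fun y => by rw [abs_of_nonneg (hA y)]; exact (h y).1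

theorem ratio_symm {A B : Law} {Lam : ℝ} (h : Ratio Lam A B) : Ratio Lam B A :=
  fun y => ⟨(h y).2, (h y).1⟩

theorem ratio_refl {A : Law} : Ratio 1 A A := fun y => by simp

theorem ratio_mono {A B : Law} {a b : ℝ} (hA : Pos A) (hB : Pos B) (hab : a ≤ b)
    (h : Ratio a A B) : Ratio b A B :=
  fun y => ⟨(h y).1.trans (mul_le_mul_of_nonneg_right hab (hB y)),
    (h y).2.trans (mul_le_mul_of_nonneg_right hab (hA y))⟩

theorem ratio_trans {A B C : Law} {a b : ℝ} (ha : 0 ≤ a) (hb : 0 ≤ b) (h : Ratio a A B)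
    (h' : Ratio b B C) : Ratio (a * b) A C := fun y => by
  constructor
  · rw [mul_assoc]
    exact (h y).1.trans (mul_le_mul_of_nonneg_left (h' y).1 ha)
  · rw [mul_comm a b, mul_assoc]
    exact (h' y).2.trans (mul_le_mul_of_nonneg_left (h y).2 hb)

theorem ratio_wordL {K : ℕ} {f g : Fin K → Law} {a : ℝ} (ha : 0 ≤ a)
    (hf : ∀ i, IsProb (f i)) (hg : ∀ i, IsProb (g i)) (h : ∀ i, Ratio a (f i) (g i)) :
    Ratio (a ^ K) (wordL f) (wordL g) := by
  induction K with
  | zero => rw [wordL_zero, wordL_zero, pow_zero]; exact ratio_refl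
  | succ K ih =>
    rw [wordL_succ, wordL_succ g, pow_succ']
    exact Ratio.mul ha (pow_nonneg ha K) (hf 0) (hg 0) (wordL_isProb fun i => hf _)
      (wordL_isProb fun i => hg _) (h 0)
      (ih (fun i => hf _) (fun i => hg _) (fun i => h _))

/-- Cauchy–Schwarz: the square norm is at most the root of the quartic norm. -/
theorem nsq_le_sqrt_nq {X R : Law} (hR : IsProb R) (hd : Dom X R) :
    nsq X R ≤ Real.sqrt (nq X R) := by
  rcases eq_or_lt_of_le (nsq_nonneg (X := X) hR.1) with h0 | h0
  · rw [← h0]; exact Real.sqrt_nonneg _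
  apply Real.le_sqrt_of_sq_le
  have hs : ∀ y ∈ supp X, 0 < val R y := fun y hy =>
    lt_of_le_of_ne (hR.1 y) fun h => (Finsupp.mem_support_iff.mp hy) (hd y h.symm)
  have hmass : ∑ y ∈ supp X, val R y ≤ 1 := by
    rw [← hR.2, mass]
    refine (Finset.sum_le_sum_of_subset_of_nonneg (fun y hy => ?_) fun y _ _ => hR.1 y)
    exact Finsupp.mem_support_iff.mpr (hs y hy).ne'
  have hcs : nsq X R ^ 2 ≤ (∑ y ∈ supp X, val R y) * nq X R := by
    unfold nsq nq
    refine Finset.sum_sq_le_sum_mul_sum_of_sq_le_mul (supp X) (fun y hy => (hs y hy).le)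
      (fun y hy => ?_) (fun y hy => le_of_eq ?_)
    · have := hs y hy; positivity
    · have := (hs y hy).ne'; field_simp
  exact hcs.trans (mul_le_of_le_one_left (nq_nonneg hR.1) hmass)

theorem l1_sub (X Y : Law) : l1 (X - Y) ≤ l1 X + l1 Y := by
  rw [sub_eq_add_neg]
  exact (l1_add _ _).trans (by rw [l1_neg])

theorem l1_sub_sub (X Y Z : Law) : l1 (X - Z) ≤ l1 (X - Y) + l1 (Y - Z) := by
  have := l1_add (X - Y) (Y - Z)
  rwa [show X - Y + (Y - Z) = X - Z by abel] at this

theorem l1_sub_comm (X Y : Law) : l1 (X - Y) = l1 (Y - X) := by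
  rw [← l1_neg, neg_sub]

theorem l1_mul_sub {A A' B B' : Law} (hA : IsProb A) (hB' : IsProb B') :
    l1 (A * B - A' * B') ≤ l1 (A - A') + l1 (B - B') := by
  have h : A * B - A' * B' = A * (B - B') + (A - A') * B' := by
    rw [mul_sub, sub_mul]; abel
  rw [h]
  refine (l1_add _ _).trans ?_
  have h1 := l1_mul A (B - B')
  have h2 := l1_mul (A - A') B'
  rw [l1_of_isProb hA] at h1
  rw [l1_of_isProb hB'] at h2
  linarith

theorem l1_pow_sub {A B : Law} (hA : IsProb A) (hB : IsProb B) (n : ℕ) :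
    l1 (A ^ n - B ^ n) ≤ n * l1 (A - B) := by
  induction n with
  | zero => simp [l1, supp]
  | succ n ih =>
    rw [pow_succ, pow_succ]
    refine (l1_mul_sub (hA.pow n) hB).trans ?_
    push_cast
    linarith

theorem l1_wordL_sub {K : ℕ} {f g : Fin K → Law} (hf : ∀ i, IsProb (f i))
    (hg : ∀ i, IsProb (g i)) : l1 (wordL f - wordL g) ≤ ∑ i, l1 (f i - g i) := by
  induction K with
  | zero => simp [wordL_zero, l1, supp]
  | succ K ih =>
    rw [wordL_succ, wordL_succ g, Fin.sum_univ_succ]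
    refine (l1_mul_sub (hf 0) (wordL_isProb fun i => hg _)).trans ?_
    linarith [ih (f := fun i => f i.succ) (g := fun i => g i.succ) (fun i => hf _) (fun i => hg _)]

/-- A sum of few small terms is small. -/
theorem nsq_sum_smul_le {ι : Type*} (s : Finset ι) (c : ι → ℝ) (T : ι → Law) {R : Law}
    (hR : Pos R) {b : ℝ} (hb : ∀ i ∈ s, c i ^ 2 * nsq (T i) R ≤ b) :
    nsq (∑ i ∈ s, c i • T i) R ≤ (s.card : ℝ) ^ 2 * b := by
  refine (nsq_sum s _ hR).trans ?_
  rw [sq, mul_assoc]
  refine mul_le_mul_of_nonneg_left ?_ (Nat.cast_nonneg _)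
  have := Finset.sum_le_sum (fun i hi => (nsq_smul (c i) (T i) R).trans_le (hb i hi))
  simpa using this

/-- Total variation between equal powers of two nearby laws. -/
theorem l1_pow_sub_le_sqrt {A R : Law} (hA : IsProb A) (hR : IsProb R) (hd : Dom A R) {δ : ℝ}
    (hδ : nsq (A - R) R ≤ δ) {n N : ℕ} (hn : n ≤ N) (hN : (N : ℝ) * δ ≤ 1) :
    l1 (A ^ n - R ^ n) ≤ Real.sqrt (2 * ((N : ℝ) * δ)) := by
  have hpow : ∀ m : ℕ, Dom (A ^ m) (R ^ m) := by
    intro m
    induction m with
    | zero => exact dom_self _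
    | succ m ih => rw [pow_succ, pow_succ]; exact Dom.mul (hR.pow m).1 hR.1 ih hd
  refine (l1_le_sqrt_nsq (hR.pow n) (Dom.sub (hpow n) (dom_self _))).trans ?_
  apply Real.sqrt_le_sqrt
  refine (nsq_pow_sub hR hA hd n).trans ?_
  have h0 : 0 ≤ nsq (A - R) R := nsq_nonneg hR.1
  have hδ0 : 0 ≤ δ := h0.trans hδ
  have h1 : nsq A R ^ n ≤ (1 + δ) ^ n := by
    rw [nsq_probability hA hR hd]
    gcongr
  have h2 : (1 + δ) ^ n ≤ Real.exp (δ * N) := by
    calc (1 + δ) ^ n ≤ (Real.exp δ) ^ n := by
          gcongr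
          linarith [Real.add_one_le_exp δ]
      _ = Real.exp ((n : ℝ) * δ) := (Real.exp_nat_mul δ n).symm
      _ ≤ _ := by
          apply Real.exp_le_exp.mpr
          rw [mul_comm δ]
          gcongr
  have h3 := Real.abs_exp_sub_one_le (x := δ * N) (by
    rw [abs_of_nonneg (mul_nonneg hδ0 (Nat.cast_nonneg _)), mul_comm]; exact hN)
  rw [abs_of_nonneg (mul_nonneg hδ0 (Nat.cast_nonneg _))] at h3
  linarith [le_abs_self (Real.exp (δ * (N : ℝ)) - 1)]

end Vale.Agent.P321.BasePair
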