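import Vale.Agent.P321.BaseExpand
import Vale.Agent.P321.BaseCoef

/-!
# P321 module 5, helper: the surrogate token blocks

The surrogate of `Z ^ a 1 Z ^ b` drops the token when the number of nonempty periods leaves the
window. It is a probability law comparable with `perLaw q ^ (a + b)` and exponentially close in
`l1` to the law of the token block.
-/

namespace Vale.Agent.P321.Blk

open Finset Push
open scoped Classical

variable {q : ℝ} {L : ℕ}

/-- The surrogate block. -/
noncomputable def surr (q : ℝ) (L a b : ℕ) : Law :=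
  q • perLaw q ^ (2 * L) + (1 - q) •
    (∑ N ∈ range (2 * L + 1) \ win q L, bin (2 * L) (sP q) N • Qlaw q ^ N +
      ∑ p ∈ winP q L, cof q a b p •
        (Qlaw q ^ p.1 * MonoidAlgebra.single (FreeMonoid.of true) 1 * Qlaw q ^ p.2))

theorem mass_smul (c : ℝ) (X : Law) : mass (c • X) = c * mass X := by
  rw [mass, mass, sum_supp_eq _ (supp_smul_subset c X) (fun _ v => v) fun _ => rfl, mul_sum]
  simp only [val_smul]

theorem mass_finset_sum {ι : Type*} (s : Finset ι) (X : ι → Law) :
    mass (∑ i ∈ s, X i) = ∑ i ∈ s, mass (X i) := by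
  classical
  induction s using Finset.induction_on with
  | empty => simp [mass, supp]
  | insert a s ha ih => rw [sum_insert ha, sum_insert ha, mass_add, ih]

theorem isProb_single_true : IsProb (MonoidAlgebra.single (FreeMonoid.of true) 1 : Law) := by
  have e : (MonoidAlgebra.single (FreeMonoid.of true) 1 : Law) =
      pushLaw ({()} : Finset Unit) (fun _ => FreeMonoid.of true) fun _ => 1 := by simp [pushLaw]
  refine ⟨fun y => ?_, ?_⟩
  · rw [e, val_pushLaw]; exact sum_nonneg fun _ _ => zero_le_one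
  · rw [e, mass_pushLaw]; simp

theorem perLaw_isProb (hq0 : 0 < q) (hq1 : q < 1) : IsProb (perLaw q) :=
  isProb_lawHom hq0.le hq1.le _

theorem perLaw_pow_of_le (hq0 : 0 < q) (hq1 : q < 1) {n m : ℕ} (h : n ≤ m) :
    perLaw q ^ n = ∑ k ∈ range (m + 1), bin n (sP q) k • Qlaw q ^ k := by
  rw [perLaw_pow hq0 hq1]
  exact sum_subset (range_mono (by omega)) fun k _ hk => by
    rw [bin_eq_zero (by simpa using hk), zero_smul]

theorem val_ref_le (hq0 : 0 < q) (hq1 : q < 1) (s : Finset ℕ) (hs : s ⊆ range (2 * L + 1)) (y : TW) :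
    val (∑ N ∈ s, bin (2 * L) (sP q) N • Qlaw q ^ N) y ≤ val (perLaw q ^ (2 * L)) y := by
  rw [perLaw_pow_of_le hq0 hq1 le_rfl, val_finset_sum, val_finset_sum]
  refine sum_le_sum_of_subset_of_nonneg hs fun N _ _ => ?_
  rw [val_smul]
  exact mul_nonneg (bin_sP_nonneg hq0 hq1 _ _) (((Qlaw_isProb hq0 hq1).pow N).1 y)

theorem val_ref_next_le (hq0 : 0 < q) (hq1 : q < 1) (hL : 4 / q ^ 2 ≤ L) (y : TW) :
    val (∑ N ∈ win q L, b1 q L N • Qlaw q ^ (N + 1)) y ≤ val (perLaw q ^ (2 * L)) y := by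
  refine le_trans (le_of_eq ?_) (val_ref_le hq0 hq1 ((win q L).image (· + 1)) ?_ y)
  · rw [sum_image fun a _ b _ h => by simpa using h]; rfl
  · intro M hM
    obtain ⟨N, hN, rfl⟩ := mem_image.1 hM
    have := (win_facts hq0 hL hN).2.2.1
    exact mem_range.2 (by omega)

/-- The token term as mass at the next total plus defects. -/
theorem token_split (hq0 : 0 < q) (hq1 : q < 1) (a b : ℕ) :
    ∑ p ∈ winP q L, cof q a b p •
        (Qlaw q ^ p.1 * MonoidAlgebra.single (FreeMonoid.of true) 1 * Qlaw q ^ p.2) =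
      ∑ N ∈ win q L, bin (a + b) (sP q) N • Qlaw q ^ (N + 1) +
        defectL q (winP q L) (cof q a b) := by
  simp only [defectL, single_true_eq hq0 hq1, mul_add, add_mul, smul_add, sum_add_distrib]
  congr 1
  rw [sum_winP]
  refine sum_congr rfl fun N _ => ?_
  rw [← cof_sum q a b N, sum_smul]
  refine sum_congr rfl fun k hk => ?_
  rw [← pow_succ, ← pow_add,
    show k + 1 + (N - k) = N + 1 by have := mem_range.1 hk; omega]

theorem sum_bin_range (n : ℕ) {m : ℕ} (h : n ≤ m) (x : ℝ) :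
    ∑ k ∈ range (m + 1), bin n x k = 1 := by
  have := binE_const n x 1
  rw [binE_eq_sum h] at this
  simpa using this

theorem sum_cof_out (q : ℝ) {a b : ℕ} (hab : a + b = 2 * L) :
    ∑ p ∈ (range (2 * L + 1) ×ˢ range (2 * L + 1)) \ winP q L, cof q a b p =
      ∑ N ∈ range (2 * L + 1) \ win q L, bin (2 * L) (sP q) N := by
  have h1 : winP q L ⊆ range (2 * L + 1) ×ˢ range (2 * L + 1) := filter_subset _ _
  have h2 : win q L ⊆ range (2 * L + 1) := filter_subset _ _
  rw [sum_sdiff_eq_sub h1, sum_sdiff_eq_sub h2, sum_product, sum_winP]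
  simp only [cof_sum, hab]
  simp only [cof, ← mul_sum, sum_bin_range b (show b ≤ 2 * L by omega), mul_one,
    sum_bin_range a (show a ≤ 2 * L by omega), sum_bin_range (2 * L) le_rfl]

theorem surr_isProb (hq0 : 0 < q) (hq1 : q < 1) {a b : ℕ} (hab : a + b = 2 * L) :
    IsProb (surr q L a b) := by
  have hQ := Qlaw_isProb hq0 hq1
  have hP := (perLaw_isProb hq0 hq1).pow (2 * L)
  have ht : ∀ p : ℕ × ℕ, IsProb
      (Qlaw q ^ p.1 * MonoidAlgebra.single (FreeMonoid.of true) 1 * Qlaw q ^ p.2) :=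
    fun p => ((hQ.pow _).mul isProb_single_true).mul (hQ.pow _)
  refine ⟨fun y => ?_, ?_⟩
  · simp only [surr, val_add, val_smul, val_finset_sum]
    refine add_nonneg (mul_nonneg hq0.le (hP.1 y)) (mul_nonneg (by linarith) (add_nonneg
      (sum_nonneg fun N _ => mul_nonneg (bin_sP_nonneg hq0 hq1 _ _) ((hQ.pow N).1 y))
      (sum_nonneg fun p _ => mul_nonneg (mul_nonneg (bin_sP_nonneg hq0 hq1 _ _)
        (bin_sP_nonneg hq0 hq1 _ _)) ((ht p).1 y))))
  · simp only [surr, mass_add, mass_smul, mass_finset_sum, hP.2, (hQ.pow _).2, (ht _).2, mul_one]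
    rw [sum_winP]
    simp only [cof_sum, hab]
    rw [sum_sdiff (show win q L ⊆ range (2 * L + 1) from filter_subset _ _),
      sum_bin_range (2 * L) le_rfl]
    ring

/-- The constant of comparability. -/
noncomputable def ratioC (q : ℝ) : ℝ := 1 / q + 2 + 3 / sP q * (1 / wQ q 1)

theorem surr_ratio (hq0 : 0 < q) (hq1 : q < 1) (hL : 4 / q ^ 2 ≤ L) {a b : ℕ}
    (hab : a + b = 2 * L) : Ratio (ratioC q) (surr q L a b) (perLaw q ^ (2 * L)) := by
  have hQ := Qlaw_isProb hq0 hq1
  have hP := (perLaw_isProb hq0 hq1).pow (2 * L)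
  have hs := sP_pos hq0 hq1
  have hw := wQ_pos hq0 hq1 1
  have hK : 0 ≤ 3 / sP q * (1 / wQ q 1) := by positivity
  have hq' : 0 ≤ 1 / q := by positivity
  have hW := surr_isProb (L := L) hq0 hq1 hab
  have hself : ∀ n y, |val (Qlaw q ^ n) y| ≤ 1 * val (Qlaw q ^ n) y := fun n y => by
    rw [one_mul, abs_of_nonneg ((hQ.pow n).1 y)]
  have hone : Bdd (1 / wQ q 1) (MonoidAlgebra.single (FreeMonoid.of true) 1) (Qlaw q) := by
    intro y
    rw [val_single]
    split_ifs with h
    · subst h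
      rw [abs_one, one_div, inv_mul_eq_div, le_div_iff₀ hw, one_mul, Qlaw, val_pushLaw]
      refine le_trans (le_of_eq (sum_singleton (wQ q) 1).symm)
        (sum_le_sum_of_subset_of_nonneg ?_ fun i _ _ => (wQ_pos hq0 hq1 i).le)
      exact singleton_subset_iff.2 (mem_filter.2 ⟨mem_univ _, by simp [pieceW]⟩)
    · rw [abs_zero]; exact mul_nonneg (by positivity) (hQ.1 y)
  have htok : ∀ p : ℕ × ℕ, ∀ y,
      val (Qlaw q ^ p.1 * MonoidAlgebra.single (FreeMonoid.of true) 1 * Qlaw q ^ p.2) y ≤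
        1 / wQ q 1 * val (Qlaw q ^ (p.1 + p.2 + 1)) y := by
    intro p y
    have := ((Bdd.mul zero_le_one (by positivity) (hself p.1) hone).mul (by positivity) zero_le_one
      (hself p.2)) y
    rw [one_mul, mul_one, ← pow_succ, ← pow_add] at this
    rw [show p.1 + p.2 + 1 = p.1 + 1 + p.2 by ring]
    exact (le_abs_self _).trans this
  intro y
  have hPy := hP.1 y
  have hout : ∀ y, val (∑ N ∈ range (2 * L + 1) \ win q L, bin (2 * L) (sP q) N • Qlaw q ^ N) y ≤
      val (perLaw q ^ (2 * L)) y := val_ref_le hq0 hq1 _ sdiff_subset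
  constructor
  · have hin : val (∑ p ∈ winP q L, cof q a b p •
        (Qlaw q ^ p.1 * MonoidAlgebra.single (FreeMonoid.of true) 1 * Qlaw q ^ p.2)) y ≤
        3 / sP q * (1 / wQ q 1) * val (perLaw q ^ (2 * L)) y := by
      refine le_trans ?_ (mul_le_mul_of_nonneg_left (val_ref_next_le hq0 hq1 hL y) hK)
      rw [val_finset_sum, val_finset_sum, sum_winP, mul_sum]
      refine sum_le_sum fun N hN => ?_
      calc ∑ k ∈ range (N + 1), val (cof q a b (k, N - k) •
            (Qlaw q ^ k * MonoidAlgebra.single (FreeMonoid.of true) 1 * Qlaw q ^ (N - k))) y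
          ≤ ∑ k ∈ range (N + 1), cof q a b (k, N - k) *
              (1 / wQ q 1 * val (Qlaw q ^ (N + 1)) y) := by
            refine sum_le_sum fun k hk => ?_
            rw [val_smul]
            refine mul_le_mul_of_nonneg_left ?_
              (mul_nonneg (bin_sP_nonneg hq0 hq1 _ _) (bin_sP_nonneg hq0 hq1 _ _))
            have h := htok (k, N - k) y
            simp only at h
            rwa [show k + (N - k) + 1 = N + 1 by have := mem_range.1 hk; omega] at h
        _ = bin (2 * L) (sP q) N * (1 / wQ q 1 * val (Qlaw q ^ (N + 1)) y) := by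
            rw [← sum_mul, cof_sum, hab]
        _ ≤ 3 / sP q * b1 q L N * (1 / wQ q 1 * val (Qlaw q ^ (N + 1)) y) :=
            mul_le_mul_of_nonneg_right (bin_le_b1 hq0 hq1 hL hN).1
              (mul_nonneg (by positivity) ((hQ.pow _).1 y))
        _ = _ := by rw [val_smul]; ring
    have e : val (surr q L a b) y = q * val (perLaw q ^ (2 * L)) y + (1 - q) *
        (val (∑ N ∈ range (2 * L + 1) \ win q L, bin (2 * L) (sP q) N • Qlaw q ^ N) y +
          val (∑ p ∈ winP q L, cof q a b p •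
            (Qlaw q ^ p.1 * MonoidAlgebra.single (FreeMonoid.of true) 1 * Qlaw q ^ p.2)) y) := by
      rw [surr, val_add, val_smul, val_smul, val_add]
    rw [e, ratioC]
    have hm := mul_le_mul_of_nonneg_left (add_le_add (hout y) hin) (show (0 : ℝ) ≤ 1 - q by linarith)
    have h2 : 0 ≤ 1 / q * val (perLaw q ^ (2 * L)) y := mul_nonneg hq' hPy
    have h3 : 0 ≤ q * (3 / sP q * (1 / wQ q 1) * val (perLaw q ^ (2 * L)) y) :=
      mul_nonneg hq0.le (mul_nonneg hK hPy)
    linarith
  · have hlow : q * val (perLaw q ^ (2 * L)) y ≤ val (surr q L a b) y := by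
      simp only [surr, val_add, val_smul, val_finset_sum]
      refine le_add_of_nonneg_right (mul_nonneg (by linarith) (add_nonneg
        (sum_nonneg fun N _ => mul_nonneg (bin_sP_nonneg hq0 hq1 _ _) ((hQ.pow N).1 y))
        (sum_nonneg fun p _ => mul_nonneg (mul_nonneg (bin_sP_nonneg hq0 hq1 _ _)
          (bin_sP_nonneg hq0 hq1 _ _))
          ((((hQ.pow _).mul isProb_single_true).mul (hQ.pow _)).1 y))))
    calc val (perLaw q ^ (2 * L)) y = 1 / q * (q * val (perLaw q ^ (2 * L)) y) := by field_simp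
      _ ≤ 1 / q * val (surr q L a b) y := mul_le_mul_of_nonneg_left hlow hq'
      _ ≤ ratioC q * val (surr q L a b) y :=
          mul_le_mul_of_nonneg_right (by unfold ratioC; linarith) (hW.1 y)

/-- The law of a token block as a double binomial sum. -/
theorem lawHom_tok (hq0 : 0 < q) (hq1 : q < 1) {a b : ℕ} (hab : a + b = 2 * L) :
    lawHom q (tokW a b) = q • perLaw q ^ (2 * L) + (1 - q) •
      ∑ p ∈ range (2 * L + 1) ×ˢ range (2 * L + 1), cof q a b p •
        (Qlaw q ^ p.1 * MonoidAlgebra.single (FreeMonoid.of true) 1 * Qlaw q ^ p.2) := by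
  have e : bitLaw q true =
      q • (1 : Law) + (1 - q) • MonoidAlgebra.single (FreeMonoid.of true) 1 := by
    simp [bitLaw, MonoidAlgebra.one_def]
  rw [tokW, map_mul, map_mul, map_pow, map_pow, ← perLaw]
  simp only [lawHom, FreeMonoid.lift_eval_of]
  rw [e, mul_add, add_mul, mul_smul_comm, smul_mul_assoc, mul_one, ← pow_add, hab, mul_smul_comm,
    smul_mul_assoc]
  congr 2
  rw [perLaw_pow_of_le hq0 hq1 (show a ≤ 2 * L by omega),
    perLaw_pow_of_le hq0 hq1 (show b ≤ 2 * L by omega), sum_mul, sum_mul_sum, sum_product]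
  refine sum_congr rfl fun k _ => sum_congr rfl fun l _ => ?_
  rw [smul_mul_assoc, smul_mul_smul_comm, cof]

theorem surr_approx (hq0 : 0 < q) (hq1 : q < 1) {a b : ℕ} (hab : a + b = 2 * L) :
    l1 (surr q L a b - lawHom q (tokW a b)) ≤ 4 * Real.exp (-(th q ^ 2 / 8) * L) := by
  have hQ := Qlaw_isProb hq0 hq1
  rw [lawHom_tok hq0 hq1 hab, surr]
  rw [← sum_sdiff (show winP q L ⊆ range (2 * L + 1) ×ˢ range (2 * L + 1) from filter_subset _ _)]
  set X := ∑ N ∈ range (2 * L + 1) \ win q L, bin (2 * L) (sP q) N • Qlaw q ^ N with hX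
  set Y := ∑ p ∈ (range (2 * L + 1) ×ˢ range (2 * L + 1)) \ winP q L, cof q a b p •
    (Qlaw q ^ p.1 * MonoidAlgebra.single (FreeMonoid.of true) 1 * Qlaw q ^ p.2) with hY
  have hlX : l1 X ≤ ∑ N ∈ range (2 * L + 1) \ win q L, bin (2 * L) (sP q) N := by
    refine (l1_sum _ _).trans (sum_le_sum fun N _ => ?_)
    rw [l1_smul, l1_of_isProb (hQ.pow N), mul_one, abs_of_nonneg (bin_sP_nonneg hq0 hq1 _ _)]
  have hlY : l1 Y ≤ ∑ N ∈ range (2 * L + 1) \ win q L, bin (2 * L) (sP q) N := by
    refine (l1_sum _ _).trans (le_trans (sum_le_sum fun p _ => ?_) (sum_cof_out q hab).le)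
    rw [l1_smul, l1_of_isProb (((hQ.pow _).mul isProb_single_true).mul (hQ.pow _)), mul_one]
    exact (abs_of_nonneg (mul_nonneg (bin_sP_nonneg hq0 hq1 _ _) (bin_sP_nonneg hq0 hq1 _ _))).le
  have ht := tail_bound hq0 hq1 L
  have e : ∀ A S : Law, q • A + (1 - q) • (X + S) - (q • A + (1 - q) • (Y + S)) =
      (1 - q) • (X + -Y) := by
    intro A S
    simp only [smul_add, smul_neg]
    abel
  rw [e, l1_smul, abs_of_pos (show (0 : ℝ) < 1 - q by linarith)]
  have h2 := l1_add X (-Y)
  rw [l1_neg] at h2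
  have h0 := l1_nonneg (X + -Y)
  have h4 := mul_nonneg hq0.le h0
  linarith

end Vale.Agent.P321.Blk
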