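import Vale.Agent.P321.Words
import Vale.Agent.P321.Smoothing

/-!
# P321 module 4a: one pattern block `A^R [pattern] A^R`
-/

namespace Vale.Agent.P321

/-- The part of a pattern expansion of order at most one. -/
noncomputable def linPart (A D : Law) (P : Finset ℕ) (K : ℕ) : Law :=
  patProd A A ∅ K + ∑ i ∈ P, patProd A D {i} K

namespace Block

section Pattern

variable {α : Type*} [Monoid α]

lemma patProd_succ (x y : α) (P : Finset ℕ) (K : ℕ) :
    patProd x y P (K + 1) = patProd x y P K * if K ∈ P then y else x := by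
  simp [patProd, List.range_succ]

lemma patProd_zero (x y : α) (P : Finset ℕ) : patProd x y P 0 = 1 := rfl

lemma patProd_avoid (x y : α) {P : Finset ℕ} :
    ∀ {K : ℕ}, (∀ i < K, i ∉ P) → patProd x y P K = x ^ K
  | 0, _ => by simp [patProd_zero]
  | K + 1, h => by
    rw [patProd_succ, patProd_avoid x y fun i hi => h i (by omega), if_neg (h K (by omega)),
      pow_succ]

lemma patProd_empty (x y : α) (K : ℕ) : patProd x y ∅ K = x ^ K :=
  patProd_avoid x y fun i _ => Finset.notMem_empty i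

lemma patProd_singleton (x y : α) (i : ℕ) :
    ∀ {K : ℕ}, i < K → patProd x y {i} K = x ^ i * y * x ^ (K - 1 - i)
  | 0, h => absurd h (Nat.not_lt_zero i)
  | K + 1, h => by
    rw [patProd_succ]
    rcases Nat.lt_or_ge i K with hi | hi
    · rw [patProd_singleton x y i hi, if_neg (by simp; omega), mul_assoc (x ^ i * y), ← pow_succ]
      congr 2
      omega
    · have e : i = K := by omega
      subst e
      rw [patProd_avoid x y fun j hj => by simp; omega, if_pos (Finset.mem_singleton_self i)]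
      simp

lemma blockProd_empty (x y : α) (R r : ℕ) : blockProd x y ∅ R r = x ^ (2 * R + 2 ^ r) := by
  rw [blockProd, patProd_empty, ← pow_add, ← pow_add]
  congr 1
  omega

lemma blockProd_singleton (x y : α) (R r : ℕ) {i : ℕ} (hi : i < 2 ^ r) :
    blockProd x y {i} R r = x ^ (R + i) * y * x ^ (R + (2 ^ r - 1 - i)) := by
  rw [blockProd, patProd_singleton x y i hi,
    show R + (2 ^ r - 1 - i) = (2 ^ r - 1 - i) + R by omega, pow_add, pow_add]
  simp only [mul_assoc]

end Pattern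

lemma dom_of_ratio {A B : Law} {Lam : ℝ} (hB : IsProb B) (h : Ratio Lam A B) : Dom B A := by
  intro y hy
  refine le_antisymm ?_ (hB.1 y)
  have := (h y).2
  rwa [hy, mul_zero] at this

lemma bdd_self {R : Law} (hR : IsProb R) : Bdd 1 R R := fun y => by
  rw [one_mul, abs_of_nonneg (hR.1 y)]

lemma val_sub (X Y : Law) (y : TW) : val (X - Y) y = val X y - val Y y := by
  simp [val]

lemma bdd_delta {A B : Law} {Lam : ℝ} (hA : IsProb A) (hB : IsProb B) (h : Ratio Lam A B) :
    Bdd (1 + Lam) (B - A) A := fun y => by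
  rw [val_sub, abs_le]
  have h1 := (h y).2
  have h2 := hA.1 y
  have h3 := hB.1 y
  constructor <;> nlinarith

lemma patProd_isProb {A B : Law} (hA : IsProb A) (hB : IsProb B) (P : Finset ℕ) :
    ∀ K, IsProb (patProd A B P K)
  | 0 => by rw [patProd_zero]; exact isProb_one
  | K + 1 => by
    rw [patProd_succ]
    exact (patProd_isProb hA hB P K).mul (by split_ifs <;> assumption)

lemma ratio_self {A : Law} {Lam : ℝ} (hL : 1 ≤ Lam) (hA : IsProb A) : Ratio Lam A A := fun y =>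
  ⟨le_mul_of_one_le_left (hA.1 y) hL, le_mul_of_one_le_left (hA.1 y) hL⟩

lemma patProd_ratio {A B : Law} {Lam : ℝ} (hL : 1 ≤ Lam) (hA : IsProb A) (hB : IsProb B)
    (h : Ratio Lam A B) (P P' : Finset ℕ) :
    ∀ K, Ratio (Lam ^ K) (patProd A B P K) (patProd A B P' K)
  | 0 => by
    rw [patProd_zero, patProd_zero, pow_zero]
    exact ratio_self le_rfl isProb_one
  | K + 1 => by
    rw [patProd_succ, patProd_succ, pow_succ]
    refine Ratio.mul (by positivity) (by linarith) (patProd_isProb hA hB P K)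
      (patProd_isProb hA hB P' K) (by split_ifs <;> assumption) (by split_ifs <;> assumption)
      (patProd_ratio hL hA hB h P P' K) ?_
    split_ifs
    · exact ratio_self hL hB
    · exact fun y => ⟨(h y).2, (h y).1⟩
    · exact h
    · exact ratio_self hL hA

lemma patProd_dom {A X : Law} (hA : IsProb A) (hX : Dom X A) (S : Finset ℕ) :
    ∀ K, Dom (patProd A X S K) (A ^ K)
  | 0 => by rw [patProd_zero, pow_zero]; exact dom_self 1
  | K + 1 => by
    rw [patProd_succ, pow_succ]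
    refine (patProd_dom hA hX S K).mul (hA.pow K).1 hA.1 ?_
    split_ifs
    · exact hX
    · exact dom_self A

lemma patProd_bdd {A X : Law} {a : ℝ} (ha : 1 ≤ a) (hA : IsProb A) (hX : Bdd a X A)
    (S : Finset ℕ) : ∀ K, Bdd (a ^ K) (patProd A X S K) (A ^ K)
  | 0 => by rw [patProd_zero, pow_zero, pow_zero]; exact bdd_self isProb_one
  | K + 1 => by
    rw [patProd_succ, pow_succ A, pow_succ a]
    refine (patProd_bdd ha hA hX S K).mul (by positivity) (by linarith) ?_
    split_ifs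
    · exact hX
    · intro y
      rw [abs_of_nonneg (hA.1 y)]
      exact le_mul_of_one_le_left (hA.1 y) ha

lemma patProd_nsq {A X : Law} (hA : IsProb A) (hX : Dom X A) (S : Finset ℕ) :
    ∀ K, nsq (patProd A X S K) (A ^ K) ≤
      ∏ i ∈ Finset.range K, if i ∈ S then nsq X A else 1
  | 0 => by
    rw [patProd_zero, pow_zero, nsq_self isProb_one]
    simp
  | K + 1 => by
    rw [patProd_succ, pow_succ, Finset.prod_range_succ]
    have hd : Dom (if K ∈ S then X else A) A := by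
      split_ifs
      · exact hX
      · exact dom_self A
    refine (nsq_mul (hA.pow K).1 hA.1 (patProd_dom hA hX S K) hd).trans ?_
    refine mul_le_mul (patProd_nsq hA hX S K) ?_ (nsq_nonneg hA.1)
      (Finset.prod_nonneg fun i _ => by split_ifs <;> first | exact nsq_nonneg hA.1 | norm_num)
    split_ifs
    · exact le_rfl
    · exact (nsq_self hA).le

lemma blockProd_dom {A X : Law} (hA : IsProb A) (hX : Dom X A) (S : Finset ℕ) (R r : ℕ) :
    Dom (blockProd A X S R r) (A ^ (2 * R + 2 ^ r)) := by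
  rw [← blockProd_empty A A, blockProd, blockProd, patProd_empty]
  exact ((dom_self _).mul (hA.pow R).1 (hA.pow _).1 (patProd_dom hA hX S _)).mul
    ((hA.pow R).mul (hA.pow _)).1 (hA.pow R).1 (dom_self _)

lemma blockProd_nsq {A X : Law} (hA : IsProb A) (hX : Dom X A) {S : Finset ℕ} {r : ℕ}
    (hS : S ⊆ Finset.range (2 ^ r)) (R : ℕ) :
    nsq (blockProd A X S R r) (A ^ (2 * R + 2 ^ r)) ≤ nsq X A ^ S.card := by
  rw [← blockProd_empty A A, blockProd, blockProd, patProd_empty]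
  refine (nsq_mul ((hA.pow R).mul (hA.pow _)).1 (hA.pow R).1
    ((dom_self _).mul (hA.pow R).1 (hA.pow _).1 (patProd_dom hA hX S _)) (dom_self _)).trans ?_
  rw [nsq_self (hA.pow R), mul_one]
  refine (nsq_mul (hA.pow R).1 (hA.pow _).1 (dom_self _) (patProd_dom hA hX S _)).trans ?_
  rw [nsq_self (hA.pow R), one_mul]
  refine (patProd_nsq hA hX S _).trans_eq ?_
  rw [Finset.prod_ite_mem, Finset.inter_eq_right.2 hS, Finset.prod_const]

lemma blockProd_bdd {A X : Law} {a : ℝ} (ha : 1 ≤ a) (hA : IsProb A) (hX : Bdd a X A)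
    (S : Finset ℕ) (R r : ℕ) :
    Bdd (a ^ 2 ^ r) (blockProd A X S R r) (A ^ (2 * R + 2 ^ r)) := by
  rw [← blockProd_empty A A, blockProd, blockProd, patProd_empty]
  have := (bdd_self (hA.pow R)).mul zero_le_one (by positivity)
    (patProd_bdd ha hA hX S (2 ^ r))
  have := this.mul (by positivity) zero_le_one (bdd_self (hA.pow R))
  simpa using this

lemma blockProd_expand (A B : Law) {P : Finset ℕ} {r : ℕ} (hP : P ⊆ Finset.range (2 ^ r))
    (R : ℕ) : blockProd A B P R r = ∑ S ∈ P.powerset, blockProd A (B - A) S R r := by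
  simp only [blockProd]
  rw [patProd_expand A B P _ hP, Finset.mul_sum, Finset.sum_mul]

lemma sum_powerset_split {M : Type*} [AddCommMonoid M] (P : Finset ℕ) (f : Finset ℕ → M) :
    ∑ S ∈ P.powerset, f S = f ∅ + ∑ i ∈ P, f {i} + ∑ S ∈ P.powersetCard 2, f S +
      ∑ S ∈ P.powerset.filter (3 ≤ ·.card), f S := by
  have h0 : ∑ S ∈ P.powersetCard 0, f S = f ∅ := by simp
  have h1 : ∑ S ∈ P.powersetCard 1, f S = ∑ i ∈ P, f {i} := by
    rw [Finset.powersetCard_one, Finset.sum_map]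
    rfl
  rw [← h0, ← h1]
  simp only [Finset.powersetCard_eq_filter, Finset.sum_filter, ← Finset.sum_add_distrib]
  refine Finset.sum_congr rfl fun S _ => ?_
  rcases lt_or_ge S.card 3 with h | h
  · interval_cases hc : S.card <;> simp
  · have n0 : S.card ≠ 0 := by omega
    have n1 : S.card ≠ 1 := by omega
    have n2 : S.card ≠ 2 := by omega
    rw [if_neg n0, if_neg n1, if_neg n2, if_pos h]
    simp

lemma dom_zero (R : Law) : Dom 0 R := fun y _ => by simp [val]

lemma dom_sum {ι : Type*} (s : Finset ι) {X : ι → Law} {R : Law} (h : ∀ i ∈ s, Dom (X i) R) :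
    Dom (∑ i ∈ s, X i) R :=
  Finset.sum_induction X (fun Y => Dom Y R) (fun _ _ hX hY => hX.add hY) (dom_zero R) h

lemma bdd_sum {ι : Type*} [DecidableEq ι] (s : Finset ι) {X : ι → Law} {R : Law} {a : ℝ}
    (h : ∀ i ∈ s, Bdd a (X i) R) : Bdd ((s.card : ℝ) * a) (∑ i ∈ s, X i) R := by
  induction s using Finset.induction_on with
  | empty =>
    intro y
    simp [val]
  | insert i s hi ih =>
    rw [Finset.sum_insert hi, Finset.card_insert_of_notMem hi]
    have := (h i (Finset.mem_insert_self i s)).add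
      (ih fun j hj => h j (Finset.mem_insert_of_mem hj))
    convert this using 1
    push_cast
    ring

lemma nsq_terms_le {A X : Law} {r : ℕ} (hA : IsProb A) (hX : Dom X A) (he : nsq X A ≤ 1)
    {P : Finset ℕ} (hP : P ⊆ Finset.range (2 ^ r)) {s : Finset (Finset ℕ)} (hs : s ⊆ P.powerset)
    {j : ℕ} (hj : ∀ S ∈ s, j ≤ S.card) (R : ℕ) :
    nsq (∑ S ∈ s, blockProd A X S R r) (A ^ (2 * R + 2 ^ r)) ≤
      (2 ^ 2 ^ r : ℝ) ^ 2 * nsq X A ^ j := by
  have h0 : 0 ≤ nsq X A := nsq_nonneg hA.1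
  have hb : (s.card : ℝ) ≤ 2 ^ 2 ^ r := by
    have h1 := Finset.card_le_card hs
    rw [Finset.card_powerset] at h1
    have h2 : P.card ≤ 2 ^ r := by simpa using Finset.card_le_card hP
    exact_mod_cast h1.trans (Nat.pow_le_pow_right two_pos h2)
  refine (nsq_sum s _ (hA.pow _).1).trans ?_
  calc (s.card : ℝ) * ∑ S ∈ s, nsq (blockProd A X S R r) (A ^ (2 * R + 2 ^ r))
      ≤ (s.card : ℝ) * ∑ _S ∈ s, nsq X A ^ j := by
        refine mul_le_mul_of_nonneg_left (Finset.sum_le_sum fun S hS => ?_) (Nat.cast_nonneg _)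
        exact (blockProd_nsq hA hX ((Finset.mem_powerset.1 (hs hS)).trans hP) R).trans
          (pow_le_pow_of_le_one h0 he (hj S hS))
    _ = (s.card : ℝ) ^ 2 * nsq X A ^ j := by
        rw [Finset.sum_const, nsmul_eq_mul]; ring
    _ ≤ _ := mul_le_mul_of_nonneg_right (pow_le_pow_left₀ (Nat.cast_nonneg _) hb 2)
        (pow_nonneg h0 j)

/-- The first order parts of the two Thue–Morse blocks almost cancel. -/
lemma nsq_singles (Lam th : ℝ) (hL : 1 ≤ Lam) (hth : 0 < th) (r : ℕ) : ∃ C : ℝ, 0 < C ∧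
    ∀ (A B : Law) (g R : ℕ), IsProb A → IsProb B → Ratio Lam A B → 1 ≤ g → 1 ≤ R →
      Overlap A g th →
      nsq (∑ i ∈ (tmSets r).2, blockProd A (B - A) {i} R r -
          ∑ i ∈ (tmSets r).1, blockProd A (B - A) {i} R r) (A ^ (2 * R + 2 ^ r)) ≤
        C * Real.sqrt ((g : ℝ) / R) ^ r := by
  obtain ⟨C₀, hC₀, hTM⟩ := l1_tm_translates th hth r
  set b : ℝ := (1 + Lam) ^ 2 ^ r with hb
  have hb0 : 0 < b := pow_pos (by linarith) _
  refine ⟨2 * (2 ^ r : ℕ) * b * (C₀ * 2), by positivity, ?_⟩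
  intro A B g R hA hB hAB hg hR hov
  have hd : Bdd (1 + Lam) (B - A) A := bdd_delta hA hB hAB
  obtain ⟨hs0, hs1⟩ := tmSets_subset r
  have hone : ∀ P : Finset ℕ, P ⊆ Finset.range (2 ^ r) →
      Bdd (((2 ^ r : ℕ) : ℝ) * b) (∑ i ∈ P, blockProd A (B - A) {i} R r)
        (A ^ (2 * R + 2 ^ r)) := fun P hP y => by
    refine (bdd_sum P (fun i _ => blockProd_bdd (by linarith) hA hd {i} R r) y).trans ?_
    have := (hA.pow (2 * R + 2 ^ r)).1 y
    have hcard : P.card ≤ 2 ^ r := by simpa using Finset.card_le_card hP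
    gcongr
  have hbdd : Bdd (2 * ((2 ^ r : ℕ) : ℝ) * b)
      (∑ i ∈ (tmSets r).2, blockProd A (B - A) {i} R r -
        ∑ i ∈ (tmSets r).1, blockProd A (B - A) {i} R r) (A ^ (2 * R + 2 ^ r)) := fun y => by
    rw [val_sub, mul_assoc 2, mul_assoc 2, two_mul]
    exact (abs_sub _ _).trans (add_le_add (hone _ hs1 y) (hone _ hs0 y))
  refine (nsq_le_of_bdd (hA.pow _).1 hbdd).trans ?_
  have hl1 : l1 (B - A) ≤ 2 := by
    rw [sub_eq_add_neg]
    refine (l1_add _ _).trans ?_
    rw [l1_neg, l1_of_isProb hA, l1_of_isProb hB]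
    norm_num
  have key : l1 (∑ i ∈ (tmSets r).2, blockProd A (B - A) {i} R r -
      ∑ i ∈ (tmSets r).1, blockProd A (B - A) {i} R r) ≤
      C₀ * Real.sqrt ((g : ℝ) / R) ^ r * 2 := by
    rw [← l1_neg, neg_sub]
    rw [Finset.sum_congr rfl fun i hi =>
        blockProd_singleton A (B - A) R r (Finset.mem_range.1 (hs0 hi)),
      Finset.sum_congr rfl fun i hi =>
        blockProd_singleton A (B - A) R r (Finset.mem_range.1 (hs1 hi))]
    exact (hTM A (B - A) g R hA hg hR hov).trans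
      (mul_le_mul_of_nonneg_left hl1 (by positivity))
  calc _ ≤ 2 * ((2 ^ r : ℕ) : ℝ) * b * (C₀ * Real.sqrt ((g : ℝ) / R) ^ r * 2) :=
        mul_le_mul_of_nonneg_left key (by positivity)
    _ = _ := by ring

lemma change_ref {A B X : Law} {Lam : ℝ} (hL : 1 ≤ Lam) (hA : IsProb A) (hB : IsProb B)
    (h : Ratio Lam A B) (P : Finset ℕ) (R r : ℕ) (hd : Dom X (A ^ (2 * R + 2 ^ r))) :
    nsq X (blockProd A B P R r) ≤ Lam ^ 2 ^ r * nsq X (A ^ (2 * R + 2 ^ r)) := by
  refine nsq_change (by positivity) (hA.pow _).1 hd fun y => ?_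
  have hp := patProd_ratio hL hA hB h ∅ P (2 ^ r)
  have hr := ((ratio_self le_rfl (hA.pow R)).mul zero_le_one (by positivity) (hA.pow R) (hA.pow R)
    (patProd_isProb hA hB ∅ _) (patProd_isProb hA hB P _) hp).mul (by positivity) zero_le_one
      ((hA.pow R).mul (patProd_isProb hA hB ∅ _)) ((hA.pow R).mul (patProd_isProb hA hB P _))
      (hA.pow R) (hA.pow R) (ratio_self le_rfl (hA.pow R))
  rw [← blockProd_empty A B]
  simpa [blockProd] using (hr y).1

end Block

open Block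

theorem blockProd_hom {α β : Type*} [Monoid α] [Monoid β] (f : α →* β) (x y : α) (P : Finset ℕ)
    (R r : ℕ) : f (blockProd x y P R r) = blockProd (f x) (f y) P R r := by
  simp only [blockProd, patProd, map_mul, map_pow, map_list_prod, List.map_map]
  congr 3
  refine List.map_congr_left fun i _ => ?_
  simp only [Function.comp_apply]
  split_ifs <;> rfl

theorem block_isProb {A B : Law} (hA : IsProb A) (hB : IsProb B) (P : Finset ℕ) (R r : ℕ) :
    IsProb (blockProd A B P R r) :=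
  ((hA.pow R).mul (patProd_isProb hA hB P _)).mul (hA.pow R)

theorem block_ratio {A B : Law} {Lam : ℝ} (hL : 1 ≤ Lam) (hA : IsProb A) (hB : IsProb B)
    (h : Ratio Lam A B) (P P' : Finset ℕ) (R r : ℕ) :
    Ratio (Lam ^ (2 ^ r)) (blockProd A B P R r) (blockProd A B P' R r) := by
  have hs := ratio_self (le_refl 1) (hA.pow R)
  have := (hs.mul zero_le_one (by positivity) (hA.pow R) (hA.pow R) (patProd_isProb hA hB P _)
    (patProd_isProb hA hB P' _) (patProd_ratio hL hA hB h P P' (2 ^ r))).mul (by positivity)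
      zero_le_one ((hA.pow R).mul (patProd_isProb hA hB P _))
      ((hA.pow R).mul (patProd_isProb hA hB P' _)) (hA.pow R) (hA.pow R) hs
  simpa [blockProd] using this

/-- Separating the pairs from the rest of the difference of two Thue–Morse blocks. -/
theorem block_pairs (Lam th : ℝ) (hL : 1 ≤ Lam) (hth : 0 < th) (r : ℕ) : ∃ C : ℝ, 0 < C ∧
    ∀ (A B : Law) (g R : ℕ), IsProb A → IsProb B → Ratio Lam A B → 1 ≤ g → 1 ≤ R →
      Overlap A g th → nsq (B - A) A ≤ 1 →
      nsq (blockProd A B (tmSets r).2 R r - blockProd A B (tmSets r).1 R r -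
            (∑ S ∈ (tmSets r).2.powersetCard 2, blockProd A (B - A) S R r -
              ∑ S ∈ (tmSets r).1.powersetCard 2, blockProd A (B - A) S R r))
          (blockProd A B (tmSets r).1 R r) ≤
        C * (nsq (B - A) A ^ 3 + Real.sqrt ((g : ℝ) / R) ^ r) := by
  obtain ⟨C₁, hC₁, hsing⟩ := nsq_singles Lam th hL hth r
  set H : ℝ := (2 ^ 2 ^ r : ℝ) ^ 2 with hH
  refine ⟨Lam ^ 2 ^ r * (2 * C₁ + 8 * H),
    mul_pos (pow_pos (by linarith) _) (by positivity), ?_⟩
  intro A B g R hA hB hAB hg hR hov he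
  obtain ⟨hs0, hs1⟩ := tmSets_subset r
  have hd : Dom (B - A) A := (dom_of_ratio hB hAB).sub (dom_self A)
  have hterm : ∀ S : Finset ℕ, Dom (blockProd A (B - A) S R r) (A ^ (2 * R + 2 ^ r)) :=
    fun S => blockProd_dom hA hd S R r
  have hs : ∀ s : Finset (Finset ℕ),
      Dom (∑ S ∈ s, blockProd A (B - A) S R r) (A ^ (2 * R + 2 ^ r)) :=
    fun s => dom_sum s fun S _ => hterm S
  have hi : ∀ s : Finset ℕ,
      Dom (∑ i ∈ s, blockProd A (B - A) {i} R r) (A ^ (2 * R + 2 ^ r)) :=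
    fun s => dom_sum s fun i _ => hterm _
  have hdec : blockProd A B (tmSets r).2 R r - blockProd A B (tmSets r).1 R r -
            (∑ S ∈ (tmSets r).2.powersetCard 2, blockProd A (B - A) S R r -
              ∑ S ∈ (tmSets r).1.powersetCard 2, blockProd A (B - A) S R r) =
      (∑ i ∈ (tmSets r).2, blockProd A (B - A) {i} R r -
          ∑ i ∈ (tmSets r).1, blockProd A (B - A) {i} R r) +
        (∑ S ∈ (tmSets r).2.powerset.filter (3 ≤ ·.card), blockProd A (B - A) S R r +
          -∑ S ∈ (tmSets r).1.powerset.filter (3 ≤ ·.card), blockProd A (B - A) S R r) := by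
    rw [blockProd_expand A B hs1, blockProd_expand A B hs0, sum_powerset_split,
      sum_powerset_split]
    abel
  rw [hdec]
  refine (change_ref hL hA hB hAB _ R r (((hi _).sub (hi _)).add ((hs _).add ?_))).trans ?_
  · rw [← zero_sub]
    exact (dom_zero _).sub (hs _)
  rw [mul_assoc (Lam ^ 2 ^ r)]
  refine mul_le_mul_of_nonneg_left ?_ (by positivity)
  refine (nsq_add (hA.pow _).1).trans ?_
  refine (add_le_add le_rfl (mul_le_mul_of_nonneg_left (nsq_add (hA.pow _).1) zero_le_two)).trans ?_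
  rw [← neg_one_smul ℝ
      (∑ S ∈ (tmSets r).1.powerset.filter (3 ≤ ·.card), blockProd A (B - A) S R r), nsq_smul,
    neg_one_sq, one_mul]
  have t1 := hsing A B g R hA hB hAB hg hR hov
  have t2 := nsq_terms_le hA hd he hs1 (Finset.filter_subset (3 ≤ ·.card) (tmSets r).2.powerset)
    (j := 3) (fun S hS => (Finset.mem_filter.1 hS).2) R
  have t3 := nsq_terms_le hA hd he hs0 (Finset.filter_subset (3 ≤ ·.card) (tmSets r).1.powerset)
    (j := 3) (fun S hS => (Finset.mem_filter.1 hS).2) R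
  have h0 : 0 ≤ nsq (B - A) A ^ 3 := pow_nonneg (nsq_nonneg hA.1) 3
  have h1 : (0 : ℝ) ≤ Real.sqrt ((g : ℝ) / R) ^ r := by positivity
  have hH0 : 0 ≤ H := by positivity
  nlinarith [mul_nonneg hC₁.le h0, mul_nonneg hH0 h1]

/-- The two Thue–Morse blocks differ only to second order. -/
theorem block_diff (Lam th : ℝ) (hL : 1 ≤ Lam) (hth : 0 < th) (r : ℕ) : ∃ C : ℝ, 0 < C ∧
    ∀ (A B : Law) (g R : ℕ), IsProb A → IsProb B → Ratio Lam A B → 1 ≤ g → 1 ≤ R →
      Overlap A g th → nsq (B - A) A ≤ 1 →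
      nsq (blockProd A B (tmSets r).2 R r - blockProd A B (tmSets r).1 R r)
          (blockProd A B (tmSets r).1 R r) ≤
        C * (nsq (B - A) A ^ 2 + Real.sqrt ((g : ℝ) / R) ^ r) := by
  obtain ⟨C, hC, hpairs⟩ := block_pairs Lam th hL hth r
  set H : ℝ := (2 ^ 2 ^ r : ℝ) ^ 2 with hH
  refine ⟨2 * C + 8 * (Lam ^ 2 ^ r * H), by positivity, ?_⟩
  intro A B g R hA hB hAB hg hR hov he
  obtain ⟨hs0, hs1⟩ := tmSets_subset r
  have hd : Dom (B - A) A := (dom_of_ratio hB hAB).sub (dom_self A)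
  have hX := block_isProb hA hB (tmSets r).1 R r
  have h3 := hpairs A B g R hA hB hAB hg hR hov he
  have hp : ∀ P : Finset ℕ, P ⊆ Finset.range (2 ^ r) →
      nsq (∑ S ∈ P.powersetCard 2, blockProd A (B - A) S R r)
          (blockProd A B (tmSets r).1 R r) ≤ Lam ^ 2 ^ r * (H * nsq (B - A) A ^ 2) := by
    intro P hP
    refine (change_ref hL hA hB hAB _ R r (dom_sum _ fun S _ => blockProd_dom hA hd S R r)).trans
      (mul_le_mul_of_nonneg_left ?_ (by positivity))
    exact nsq_terms_le hA hd he hP (fun S hS => Finset.mem_powerset.2 (Finset.mem_powersetCard.1 hS).1)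
      (fun S hS => (Finset.mem_powersetCard.1 hS).2.ge) R
  set T := blockProd A B (tmSets r).2 R r - blockProd A B (tmSets r).1 R r
  set p := ∑ S ∈ (tmSets r).2.powersetCard 2, blockProd A (B - A) S R r
  set p' := ∑ S ∈ (tmSets r).1.powersetCard 2, blockProd A (B - A) S R r
  have hpow : nsq (B - A) A ^ 3 ≤ nsq (B - A) A ^ 2 :=
    pow_le_pow_of_le_one (nsq_nonneg hA.1) he (by norm_num)
  rw [show T = (T - (p - p')) + (p + (-1 : ℝ) • p') by rw [neg_one_smul]; abel]
  refine (nsq_add hX.1).trans ?_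
  refine (add_le_add le_rfl (mul_le_mul_of_nonneg_left (nsq_add hX.1) zero_le_two)).trans ?_
  rw [nsq_smul, neg_one_sq, one_mul]
  have h1 : (0 : ℝ) ≤ Real.sqrt ((g : ℝ) / R) ^ r := by positivity
  have hq : 0 ≤ Lam ^ 2 ^ r * H := by positivity
  have := mul_le_mul_of_nonneg_left hpow hC.le
  nlinarith [hp _ hs1, hp _ hs0, mul_nonneg hq h1]

/-- A block is close to the corresponding power of `A`. -/
theorem block_near (Lam : ℝ) (hL : 1 ≤ Lam) (r : ℕ) : ∃ C : ℝ, 0 < C ∧
    ∀ (A B : Law) (R : ℕ), IsProb A → IsProb B → Ratio Lam A B → nsq (B - A) A ≤ 1 →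
      ∀ P : Finset ℕ, P ⊆ Finset.range (2 ^ r) →
        nsq (blockProd A B P R r - A ^ (2 * R + 2 ^ r)) (A ^ (2 * R + 2 ^ r)) ≤
          C * nsq (B - A) A := by
  have _ := hL
  refine ⟨(2 ^ 2 ^ r : ℝ) ^ 2, by positivity, ?_⟩
  intro A B R hA hB hAB he P hP
  have hd : Dom (B - A) A := (dom_of_ratio hB hAB).sub (dom_self A)
  have hdec : blockProd A B P R r - A ^ (2 * R + 2 ^ r) =
      ∑ S ∈ P.powerset.erase ∅, blockProd A (B - A) S R r := by
    rw [blockProd_expand A B hP, ← Finset.add_sum_erase _ _ (Finset.empty_mem_powerset P),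
      blockProd_empty]
    abel
  rw [hdec]
  simpa using nsq_terms_le hA hd he hP (Finset.erase_subset ∅ P.powerset) (j := 1)
    (fun S hS => Finset.card_pos.2 (Finset.nonempty_iff_ne_empty.2 (Finset.mem_erase.1 hS).1)) R

/-- Overlap passes from `A` to a periodic background of blocks. -/
theorem block_overlap (th : ℝ) (hth : 0 < th) : ∃ C : ℝ, 0 < C ∧
    ∀ (A A' : Law) (g g' G : ℕ) (eps : ℝ), IsProb A → IsProb A' → Dom A' (A ^ G) → 1 ≤ g →
      1 ≤ g' → 1 ≤ G → Overlap A g th → nsq (A' - A ^ G) (A ^ G) ≤ eps →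
      ((g' : ℝ) + 1) * eps ≤ 1 →
      l1 (A' ^ g' - A' ^ (g' + 1)) ≤
        C * (Real.sqrt ((G : ℝ) * g / g') + Real.sqrt (((g' : ℝ) + 1) * eps)) := by
  obtain ⟨C₀, hC₀, hshift⟩ := l1_pow_shift th hth
  refine ⟨C₀ + 4, by positivity, ?_⟩
  intro A A' g g' G eps hA hA' hdom hg hg' hG hov heps hsmall
  have hZ := hA.pow G
  have he0 : 0 ≤ eps := (nsq_nonneg hZ.1).trans heps
  have hdpow : ∀ n, Dom (A' ^ n) ((A ^ G) ^ n) := by
    intro n
    induction n with
    | zero => simpa using dom_self (1 : Law)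
    | succ n ih => rw [pow_succ, pow_succ]; exact ih.mul (hZ.pow n).1 hZ.1 hdom
  have hend : ∀ n : ℕ, n ≤ g' + 1 →
      l1 (A' ^ n - (A ^ G) ^ n) ≤ 2 * Real.sqrt (((g' : ℝ) + 1) * eps) := by
    intro n hn
    refine (l1_le_sqrt_nsq (hZ.pow n) ((hdpow n).sub (dom_self _))).trans ?_
    rw [show (2 : ℝ) = Real.sqrt 4 by rw [show (4 : ℝ) = 2 ^ 2 by norm_num, Real.sqrt_sq zero_le_two],
      ← Real.sqrt_mul (by norm_num : (0 : ℝ) ≤ 4)]
    refine Real.sqrt_le_sqrt ((nsq_pow_sub hZ hA' hdom n).trans ?_)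
    rw [nsq_probability hA' hZ hdom]
    have hn' : (n : ℝ) ≤ (g' : ℝ) + 1 := by exact_mod_cast hn
    have h1 : (n : ℝ) * eps ≤ ((g' : ℝ) + 1) * eps := mul_le_mul_of_nonneg_right hn' he0
    have h2 : 0 ≤ (n : ℝ) * eps := by positivity
    calc (1 + nsq (A' - A ^ G) (A ^ G)) ^ n - 1 ≤ Real.exp ((n : ℝ) * eps) - 1 := by
          rw [Real.exp_nat_mul]
          refine sub_le_sub_right (pow_le_pow_left₀ ?_ ?_ n) 1
          · linarith [nsq_nonneg (X := A' - A ^ G) hZ.1]
          · linarith [Real.add_one_le_exp eps]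
      _ ≤ |Real.exp ((n : ℝ) * eps) - 1| := le_abs_self _
      _ ≤ 2 * |(n : ℝ) * eps| := Real.abs_exp_sub_one_le (by rw [abs_of_nonneg h2]; linarith)
      _ ≤ 4 * (((g' : ℝ) + 1) * eps) := by rw [abs_of_nonneg h2]; linarith
  have hmid : l1 ((A ^ G) ^ g' - (A ^ G) ^ (g' + 1)) ≤
      C₀ * Real.sqrt ((G : ℝ) * g / g') := by
    rw [← l1_neg, neg_sub, ← pow_mul, ← pow_mul, mul_add, mul_one]
    refine (hshift A g (G * g') G hA hg (Nat.one_le_iff_ne_zero.2 (by positivity)) hov).trans_eq ?_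
    have hG' : (0 : ℝ) < G := by exact_mod_cast hG
    have hg0 : (0 : ℝ) < g' := by exact_mod_cast hg'
    rw [mul_assoc]
    congr 1
    push_cast
    rw [show (G : ℝ) * g / g' = (G : ℝ) ^ 2 * ((g : ℝ) / ((G : ℝ) * g')) by field_simp,
      Real.sqrt_mul (sq_nonneg _), Real.sqrt_sq hG'.le]
  have htri : l1 (A' ^ g' - A' ^ (g' + 1)) ≤ l1 (A' ^ g' - (A ^ G) ^ g') +
      (l1 ((A ^ G) ^ g' - (A ^ G) ^ (g' + 1)) + l1 (A' ^ (g' + 1) - (A ^ G) ^ (g' + 1))) := by
    rw [← l1_neg (A' ^ (g' + 1) - (A ^ G) ^ (g' + 1))]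
    refine le_trans (le_of_eq ?_) ((l1_add _ _).trans (add_le_add le_rfl (l1_add _ _)))
    congr 1
    abel
  have := hend g' (by omega)
  have := hend (g' + 1) le_rfl
  have hs1 : 0 ≤ Real.sqrt ((G : ℝ) * g / g') := Real.sqrt_nonneg _
  have hs2 : 0 ≤ Real.sqrt (((g' : ℝ) + 1) * eps) := Real.sqrt_nonneg _
  nlinarith

end Vale.Agent.P321
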