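import Mathlib

/-!
# P321: worst-case trace reconstruction, the definitions used by the statement
-/

namespace Vale.Agent.P321

open Finset

/-- The subword of `x` on the positions in `S`, in increasing order. -/
def keep {n : ℕ} (x : Fin n → Bool) (S : Finset (Fin n)) : List Bool :=
  ((List.finRange n).filter fun i => decide (i ∈ S)).map x

/-- Probability that the deletion channel with deletion probability `q` outputs `y` on input `x`. -/
noncomputable def traceProb (q : ℝ) {n : ℕ} (x : Fin n → Bool) (y : List Bool) : ℝ :=
  ∑ S : Finset (Fin n), if keep x S = y then (1 - q) ^ S.card * q ^ (n - S.card) else 0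

/-- All possible traces of `x`. -/
def traceSet {n : ℕ} (x : Fin n → Bool) : Finset (List Bool) :=
  (univ : Finset (Finset (Fin n))).image (keep x)

/-- A randomised estimator from `m` traces. -/
def IsEstimator (n m : ℕ) (est : (Fin m → List Bool) → (Fin n → Bool) → ℝ) : Prop :=
  ∀ s, (∀ z, 0 ≤ est s z) ∧ ∑ z, est s z = 1

/-- Probability that the estimator outputs `x` on `m` independent traces of `x`. -/
noncomputable def successProb (q : ℝ) {n m : ℕ}
    (est : (Fin m → List Bool) → (Fin n → Bool) → ℝ) (x : Fin n → Bool) : ℝ :=
  ∑ s ∈ Fintype.piFinset (fun _ : Fin m => traceSet x), (∏ i, traceProb q x (s i)) * est s x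

/-- `m` traces suffice for every word of length `n`. -/
def CanReconstruct (q : ℝ) (n m : ℕ) : Prop :=
  ∃ est : (Fin m → List Bool) → (Fin n → Bool) → ℝ,
    IsEstimator n m est ∧ ∀ x, 2 / 3 ≤ successProb q est x

/-- The worst-case sample complexity of trace reconstruction. -/
noncomputable def sampleComplexity (q : ℝ) (n : ℕ) : ℕ :=
  sInf {m | CanReconstruct q n m}

end Vale.Agent.P321
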