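import Mathlib

/-!
# P321: signed measures on binary words, as an algebra under concatenation
-/

namespace Vale.Agent.P321

/-- Binary words under concatenation. -/
abbrev TW : Type := FreeMonoid Bool

/-- Signed finitely supported measures on words; multiplication is concatenation. -/
abbrev Law : Type := MonoidAlgebra ℝ TW

/-- Evaluate a signed measure at a word. -/
def val (X : Law) (y : TW) : ℝ := X.coeff y

/-- Support of a signed measure. -/
def supp (X : Law) : Finset TW := X.coeff.support

/-- Deletion channel on one bit. -/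
noncomputable def bitLaw (q : ℝ) (b : Bool) : Law :=
  MonoidAlgebra.single 1 q + MonoidAlgebra.single (FreeMonoid.of b) (1 - q)

/-- The law of the trace of a word. -/
noncomputable def lawHom (q : ℝ) : TW →* Law := FreeMonoid.lift (bitLaw q)

/-- Total variation norm. -/
noncomputable def l1 (X : Law) : ℝ := ∑ y ∈ supp X, |val X y|

/-- Total mass. -/
noncomputable def mass (X : Law) : ℝ := ∑ y ∈ supp X, val X y

/-- Squared chi-square norm relative to `R`. -/
noncomputable def nsq (X R : Law) : ℝ := ∑ y ∈ supp X, val X y ^ 2 / val R y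

/-- Fourth power chi norm relative to `R`. -/
noncomputable def nq (X R : Law) : ℝ := ∑ y ∈ supp X, val X y ^ 4 / val R y ^ 3

/-- Inner product relative to `R`. -/
noncomputable def inn (X Y R : Law) : ℝ := ∑ y ∈ supp X, val X y * val Y y / val R y

/-- Nonnegative measures. -/
def Pos (X : Law) : Prop := ∀ y, 0 ≤ val X y

/-- Probability laws. -/
def IsProb (X : Law) : Prop := Pos X ∧ mass X = 1

/-- `X` lives on the support of `R`. -/
def Dom (X R : Law) : Prop := ∀ y, val R y = 0 → val X y = 0

/-- Pointwise comparison with constant `Lam`. -/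
def Bdd (Lam : ℝ) (X R : Law) : Prop := ∀ y, |val X y| ≤ Lam * val R y

/-- Mutual pointwise comparability. -/
def Ratio (Lam : ℝ) (A B : Law) : Prop :=
  ∀ y, val A y ≤ Lam * val B y ∧ val B y ≤ Lam * val A y

/-- Powers `g` and `g + 1` of `A` are not mutually singular. -/
def Overlap (A : Law) (g : ℕ) (th : ℝ) : Prop := l1 (A ^ g - A ^ (g + 1)) ≤ 2 - 2 * th

/-- Ordered product of a finite sequence of measures. -/
noncomputable def wordL {K : ℕ} (f : Fin K → Law) : Law := (List.ofFn f).prod

/-- The Thue–Morse halves of `[0, 2^r)`. -/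
def tmSets : ℕ → Finset ℕ × Finset ℕ
  | 0 => ({0}, ∅)
  | r + 1 => ((tmSets r).1 ∪ (tmSets r).2.image (· + 2 ^ r),
      (tmSets r).2 ∪ (tmSets r).1.image (· + 2 ^ r))

/-- Product of a pattern: `y` on `P`, `x` elsewhere. -/
def patProd {α : Type*} [Monoid α] (x y : α) (P : Finset ℕ) (K : ℕ) : α :=
  ((List.range K).map fun i => if i ∈ P then y else x).prod

/-- A pattern of length `2^r` between two runs of length `R`. -/
def blockProd {α : Type*} [Monoid α] (x y : α) (P : Finset ℕ) (R r : ℕ) : α :=
  x ^ R * patProd x y P (2 ^ r) * x ^ R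

end Vale.Agent.P321
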