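import Vale.Agent.P321.Algebra
import Vale.Agent.P321.Defs

/-!
# P321 module 8: from a close pair to sample complexity
-/

namespace Vale.Agent.P321

open Finset

theorem keep_succ {n : ℕ} (x : Fin (n + 1) → Bool) (S : Finset (Fin (n + 1))) :
    keep x S = (if 0 ∈ S then [x 0] else []) ++
      keep (fun i => x i.succ) (univ.filter fun i => i.succ ∈ S) := by
  unfold keep
  rw [List.finRange_succ, List.filter_cons]
  by_cases h : (0 : Fin (n + 1)) ∈ S <;> simp [h, List.filter_map, Function.comp_def, List.map_map]

/-- A set of positions, split at the first position. -/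
def splitFirst (n : ℕ) : Finset (Fin (n + 1)) ≃ Bool × Finset (Fin n) where
  toFun S := (decide (0 ∈ S), univ.filter fun i => i.succ ∈ S)
  invFun p := univ.filter fun j => Fin.cases p.1 (fun i => decide (i ∈ p.2)) j = true
  left_inv S := by
    ext j
    cases j using Fin.cases <;> simp
  right_inv p := by
    refine Prod.ext ?_ (Finset.ext fun i => ?_) <;> simp

theorem card_splitFirst {n : ℕ} (S : Finset (Fin (n + 1))) :
    S.card = (if 0 ∈ S then 1 else 0) + (univ.filter fun i : Fin n => i.succ ∈ S).card := by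
  have h : ∀ T : Finset (Fin (n + 1)), T.card = ∑ j, if j ∈ T then 1 else 0 := fun T => by
    rw [← Finset.sum_filter, ← Finset.card_eq_sum_ones, Finset.filter_univ_mem]
  rw [h S, Fin.sum_univ_succ, Finset.card_filter]

theorem lawHom_ofFn (q : ℝ) : ∀ {n : ℕ} (x : Fin n → Bool),
    lawHom q (FreeMonoid.ofList (List.ofFn x)) = ∑ S : Finset (Fin n),
      MonoidAlgebra.single (FreeMonoid.ofList (keep x S)) ((1 - q) ^ S.card * q ^ (n - S.card)) := by
  intro n
  induction n with
  | zero =>
    intro x
    rw [Fintype.sum_subsingleton _ (∅ : Finset (Fin 0))]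
    simp [keep, MonoidAlgebra.one_def]
  | succ n ih =>
    intro x
    rw [List.ofFn_succ, show FreeMonoid.ofList (x 0 :: List.ofFn fun i => x i.succ)
        = FreeMonoid.of (x 0) * FreeMonoid.ofList (List.ofFn fun i => x i.succ) from rfl,
      map_mul, ih, lawHom, FreeMonoid.lift_eval_of, bitLaw, add_mul, Finset.mul_sum,
      Finset.mul_sum, ← (splitFirst n).symm.sum_comp, Fintype.sum_prod_type, Fintype.sum_bool,
      add_comm]
    have ev : ∀ (b : Bool) (T : Finset (Fin n)),
        (0 ∈ (splitFirst n).symm (b, T) ↔ b = true) ∧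
          (univ.filter fun i : Fin n => i.succ ∈ (splitFirst n).symm (b, T)) = T := fun b T => by
      constructor
      · simp [splitFirst]
      · ext i; simp [splitFirst]
    have hle : ∀ T : Finset (Fin n), T.card ≤ n := fun T => by
      simpa using Finset.card_le_univ T
    congr 1
    · refine Finset.sum_congr rfl fun T _ => ?_
      rw [keep_succ, card_splitFirst, if_pos ((ev true T).1.mpr rfl),
        if_pos ((ev true T).1.mpr rfl), (ev true T).2, MonoidAlgebra.single_mul_single,
        show n + 1 - (1 + T.card) = n - T.card by omega, pow_add, pow_one, mul_assoc]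
      rfl
    · refine Finset.sum_congr rfl fun T _ => ?_
      have h0 : ¬ (0 ∈ (splitFirst n).symm (false, T)) := fun h => by simpa using (ev false T).1.mp h
      rw [keep_succ, card_splitFirst, if_neg h0, if_neg h0, (ev false T).2,
        MonoidAlgebra.single_mul_single, zero_add, Nat.succ_sub (hle T), pow_succ']
      rw [List.nil_append, one_mul, mul_left_comm]

theorem traceProb_eq (q : ℝ) {n : ℕ} (x : Fin n → Bool) (y : List Bool) :
    traceProb q x y = val (lawHom q (FreeMonoid.ofList (List.ofFn x))) (FreeMonoid.ofList y) := by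
  rw [lawHom_ofFn]
  simp only [traceProb, val, MonoidAlgebra.coeff_sum, MonoidAlgebra.coeff_single,
    Finsupp.coe_finsetSum, Finset.sum_apply]
  refine Finset.sum_congr rfl fun S _ => ?_
  split_ifs with h
  · subst h
    rw [Finsupp.single_eq_same]
  · rw [Finsupp.single_eq_of_ne]
    exact fun h' => h (FreeMonoid.ofList.injective h'.symm)

theorem traceProb_nonneg {q : ℝ} (hq0 : 0 ≤ q) (hq1 : q ≤ 1) {n : ℕ} (x : Fin n → Bool)
    (y : List Bool) : 0 ≤ traceProb q x y := by
  refine Finset.sum_nonneg fun S _ => ?_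
  split
  · exact mul_nonneg (pow_nonneg (by linarith) _) (pow_nonneg hq0 _)
  · exact le_rfl

theorem sum_traceProb (q : ℝ) {n : ℕ} (x : Fin n → Bool) {U : Finset (List Bool)}
    (hU : traceSet x ⊆ U) : ∑ y ∈ U, traceProb q x y = 1 := by
  simp only [traceProb]
  rw [Finset.sum_comm]
  have h : ∀ S : Finset (Fin n), keep x S ∈ U := fun S =>
    hU (Finset.mem_image_of_mem _ (Finset.mem_univ S))
  simp only [Finset.sum_ite_eq, h, if_true]
  simpa using Fintype.sum_pow_mul_eq_add_pow (Fin n) (1 - q) q

theorem traceProb_eq_zero (q : ℝ) {n : ℕ} (x : Fin n → Bool) {y : List Bool}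
    (hy : y ∉ traceSet x) : traceProb q x y = 0 :=
  Finset.sum_eq_zero fun S _ => by
    rw [if_neg]
    rintro rfl
    exact hy (Finset.mem_image_of_mem _ (Finset.mem_univ S))

theorem keep_univ {n : ℕ} (x : Fin n → Bool) : keep x univ = List.ofFn x := by
  simp [keep, List.ofFn_eq_map]

theorem le_traceProb_ofFn {q : ℝ} (hq0 : 0 ≤ q) (hq1 : q ≤ 1) {n : ℕ} (x : Fin n → Bool) :
    (1 - q) ^ n ≤ traceProb q x (List.ofFn x) := by
  refine le_trans ?_ (Finset.single_le_sum (fun S _ => ?_) (Finset.mem_univ univ))
  · simp [keep_univ]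
  · split
    · exact mul_nonneg (pow_nonneg (by linarith) _) (pow_nonneg hq0 _)
    · exact le_rfl

theorem eq_ofFn_of_length {n : ℕ} (x : Fin n → Bool) {y : List Bool} (hy : y ∈ traceSet x)
    (hl : y.length = n) : y = List.ofFn x := by
  obtain ⟨S, -, rfl⟩ := Finset.mem_image.mp hy
  have hsub : List.Sublist (keep x S) (List.ofFn x) := by
    rw [keep, List.ofFn_eq_map]
    exact List.filter_sublist.map x
  exact hsub.eq_of_length (by simpa using hl)

theorem exists_canReconstruct (q : ℝ) (hq0 : 0 < q) (hq1 : q < 1) (n : ℕ) :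
    ∃ m, CanReconstruct q n m := by
  have hc : 0 < (1 - q) ^ n := pow_pos (by linarith) n
  have hc1 : (1 - q) ^ n ≤ 1 := pow_le_one₀ (by linarith) (by linarith)
  obtain ⟨m, hm⟩ := exists_pow_lt_of_lt_one (show (0 : ℝ) < 1 / 3 by norm_num)
    (show 1 - (1 - q) ^ n < 1 by linarith)
  let guess : (Fin m → List Bool) → (Fin n → Bool) := fun s =>
    if h : ∃ z, ∃ i, s i = List.ofFn z then h.choose else fun _ => false
  refine ⟨m, fun s z => if z = guess s then 1 else 0,
    fun s => ⟨fun z => by dsimp only; split <;> norm_num, by simp⟩, fun x => ?_⟩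
  let f := List.ofFn x
  have hf : f ∈ traceSet x := by
    exact Finset.mem_image.mpr ⟨univ, Finset.mem_univ _, (keep_univ x)⟩
  have hhit : ∀ s ∈ Fintype.piFinset (fun _ : Fin m => traceSet x),
      s ∉ Fintype.piFinset (fun _ : Fin m => (traceSet x).erase f) → x = guess s := by
    intro s hs hs'
    rw [Fintype.mem_piFinset] at hs
    simp only [Fintype.mem_piFinset, not_forall] at hs'
    obtain ⟨i, hi⟩ := hs'
    have hi' : s i = f := by
      by_contra hne
      exact hi (Finset.mem_erase.mpr ⟨hne, hs i⟩)
    have hex : ∃ z, ∃ i, s i = List.ofFn z := ⟨x, i, hi'⟩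
    obtain ⟨j, hj⟩ := hex.choose_spec
    show x = dite _ _ _
    rw [dif_pos hex]
    have := eq_ofFn_of_length x (hs j) (by rw [hj, List.length_ofFn])
    exact List.ofFn_injective (this.symm.trans hj)
  have htot : ∑ s ∈ Fintype.piFinset (fun _ : Fin m => traceSet x), ∏ i, traceProb q x (s i) = 1 := by
    rw [← Finset.prod_univ_sum, sum_traceProb q x subset_rfl]
    simp
  have herase : ∑ s ∈ Fintype.piFinset (fun _ : Fin m => (traceSet x).erase f),
      ∏ i, traceProb q x (s i) ≤ (1 - (1 - q) ^ n) ^ m := by
    rw [← Finset.prod_univ_sum, Finset.prod_const, Finset.card_univ, Fintype.card_fin]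
    refine pow_le_pow_left₀ (Finset.sum_nonneg fun y _ =>
      traceProb_nonneg hq0.le hq1.le x y) ?_ m
    rw [Finset.sum_erase_eq_sub hf, sum_traceProb q x subset_rfl]
    have := le_traceProb_ofFn hq0.le hq1.le x
    linarith
  have hsub : Fintype.piFinset (fun _ : Fin m => (traceSet x).erase f)
      ⊆ Fintype.piFinset (fun _ : Fin m => traceSet x) :=
    Fintype.piFinset_subset _ _ fun _ => Finset.erase_subset _ _
  rw [← Finset.sum_sdiff hsub] at htot
  have hle : ∑ s ∈ Fintype.piFinset (fun _ : Fin m => traceSet x) \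
      Fintype.piFinset (fun _ : Fin m => (traceSet x).erase f), ∏ i, traceProb q x (s i)
      ≤ successProb q (fun s z => if z = guess s then (1 : ℝ) else 0) x := by
    unfold successProb
    rw [← Finset.sum_sdiff hsub]
    refine le_add_of_le_of_nonneg (le_of_eq (Finset.sum_congr rfl fun s hs => ?_))
      (Finset.sum_nonneg fun s _ => ?_)
    · obtain ⟨h1, h2⟩ := Finset.mem_sdiff.mp hs
      dsimp only
      rw [if_pos (hhit s h1 h2), mul_one]
    · exact mul_nonneg (Finset.prod_nonneg fun i _ => traceProb_nonneg hq0.le hq1.le x _)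
        (by dsimp only; split <;> norm_num)
  linarith

/-- The product distance is at most the number of factors times the distance. -/
theorem sum_abs_prod_sub_le {β : Type*} [Fintype β] {P Q : β → ℝ} (hP : ∀ b, 0 ≤ P b)
    (hQ : ∀ b, 0 ≤ Q b) (hP1 : ∑ b, P b = 1) (hQ1 : ∑ b, Q b = 1) : ∀ m : ℕ,
    ∑ s : Fin m → β, |(∏ i, P (s i)) - ∏ i, Q (s i)| ≤ (m : ℝ) * ∑ b, |P b - Q b| := by
  intro m
  induction m with
  | zero => simp
  | succ m ih =>
    rw [← (Fin.consEquiv fun _ => β).sum_comp, Fintype.sum_prod_type]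
    simp only [Fin.consEquiv_apply, Fin.prod_univ_succ, Fin.cons_zero, Fin.cons_succ]
    have hPm : ∑ s : Fin m → β, ∏ i, P (s i) = 1 := by
      rw [← Fintype.prod_sum]
      simp [hP1]
    calc ∑ b, ∑ s : Fin m → β, |P b * ∏ i, P (s i) - Q b * ∏ i, Q (s i)|
        ≤ ∑ b, ∑ s : Fin m → β, (|P b - Q b| * ∏ i, P (s i) +
            Q b * |(∏ i, P (s i)) - ∏ i, Q (s i)|) := by
          refine Finset.sum_le_sum fun b _ => Finset.sum_le_sum fun s _ => ?_
          rw [show P b * ∏ i, P (s i) - Q b * ∏ i, Q (s i) = (P b - Q b) * ∏ i, P (s i) +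
            Q b * ((∏ i, P (s i)) - ∏ i, Q (s i)) by ring]
          refine (abs_add_le _ _).trans_eq ?_
          rw [abs_mul, abs_mul, abs_of_nonneg (hQ b),
            abs_of_nonneg (Finset.prod_nonneg fun i _ => hP _)]
      _ = ∑ b, |P b - Q b| + ∑ s : Fin m → β, |(∏ i, P (s i)) - ∏ i, Q (s i)| := by
          simp only [Finset.sum_add_distrib, ← Finset.mul_sum, hPm, mul_one, ← Finset.sum_mul,
            hQ1, one_mul]
      _ ≤ _ := by push_cast; linarith

/-- The sum of the success probabilities at two distinct words. -/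
theorem successProb_add_le {q : ℝ} (hq0 : 0 ≤ q) (hq1 : q ≤ 1) {n m : ℕ} {x y : Fin n → Bool}
    (hxy : x ≠ y) {est : (Fin m → List Bool) → (Fin n → Bool) → ℝ} (he : IsEstimator n m est) :
    successProb q est x + successProb q est y ≤ 1 + (m : ℝ) *
      l1 (lawHom q (FreeMonoid.ofList (List.ofFn x))
        - lawHom q (FreeMonoid.ofList (List.ofFn y))) / 2 := by
  classical
  let U : Finset (List Bool) := traceSet x ∪ traceSet y
  let I := Fintype.piFinset (fun _ : Fin m => U)
  let P : (Fin m → List Bool) → ℝ := fun s => ∏ i, traceProb q x (s i)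
  let Q : (Fin m → List Bool) → ℝ := fun s => ∏ i, traceProb q y (s i)
  have hext : ∀ z : Fin n → Bool, traceSet z ⊆ U → successProb q est z
      = ∑ s ∈ I, (∏ i, traceProb q z (s i)) * est s z := by
    intro z hz
    refine Finset.sum_subset (Fintype.piFinset_subset _ _ fun _ => hz) fun s _ hs => ?_
    simp only [Fintype.mem_piFinset, not_forall] at hs
    obtain ⟨i, hi⟩ := hs
    rw [Finset.prod_eq_zero (Finset.mem_univ i) (traceProb_eq_zero q z hi), zero_mul]
  have hP : ∀ s, 0 ≤ P s := fun s => Finset.prod_nonneg fun i _ => traceProb_nonneg hq0 hq1 x _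
  have hQ : ∀ s, 0 ≤ Q s := fun s => Finset.prod_nonneg fun i _ => traceProb_nonneg hq0 hq1 y _
  have hPI : ∑ s ∈ I, P s = 1 := by
    rw [← Finset.prod_univ_sum, sum_traceProb q x Finset.subset_union_left]
    simp
  have hQI : ∑ s ∈ I, Q s = 1 := by
    rw [← Finset.prod_univ_sum, sum_traceProb q y Finset.subset_union_right]
    simp
  have hpt : ∀ s, P s * est s x + Q s * est s y ≤ (P s + Q s + |P s - Q s|) / 2 := by
    intro s
    have hsum : est s x + est s y ≤ 1 := by
      rw [← (he s).2, ← Finset.sum_pair hxy]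
      exact Finset.sum_le_sum_of_subset_of_nonneg (Finset.subset_univ _) fun z _ _ => (he s).1 z
    have hx0 := (he s).1 x
    have hy0 := (he s).1 y
    rcases le_total (P s) (Q s) with h | h
    · rw [abs_of_nonpos (sub_nonpos.mpr h)]
      nlinarith [hQ s, hP s]
    · rw [abs_of_nonneg (sub_nonneg.mpr h)]
      nlinarith [hQ s, hP s]
  have habs : ∑ s ∈ I, |P s - Q s| ≤ (m : ℝ) * ∑ z ∈ U, |traceProb q x z - traceProb q y z| := by
    have key := sum_abs_prod_sub_le (β := U) (P := fun z => traceProb q x z)
      (Q := fun z => traceProb q y z) (fun z => traceProb_nonneg hq0 hq1 x _)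
      (fun z => traceProb_nonneg hq0 hq1 y _)
      ((Finset.sum_coe_sort U _).trans (sum_traceProb q x Finset.subset_union_left))
      ((Finset.sum_coe_sort U _).trans (sum_traceProb q y Finset.subset_union_right)) m
    refine le_trans (le_of_eq ?_) (key.trans_eq (by rw [Finset.sum_coe_sort U fun z =>
      |traceProb q x z - traceProb q y z|]))
    exact Finset.sum_bij' (fun s hs i => (⟨s i, Fintype.mem_piFinset.mp hs i⟩ : U))
      (fun s _ i => (s i).1) (fun s _ => Finset.mem_univ _)
      (fun s _ => Fintype.mem_piFinset.mpr fun i => (s i).2) (fun s _ => rfl) (fun s _ => rfl)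
      fun s _ => rfl
  have hl1 : ∑ z ∈ U, |traceProb q x z - traceProb q y z| ≤
      l1 (lawHom q (FreeMonoid.ofList (List.ofFn x))
        - lawHom q (FreeMonoid.ofList (List.ofFn y))) := by
    set L := lawHom q (FreeMonoid.ofList (List.ofFn x))
        - lawHom q (FreeMonoid.ofList (List.ofFn y))
    have e : ∀ z, traceProb q x z - traceProb q y z = val L (FreeMonoid.ofList z) := fun z => by
      rw [traceProb_eq, traceProb_eq]
      simp [L, val]
    simp only [e]
    rw [← Finset.sum_image (f := fun w => |val L w|)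
      (fun a _ b _ h => FreeMonoid.ofList.injective h)]
    rw [l1, ← Finset.sum_filter_of_ne (p := fun w => w ∈ supp L) (fun w _ hw => by
      by_contra h
      exact hw (by simp [val, Finsupp.notMem_support_iff.mp h]))]
    exact Finset.sum_le_sum_of_subset_of_nonneg (fun w hw => (Finset.mem_filter.mp hw).2)
      fun w _ _ => abs_nonneg _
  rw [hext x Finset.subset_union_left, hext y Finset.subset_union_right, ← Finset.sum_add_distrib]
  refine (Finset.sum_le_sum fun s _ => hpt s).trans ?_
  rw [← Finset.sum_div, Finset.sum_add_distrib, Finset.sum_add_distrib, hPI, hQI]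
  have := habs.trans (mul_le_mul_of_nonneg_left hl1 (Nat.cast_nonneg m))
  linarith

/-- Two distinct words of the same length with close trace laws force many traces at that and
every larger length. -/
theorem samples_of_pair (q : ℝ) (hq0 : 0 < q) (hq1 : q < 1) {u v : TW} (hlen : u.length = v.length)
    (hne : u ≠ v) {n : ℕ} (hn : u.length ≤ n) :
    2 / 3 ≤ (sampleComplexity q n : ℝ) * l1 (lawHom q u - lawHom q v) := by
  obtain ⟨est, he, hsucc⟩ :=
    Nat.sInf_mem (s := {m | CanReconstruct q n m}) (exists_canReconstruct q hq0 hq1 n)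
  let w : TW := FreeMonoid.ofList (List.replicate (n - u.length) false)
  have mk : ∀ t : TW, t.length = u.length →
      ∃ x : Fin n → Bool, FreeMonoid.ofList (List.ofFn x) = t * w := by
    intro t ht
    have hl : (FreeMonoid.toList t ++ List.replicate (n - u.length) false).length = n := by
      rw [List.length_append, List.length_replicate]
      have : (FreeMonoid.toList t).length = u.length := ht
      omega
    refine ⟨fun i => (FreeMonoid.toList t ++ List.replicate (n - u.length) false).get
      (i.cast hl.symm), ?_⟩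
    apply FreeMonoid.toList.injective
    show List.ofFn _ = FreeMonoid.toList t ++ List.replicate (n - u.length) false
    exact (List.ofFn_congr hl.symm _).trans (List.ofFn_get _)
  obtain ⟨x, hx⟩ := mk u rfl
  obtain ⟨y, hy⟩ := mk v hlen.symm
  have hxy : x ≠ y := by
    intro h
    subst h
    exact hne (mul_right_cancel (hx.symm.trans hy))
  have hmain := successProb_add_le hq0.le hq1.le hxy he
  rw [hx, hy, map_mul, map_mul, ← sub_mul] at hmain
  have hl : l1 ((lawHom q u - lawHom q v) * lawHom q w) ≤ l1 (lawHom q u - lawHom q v) :=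
    (l1_mul _ _).trans_eq (by rw [l1_of_isProb (isProb_lawHom hq0.le hq1.le w), mul_one])
  have h2 : (sampleComplexity q n : ℝ) * l1 ((lawHom q u - lawHom q v) * lawHom q w)
      ≤ (sampleComplexity q n : ℝ) * l1 (lawHom q u - lawHom q v) :=
    mul_le_mul_of_nonneg_left hl (Nat.cast_nonneg _)
  have h3 := hsucc x
  have h4 := hsucc y
  unfold sampleComplexity at h2 ⊢
  linarith

end Vale.Agent.P321
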