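import Vale.Agent.P321.StepDiff
import Vale.Agent.P321.Frame

/-!
# P321 module 4: the step of the recursion
-/

namespace Vale.Agent.P321

open Filter Finset

theorem div_pow_anti {K t : ℝ} {m n : ℕ} (hK : 0 ≤ K) (ht : 1 ≤ t) (h : m ≤ n) :
    K / t ^ n ≤ K / t ^ m :=
  div_le_div_of_nonneg_left hK (by positivity) (pow_le_pow_right₀ ht h)

theorem pow_mul_div_pow_le {K t : ℝ} {a b c : ℕ} (hK : 0 ≤ K) (ht : 1 ≤ t) (h : a + c ≤ b) :
    t ^ a * (K / t ^ b) ≤ K / t ^ c := by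
  have h1 : K / t ^ b ≤ K / t ^ (a + c) := div_pow_anti hK ht h
  refine (mul_le_mul_of_nonneg_left h1 (by positivity)).trans (le_of_eq ?_)
  rw [pow_add]
  field_simp

theorem div_pow_le_one {K t : ℝ} {n : ℕ} (hK : K ≤ t) (hK0 : 0 ≤ K) (ht : 1 ≤ t) (hn : 1 ≤ n) :
    K / t ^ n ≤ 1 := by
  refine (div_pow_anti hK0 ht hn).trans ?_
  rw [pow_one]
  exact div_le_one_of_le₀ hK (by linarith)

theorem pow_div_le {K t : ℝ} {a m n : ℕ} (hK : 1 ≤ K) (ht : 1 ≤ t) (h : a ≤ n) {x : ℝ} (hx : 0 ≤ x)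
    (hxm : x ≤ K / t ^ m) (hn : n ≤ a * m) : x ^ a ≤ K ^ a / t ^ n := by
  have := pow_le_pow_left₀ hx hxm a
  rw [div_pow, ← pow_mul, Nat.mul_comm] at this
  exact this.trans (div_pow_anti (by positivity) ht hn)

theorem rpow_two_thirds_le {x y : ℝ} (hx : 0 ≤ x) (hy : 0 ≤ y) (h : x ^ 2 ≤ y ^ 3) :
    x ^ ((2 : ℝ) / 3) ≤ y := by
  have h1 : x ^ ((2 : ℝ) / 3) = (x ^ 2) ^ ((1 : ℝ) / 3) := by
    rw [← Real.rpow_natCast, ← Real.rpow_mul hx]
    norm_num
  have h2 : (y ^ 3) ^ ((1 : ℝ) / 3) = y := by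
    rw [← Real.rpow_natCast, ← Real.rpow_mul hy]
    norm_num
  rw [h1]
  exact (Real.rpow_le_rpow (by positivity) h (by norm_num)).trans_eq h2

theorem sqrt_pow_even {x : ℝ} (hx : 0 ≤ x) (k : ℕ) : Real.sqrt x ^ (2 * k) = x ^ k := by
  rw [pow_mul, Real.sq_sqrt hx]

/-- Overlap of a block. -/
theorem overlap_block (Lam th : ℝ) (hL : 1 ≤ Lam) (hth : 0 < th) (r : ℕ) : ∃ C : ℝ, 1 ≤ C ∧
    ∀ (A B : Law) (g R g' : ℕ) (x : ℝ), IsProb A → IsProb B → Ratio Lam A B → Overlap A g th →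
      1 ≤ g → 1 ≤ g' → 2 ^ r ≤ R → nsq (B - A) A ≤ 1 → 0 ≤ x → (R : ℝ) * g / g' ≤ x →
      (g' : ℝ) * nsq (B - A) A ≤ x → C * x ≤ 1 →
      Overlap (blockProd A B (tmSets r).1 R r) g' (1 / 2) := by
  obtain ⟨C₁, hC₁, hov⟩ := block_overlap th hth
  obtain ⟨C₂, hC₂, hnear⟩ := block_near Lam hL r
  refine ⟨(2 * C₂ + 4) * (1 + C₁ ^ 2) * 4,
    by nlinarith [mul_nonneg hC₂.le (sq_nonneg C₁), sq_nonneg C₁],
    fun A B g R g' x hA hB hAB hA' hg hg' hR hchi hx h1 h2 h3 => ?_⟩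
  have hchi0 : 0 ≤ nsq (B - A) A := nsq_nonneg hA.1
  have hC : 0 ≤ C₁ ^ 2 := sq_nonneg _
  have hA₁ := block_isProb hA hB (tmSets r).1 R r
  have hd := (ratio_block_pure hL hA hB hAB (tmSets r).1 R r).dom hA₁
  have hn := hnear A B R hA hB hAB hchi _ (tmSets_subset r).1
  have hg1 : ((g' : ℝ) + 1) ≤ 2 * g' := by
    have : (1 : ℝ) ≤ g' := by exact_mod_cast hg'
    linarith
  have he : ((g' : ℝ) + 1) * (C₂ * nsq (B - A) A) ≤ 2 * C₂ * x := by
    refine (mul_le_mul_of_nonneg_right hg1 (by positivity)).trans ?_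
    calc 2 * (g' : ℝ) * (C₂ * nsq (B - A) A) = 2 * C₂ * ((g' : ℝ) * nsq (B - A) A) := by ring
      _ ≤ _ := mul_le_mul_of_nonneg_left h2 (by positivity)
  have hx' : (2 * C₂ + 4) * x ≤ 1 / (4 * (1 + C₁ ^ 2)) := by
    rw [le_div_iff₀ (by positivity)]
    calc (2 * C₂ + 4) * x * (4 * (1 + C₁ ^ 2)) = (2 * C₂ + 4) * (1 + C₁ ^ 2) * 4 * x := by ring
      _ ≤ 1 := h3
  have hle : 1 / (4 * (1 + C₁ ^ 2)) ≤ 1 := by
    rw [div_le_one (by positivity)]
    linarith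
  have hG : ((2 * R + 2 ^ r : ℕ) : ℝ) * g / g' ≤ 4 * x := by
    have hb : ((2 * R + 2 ^ r : ℕ) : ℝ) ≤ 4 * (R : ℝ) := by exact_mod_cast (show _ ≤ 4 * R by omega)
    calc ((2 * R + 2 ^ r : ℕ) : ℝ) * g / g' ≤ 4 * (R : ℝ) * g / g' := by gcongr
      _ = 4 * ((R : ℝ) * g / g') := by ring
      _ ≤ _ := by linarith
  have hC₂x : 0 ≤ C₂ * x := by positivity
  have h5 := hov A (blockProd A B (tmSets r).1 R r) g g' (2 * R + 2 ^ r) (C₂ * nsq (B - A) A)
    hA hA₁ hd hg hg' (by have := Nat.one_le_two_pow (n := r); omega) hA' hn (by linarith)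
  have hs : ∀ z : ℝ, z ≤ 1 / (4 * (1 + C₁ ^ 2)) → C₁ * Real.sqrt z ≤ 1 / 2 := by
    intro z hz
    rw [← Real.sqrt_sq hC₁.le, ← Real.sqrt_mul hC, show (1 : ℝ) / 2 = Real.sqrt ((1 / 2) ^ 2) by
      rw [Real.sqrt_sq (by norm_num)]]
    refine Real.sqrt_le_sqrt ((mul_le_mul_of_nonneg_left hz hC).trans ?_)
    rw [← mul_div_assoc, div_le_iff₀ (by positivity)]
    linarith
  have e1 := hs (((2 * R + 2 ^ r : ℕ) : ℝ) * g / g') (by linarith)
  have e2 := hs (((g' : ℝ) + 1) * (C₂ * nsq (B - A) A)) (by linarith)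
  unfold Overlap
  linarith

theorem approx_block {q : ℝ} (hq0 : 0 ≤ q) (hq1 : q ≤ 1) {A B : Law} (hA : IsProb A) (hB : IsProb B)
    {u v : TW} {e : ℝ} (hu : l1 (A - lawHom q u) ≤ e) (hv : l1 (B - lawHom q v) ≤ e)
    {P : Finset ℕ} {R r : ℕ} (hP : P ⊆ range (2 ^ r)) (hR : 2 ^ r ≤ R) :
    l1 (blockProd A B P R r - lawHom q (blockProd u v P R r)) ≤ 3 * (R : ℝ) * e := by
  rw [blockProd_eq A B P R r hP, blockProd_eq u v P R r hP]
  refine (approx_patProd hq0 hq1 hA hB hu hv _ _).2.trans ?_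
  have he : 0 ≤ e := (l1_nonneg _).trans hu
  refine mul_le_mul_of_nonneg_right ?_ he
  exact_mod_cast (show 2 * R + 2 ^ r ≤ 3 * R by omega)

theorem tm_witness (r : ℕ) : ∃ i < 2 ^ r, i ∈ (tmSets r).1 ∧ i ∉ (tmSets r).2 := by
  obtain ⟨i, hi⟩ := tmSets_nonempty r
  exact ⟨i, mem_range.mp ((tmSets_subset r).1 hi), hi,
    Finset.disjoint_left.mp (tmSets_disjoint r) hi⟩

theorem fam_step (q : ℝ) (hq0 : 0 < q) (hq1 : q < 1) {alpha sigma : ℕ} (hs : 8 ≤ sigma)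
    (ha : 2 * sigma + 5 ≤ alpha) (h : Fam q alpha sigma) :
    Fam q (4 * alpha + sigma / 4) (4 * sigma + 8) := by
  intro J
  obtain ⟨C, Lam, th, hC, hL, hth, hgood⟩ := h (J + (3 * sigma + 6))
  set r := 2 * (5 * alpha + 1) with hr
  set gam := sigma / 4 with hgam
  set Λ₁ : ℝ := Lam ^ (2 ^ r) with hΛ₁
  have hΛ₁1 : 1 ≤ Λ₁ := one_le_pow₀ hL
  obtain ⟨Cd, hCd, hdiff⟩ := block_diff Lam th hL hth r
  obtain ⟨Co, hCo, hover⟩ := overlap_block Lam th hL hth r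
  obtain ⟨Co', hCo', hover'⟩ := overlap_block Λ₁ (1 / 2) hΛ₁1 (by norm_num) r
  obtain ⟨Ct, hCt, htwo⟩ := diff_two Lam th hL hth r
  set K₁ : ℝ := Cd * (C ^ 2 + C ^ (5 * alpha + 1)) + 1 with hK₁
  have hK₁1 : 1 ≤ K₁ := by
    have : 0 ≤ Cd * (C ^ 2 + C ^ (5 * alpha + 1)) := by positivity
    linarith
  set K₂ : ℝ := Ct * (K₁ ^ 3 + 1 + (C ^ 2 + K₁) * (C ^ 3 + C ^ (5 * alpha + 1)) +
    C ^ 4 * (C + 1 + 4 * C)) with hK₂
  set C' : ℝ := max K₂ (9 * C) with hC'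
  set T : ℝ := max (max (2 ^ (r + 2) : ℝ) (Co * C)) (max (max (Co' * K₁) (Ct * C)) (max C K₁))
    with hT
  refine ⟨C', Λ₁ ^ (2 ^ r), 1 / 2, by rw [hC']; exact le_trans (by linarith) (le_max_right _ _),
    one_le_pow₀ hΛ₁1, by norm_num, ?_⟩
  filter_upwards [hgood, tendsto_natCast_atTop_atTop.eventually_ge_atTop T] with t hG htT
  obtain ⟨u, v, A, B, g, hg⟩ := hG
  simp only [hT, max_le_iff] at htT
  obtain ⟨⟨ht2, htCo⟩, ⟨htCo', htCt⟩, htC, htK⟩ := htT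
  have ht : (1 : ℝ) ≤ t := le_trans (one_le_pow₀ (by norm_num)) ht2
  have htn : 2 ^ (r + 2) ≤ t := by exact_mod_cast ht2
  have htn1 : 1 ≤ t := le_trans Nat.one_le_two_pow htn
  have hκ : 4 * 2 ^ r ≤ t := by rw [pow_add] at htn; omega
  have hpow : ∀ n, 1 ≤ n → t ≤ t ^ n := fun n hn => Nat.le_self_pow (by omega) t
  have hmono : ∀ m n, m ≤ n → t ^ m ≤ t ^ n := fun m n h => Nat.pow_le_pow_right htn1 h
  set R := t ^ (sigma + 1) with hR
  set g₁ := t ^ (2 * sigma + 3) with hg₁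
  set R₂ := t ^ (2 * sigma + 4) with hR₂
  set g₂ := t ^ (4 * sigma + 8) with hg₂
  set W := t ^ (5 * gam) with hW
  set M := t ^ gam with hM
  have hgam2 : 2 ≤ gam := by omega
  have hκR : 2 ^ r ≤ R := le_trans (by omega) (hpow (sigma + 1) (by omega))
  have hκR₂ : 2 ^ r ≤ R₂ := le_trans (by omega) (hpow (2 * sigma + 4) (by omega))
  have hκW : 2 ^ r ≤ W := le_trans (by omega) (hpow (5 * gam) (by omega))
  have hκM : 2 ^ r ≤ M := le_trans (by omega) (hpow gam (by omega))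
  have ht2n : 2 ≤ t := by
    have : 0 < 2 ^ r := Nat.two_pow_pos r
    omega
  have hMR : 2 * 2 ^ r + M < R := by
    have h1 : t ^ gam * 2 ≤ R := by
      calc t ^ gam * 2 ≤ t ^ gam * t := Nat.mul_le_mul_left _ (by omega)
        _ = t ^ (gam + 1) := (pow_succ t gam).symm
        _ ≤ _ := hmono _ _ (by omega)
    have h2 : 4 * 2 ^ r ≤ t ^ gam := le_trans hκ (hpow gam (by omega))
    have : 0 < 2 ^ r := Nat.two_pow_pos r
    omega
  have hchi0 : 0 ≤ nsq (B - A) A := nsq_nonneg hg.probA.1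
  have hchiC := hg.chi
  have hchi1 : nsq (B - A) A ≤ 1 :=
    hchiC.trans (div_pow_le_one htC (by linarith) ht (by omega))
  have hgC : (g : ℝ) ≤ C * (t : ℝ) ^ sigma := hg.g_le
  set chi := nsq (B - A) A with hchidef
  -- the first level
  have hP := (tmSets_subset r).1
  have hP' := (tmSets_subset r).2
  set A₁ := blockProd A B (tmSets r).1 R r with hA₁
  set B₁ := blockProd A B (tmSets r).2 R r with hB₁
  have pA₁ : IsProb A₁ := block_isProb hg.probA hg.probB _ R r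
  have pB₁ : IsProb B₁ := block_isProb hg.probA hg.probB _ R r
  have hAB₁ : Ratio Λ₁ A₁ B₁ := block_ratio hL hg.probA hg.probB hg.ratio _ _ R r
  have htail : Real.sqrt ((g : ℝ) / R) ^ r ≤ C ^ (5 * alpha + 1) / (t : ℝ) ^ (5 * alpha + 1) := by
    rw [hr, sqrt_pow_even (by positivity), ← div_pow]
    refine pow_le_pow_left₀ (by positivity) ?_ _
    rw [hR, div_le_div_iff₀ (by positivity) (by positivity)]
    push_cast
    rw [pow_succ, ← mul_assoc]
    exact mul_le_mul_of_nonneg_right hgC (by positivity)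
  have hchi₁ : nsq (B₁ - A₁) A₁ ≤ K₁ / (t : ℝ) ^ (2 * alpha) := by
    refine (hdiff A B g R hg.probA hg.probB hg.ratio hg.g_pos (Nat.one_le_iff_ne_zero.2
      (by positivity)) hg.overlap hchi1).trans ?_
    have e1 : chi ^ 2 ≤ C ^ 2 / (t : ℝ) ^ (2 * alpha) :=
      pow_div_le hC ht (by omega) hchi0 hchiC le_rfl
    have e2 := htail.trans (div_pow_anti (by positivity) ht (show 2 * alpha ≤ 5 * alpha + 1 by omega))
    refine (mul_le_mul_of_nonneg_left (add_le_add e1 e2) hCd.le).trans ?_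
    rw [← add_div, ← mul_div_assoc]
    gcongr
    linarith
  have hchi₁1 : nsq (B₁ - A₁) A₁ ≤ 1 :=
    hchi₁.trans (div_pow_le_one htK (by linarith) ht (by omega))
  have hchi₁0 : 0 ≤ nsq (B₁ - A₁) A₁ := nsq_nonneg pA₁.1
  have hov₁ : Overlap A₁ g₁ (1 / 2) := by
    refine hover A B g R g₁ (C / (t : ℝ) ^ 1) hg.probA hg.probB hg.ratio hg.overlap hg.g_pos
      (Nat.one_le_iff_ne_zero.2 (by positivity)) hκR hchi1 (by positivity) ?_ ?_ ?_
    · rw [hR, hg₁, div_le_div_iff₀ (by positivity) (by positivity)]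
      push_cast
      calc (t : ℝ) ^ (sigma + 1) * g * (t : ℝ) ^ 1
          ≤ (t : ℝ) ^ (sigma + 1) * (C * (t : ℝ) ^ sigma) * (t : ℝ) ^ 1 := by gcongr
        _ = C * (t : ℝ) ^ (2 * sigma + 2) := by ring
        _ ≤ _ := mul_le_mul_of_nonneg_left (pow_le_pow_right₀ ht (by omega)) (by linarith)
    · rw [hg₁]
      push_cast
      exact (mul_le_mul_of_nonneg_left hchiC (by positivity)).trans
        (pow_mul_div_pow_le (by linarith) ht (by omega))
    · rw [← mul_div_assoc, pow_one]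
      exact div_le_one_of_le₀ htCo (by linarith)
  -- the second level
  set A₂ := blockProd A₁ B₁ (tmSets r).1 R₂ r with hA₂
  set B₂ := blockProd A₁ B₁ (tmSets r).2 R₂ r with hB₂
  have hov₂ : Overlap A₂ g₂ (1 / 2) := by
    refine hover' A₁ B₁ g₁ R₂ g₂ (K₁ / (t : ℝ) ^ 1) pA₁ pB₁ hAB₁ hov₁
      (Nat.one_le_iff_ne_zero.2 (by positivity)) (Nat.one_le_iff_ne_zero.2 (by positivity)) hκR₂
      hchi₁1 (by positivity) ?_ ?_ ?_
    · rw [hR₂, hg₁, hg₂, div_le_div_iff₀ (by positivity) (by positivity)]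
      push_cast
      rw [← pow_add, ← pow_add]
      refine le_trans (pow_le_pow_right₀ ht (show _ ≤ 4 * sigma + 8 by omega)) ?_
      exact le_mul_of_one_le_left (by positivity) hK₁1
    · rw [hg₂]
      push_cast
      exact (mul_le_mul_of_nonneg_left hchi₁ (by positivity)).trans
        (pow_mul_div_pow_le (by linarith) ht (by omega))
    · rw [← mul_div_assoc, pow_one]
      exact div_le_one_of_le₀ htCo' (by linarith)
  have hWchi : (W : ℝ) * chi ≤ C / (t : ℝ) ^ gam := by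
    rw [hW]
    push_cast
    exact (mul_le_mul_of_nonneg_left hchiC (by positivity)).trans
      (pow_mul_div_pow_le (by linarith) ht (by omega))
  have hsmall : (W : ℝ) * chi * Ct ≤ 1 := by
    refine (mul_le_mul_of_nonneg_right hWchi (by linarith)).trans ?_
    rw [div_mul_eq_mul_div, mul_comm C Ct]
    exact div_pow_le_one htCt (by positivity) ht (by omega)
  have hmain := htwo A B A₁ B₁ g R g₁ R₂ W M rfl rfl hg.probA hg.probB hg.ratio hg.overlap
    hg.g_pos (Nat.one_le_iff_ne_zero.2 (by positivity)) hov₁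
    (Nat.one_le_iff_ne_zero.2 (by positivity)) (Nat.one_le_iff_ne_zero.2 (by positivity)) hκW
    (hmono _ _ (by omega)) (Nat.one_le_iff_ne_zero.2 (by positivity)) hMR hchi1 hchi₁1 hsmall
  rw [← hA₂, ← hB₂, ← hchidef] at hmain
  have hchi₂ : nsq (B₂ - A₂) A₂ ≤ K₂ / (t : ℝ) ^ (4 * alpha + gam) := by
    have b1 : nsq (B₁ - A₁) A₁ ^ 3 ≤ K₁ ^ 3 / (t : ℝ) ^ (4 * alpha + gam) :=
      pow_div_le hK₁1 ht (by omega) hchi₁0 hchi₁ (by omega)
    have b2 : Real.sqrt ((g₁ : ℝ) / R₂) ^ r ≤ 1 / (t : ℝ) ^ (4 * alpha + gam) := by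
      rw [hr, sqrt_pow_even (by positivity), hg₁, hR₂]
      push_cast
      rw [show (t : ℝ) ^ (2 * sigma + 3) / (t : ℝ) ^ (2 * sigma + 4) = 1 / t by
        rw [pow_succ _ (2 * sigma + 3)]; field_simp, div_pow, one_pow]
      exact div_pow_anti zero_le_one ht (by omega)
    have b3 : chi ^ 3 + Real.sqrt ((g : ℝ) / R) ^ r ≤
        (C ^ 3 + C ^ (5 * alpha + 1)) / (t : ℝ) ^ (2 * alpha + gam) := by
      rw [add_div]
      exact add_le_add (pow_div_le hC ht (by omega) hchi0 hchiC (by omega))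
        (htail.trans (div_pow_anti (by positivity) ht (by omega)))
    have b4 : chi ^ 2 + nsq (B₁ - A₁) A₁ ≤ (C ^ 2 + K₁) / (t : ℝ) ^ (2 * alpha) := by
      rw [add_div]
      exact add_le_add (pow_div_le hC ht (by omega) hchi0 hchiC le_rfl) hchi₁
    have b5 : (chi ^ 2 + nsq (B₁ - A₁) A₁) * (chi ^ 3 + Real.sqrt ((g : ℝ) / R) ^ r) ≤
        (C ^ 2 + K₁) * (C ^ 3 + C ^ (5 * alpha + 1)) / (t : ℝ) ^ (4 * alpha + gam) := by
      refine (mul_le_mul b4 b3 (by positivity) (by positivity)).trans (le_of_eq ?_)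
      rw [div_mul_div_comm, ← pow_add]
      congr 2
      omega
    have b6 : (((2 : ℝ) ^ r + M) * Real.sqrt ((g : ℝ) / ((W : ℝ) * (2 * R + 2 ^ r)))) ^
        ((2 : ℝ) / 3) ≤ 4 * C / (t : ℝ) ^ gam := by
      refine rpow_two_thirds_le (by positivity) (by positivity) ?_
      rw [mul_pow, Real.sq_sqrt (by positivity)]
      have hM2 : ((2 : ℝ) ^ r + M) ^ 2 ≤ 4 * ((t : ℝ) ^ gam) ^ 2 := by
        have h1 : ((2 : ℝ) ^ r) ≤ M := by exact_mod_cast hκM
        have h2 : ((2 : ℝ) ^ r + M) ≤ 2 * (M : ℝ) := by linarith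
        refine (pow_le_pow_left₀ (by positivity) h2 2).trans (le_of_eq ?_)
        rw [hM]; push_cast; ring
      have hden : (g : ℝ) / ((W : ℝ) * (2 * R + 2 ^ r)) ≤ C / (t : ℝ) ^ (5 * gam) := by
        rw [div_le_div_iff₀ (by positivity) (by positivity)]
        rw [hW, hR]
        push_cast
        have h3 : (t : ℝ) ^ sigma ≤ 2 * (t : ℝ) ^ (sigma + 1) + 2 ^ r := by
          have := pow_le_pow_right₀ ht (show sigma ≤ sigma + 1 by omega)
          have h2r : (0 : ℝ) ≤ 2 ^ r := by positivity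
          have h4 : (0 : ℝ) ≤ (t : ℝ) ^ (sigma + 1) := by positivity
          linarith
        calc (g : ℝ) * (t : ℝ) ^ (5 * gam) ≤ C * (t : ℝ) ^ sigma * (t : ℝ) ^ (5 * gam) := by gcongr
          _ ≤ C * (2 * (t : ℝ) ^ (sigma + 1) + 2 ^ r) * (t : ℝ) ^ (5 * gam) := by gcongr
          _ = _ := by ring
      refine (mul_le_mul hM2 hden (by positivity) (by positivity)).trans ?_
      rw [div_pow, ← pow_mul, ← pow_mul, ← mul_div_assoc,
        div_le_div_iff₀ (by positivity) (by positivity)]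
      have hC2 : 4 * C ≤ (4 * C) ^ 3 := le_self_pow₀ (by linarith) (by norm_num)
      calc 4 * (t : ℝ) ^ (gam * 2) * C * (t : ℝ) ^ (gam * 3)
          = 4 * C * (t : ℝ) ^ (5 * gam) := by ring
        _ ≤ (4 * C) ^ 3 * (t : ℝ) ^ (5 * gam) := by gcongr
    have b7 : chi ^ 4 * ((W : ℝ) * chi + 1 / (M : ℝ) +
        (((2 : ℝ) ^ r + M) * Real.sqrt ((g : ℝ) / ((W : ℝ) * (2 * R + 2 ^ r)))) ^ ((2 : ℝ) / 3)) ≤
        C ^ 4 * (C + 1 + 4 * C) / (t : ℝ) ^ (4 * alpha + gam) := by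
      refine (mul_le_mul (pow_div_le (a := 4) (n := 4 * alpha) hC ht (by omega) hchi0 hchiC le_rfl)
        (add_le_add (add_le_add hWchi (le_of_eq (show 1 / (M : ℝ) = 1 / (t : ℝ) ^ gam by
          rw [hM]; push_cast; rfl))) b6) (by positivity) (by positivity)).trans (le_of_eq ?_)
      rw [← add_div, ← add_div, div_mul_div_comm, ← pow_add]
    refine hmain.trans ((mul_le_mul_of_nonneg_left
      (add_le_add (add_le_add (add_le_add b1 b2) b5) b7) (by linarith)).trans (le_of_eq ?_))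
    rw [hK₂]
    ring
  -- words
  set u₁ := blockProd u v (tmSets r).1 R r with hu₁
  set v₁ := blockProd u v (tmSets r).2 R r with hv₁
  have hl : u.length = v.length := hg.len_eq
  have hl₁ : u₁.length = v₁.length := by
    rw [hu₁, hv₁, length_blockProd hl, length_blockProd hl]
  obtain ⟨i, hi, hi1, hi2⟩ := tm_witness r
  have hne₁ : u₁ ≠ v₁ := blockProd_ne hl hg.words_ne R r hi hi1 hi2
  refine ⟨blockProd u₁ v₁ (tmSets r).1 R₂ r, blockProd u₁ v₁ (tmSets r).2 R₂ r, A₂, B₂, g₂, ?_⟩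
  have hC'C : 9 * C ≤ C' := le_max_right _ _
  have hC'0 : 0 ≤ C' := le_trans (by positivity) hC'C
  have hb₂ : (2 : ℝ) * R₂ + 2 ^ r ≤ 3 * R₂ := by
    have : ((2 : ℝ) ^ r) ≤ R₂ := by exact_mod_cast hκR₂
    linarith
  have hb₁ : (2 : ℝ) * R + 2 ^ r ≤ 3 * R := by
    have : ((2 : ℝ) ^ r) ≤ R := by exact_mod_cast hκR
    linarith
  have happ : ∀ P, P ⊆ range (2 ^ r) →
      l1 (blockProd A₁ B₁ P R₂ r - lawHom q (blockProd u₁ v₁ P R₂ r)) ≤ C' / (t : ℝ) ^ J := by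
    intro P hPs
    have e1 := approx_block hq0.le hq1.le hg.probA hg.probB hg.approxA hg.approxB hP hκR
    have e2 := approx_block hq0.le hq1.le hg.probA hg.probB hg.approxA hg.approxB hP' hκR
    refine (approx_block hq0.le hq1.le pA₁ pB₁ e1 e2 hPs hκR₂).trans ?_
    calc 3 * (R₂ : ℝ) * (3 * (R : ℝ) * (C / (t : ℝ) ^ (J + (3 * sigma + 6))))
        = 9 * ((t : ℝ) ^ (3 * sigma + 5) * (C / (t : ℝ) ^ (J + (3 * sigma + 6)))) := by
          rw [hR₂, hR]; push_cast; ring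
      _ ≤ 9 * (C / (t : ℝ) ^ J) := mul_le_mul_of_nonneg_left
          (pow_mul_div_pow_le (by linarith) ht (by omega)) (by norm_num)
      _ = 9 * C / (t : ℝ) ^ J := by ring
      _ ≤ _ := by gcongr
  refine ⟨by rw [length_blockProd hl₁, length_blockProd hl₁],
    blockProd_ne hl₁ hne₁ R₂ r hi hi1 hi2, ?_, block_isProb pA₁ pB₁ _ R₂ r,
    block_isProb pA₁ pB₁ _ R₂ r, block_ratio hΛ₁1 pA₁ pB₁ hAB₁ _ _ R₂ r,
    hchi₂.trans (by gcongr; exact le_max_left _ _), Nat.one_le_iff_ne_zero.2 (by positivity), ?_,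
    hov₂, happ _ hP, happ _ hP'⟩
  · rw [length_blockProd hl₁, hu₁, length_blockProd hl]
    push_cast
    calc (2 * (R₂ : ℝ) + 2 ^ r) * ((2 * (R : ℝ) + 2 ^ r) * (u.length : ℝ))
        ≤ 3 * (R₂ : ℝ) * (3 * (R : ℝ) * (C * (t : ℝ) ^ (sigma + 2))) :=
          mul_le_mul hb₂ (mul_le_mul hb₁ hg.len_le (by positivity) (by positivity))
            (by positivity) (by positivity)
      _ = 9 * C * (t : ℝ) ^ (4 * sigma + 7) := by rw [hR₂, hR]; push_cast; ring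
      _ ≤ _ := mul_le_mul hC'C (pow_le_pow_right₀ ht (by omega)) (by positivity) hC'0
  · rw [hg₂]
    push_cast
    exact le_mul_of_one_le_left (by positivity) (le_trans (by linarith) hC'C)

end Vale.Agent.P321
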