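import Vale.Agent.P321.BasePair
import Vale.Agent.P321.Step
import Vale.Agent.P321.Samples

/-!
# P321: trace reconstruction needs superpolynomially many traces
-/

namespace Vale.Agent.P321

open Filter

theorem fam_iterate (q : ℝ) (hq0 : 0 < q) (hq1 : q < 1) (k : ℕ) :
    ∃ alpha sigma : ℕ, 482 + k ≤ sigma ∧ (128 + k) * sigma + 320 ≤ 64 * alpha ∧
      Fam q alpha sigma := by
  induction k with
  | zero => exact ⟨970, 482, by norm_num, by norm_num, fam_base q hq0 hq1⟩
  | succ k ih =>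
    obtain ⟨a, s, h1, h2, hF⟩ := ih
    have h3 : 128 * s ≤ (128 + k) * s := Nat.mul_le_mul_right s (by omega)
    have h4 : s ≤ 4 * (s / 4) + 3 := by omega
    refine ⟨4 * a + s / 4, 4 * s + 8, by omega, ?_, fam_step q hq0 hq1 (by omega) (by omega) hF⟩
    have e : (128 + (k + 1)) * (4 * s + 8) = 4 * ((128 + k) * s) + 4 * s + 8 * k + 1032 := by ring
    omega

/-- The exponent `alpha` eventually dominates any multiple of `sigma`. -/
theorem fam_unbounded (q : ℝ) (hq0 : 0 < q) (hq1 : q < 1) (M : ℕ) :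
    ∃ alpha sigma : ℕ, 1 ≤ sigma ∧ M * sigma ≤ alpha ∧ Fam q alpha sigma := by
  obtain ⟨a, s, h1, h2, hF⟩ := fam_iterate q hq0 hq1 (64 * M)
  refine ⟨a, s, by omega, ?_, hF⟩
  have e : (128 + 64 * M) * s = 128 * s + 64 * (M * s) := by ring
  omega

/-- A good pair gives two words with close trace laws. -/
theorem good_close {q C Lam th : ℝ} {alpha sigma t : ℕ} {u v : TW} {A B : Law} {g : ℕ}
    (h : Good q C Lam th alpha sigma alpha t u v A B g) (hC : 1 ≤ C) (ht : 1 ≤ t) :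
    l1 (lawHom q u - lawHom q v) ≤ 3 * C / Real.sqrt ((t : ℝ) ^ alpha) := by
  have hd : Dom (B - A) A := Dom.sub
    (dom_of_bdd (Lam := Lam) fun y => by rw [abs_of_nonneg (h.probB.1 y)]; exact (h.ratio y).2)
    (dom_self A)
  have h1 : l1 (B - A) ≤ Real.sqrt (C / (t : ℝ) ^ alpha) :=
    (l1_le_sqrt_nsq h.probA hd).trans (Real.sqrt_le_sqrt h.chi)
  have e : lawHom q u - lawHom q v = (-(A - lawHom q u) + (B - lawHom q v)) + -(B - A) := by abel
  rw [e]
  refine (l1_add _ _).trans ?_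
  refine le_trans (add_le_add (l1_add _ _) le_rfl) ?_
  rw [l1_neg, l1_neg]
  set X := (t : ℝ) ^ alpha with hX
  have hX1 : 1 ≤ X := one_le_pow₀ (Nat.one_le_cast.2 ht)
  have hs : 1 ≤ Real.sqrt X := Real.one_le_sqrt.2 hX1
  have h2 : C / X ≤ C / Real.sqrt X :=
    div_le_div_of_nonneg_left (by linarith) (by linarith) (Real.sqrt_le_iff.2 ⟨by linarith, by nlinarith⟩)
  have h3 : Real.sqrt (C / X) ≤ C / Real.sqrt X := by
    rw [Real.sqrt_div (by linarith)]
    exact div_le_div_of_nonneg_right (Real.sqrt_le_iff.2 ⟨by linarith, by nlinarith⟩) (by linarith)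
  have h4 := h.approxA
  have h5 := h.approxB
  have e3 : 3 * C / Real.sqrt X = C / Real.sqrt X + C / Real.sqrt X + C / Real.sqrt X := by ring
  rw [← hX] at h4 h5
  linarith

/-- Worst-case trace reconstruction needs more traces than any power of the length. -/
theorem sampleComplexity_superpolynomial (q : ℝ) (hq0 : 0 < q) (hq1 : q < 1) (C : ℕ) :
    ∀ᶠ n : ℕ in atTop, (n : ℝ) ^ C ≤ (sampleComplexity q n : ℝ) := by
  obtain ⟨a, s, hs, hsa, hF⟩ := fam_unbounded q hq0 hq1 (6 * C + 2)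
  obtain ⟨C₀, Lam, th, hC₀, -, -, hev⟩ := hF a
  obtain ⟨t₀, ht₀⟩ := eventually_atTop.1 hev
  set e := s + 2
  have hexp : 2 * (e * C + 1) ≤ a := by
    refine le_trans ?_ hsa
    have h6 : C * 1 ≤ C * s := Nat.mul_le_mul_left C hs
    have e1 : 2 * ((s + 2) * C + 1) = 2 * (C * s) + 4 * C + 2 := by ring
    have e2 : (6 * C + 2) * s = 6 * (C * s) + 2 * s := by ring
    simp only [e]
    omega
  set K := 9 * C₀ * (C₀ * 2 ^ e) ^ C / 2 with hK
  set t₁ := max (max t₀ 1) ⌈K⌉₊
  refine eventually_atTop.2 ⟨max 2 ⌈C₀ * (t₁ : ℝ) ^ e⌉₊, fun n hn => ?_⟩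
  have hn2 : 2 ≤ n := (le_max_left _ _).trans hn
  have hn1 : C₀ * (t₁ : ℝ) ^ e ≤ n :=
    (Nat.le_ceil _).trans (Nat.cast_le.2 ((le_max_right _ _).trans hn))
  have ht₁1 : 1 ≤ t₁ := (le_max_right _ _).trans (le_max_left _ _)
  set p := fun t : ℕ => C₀ * (t : ℝ) ^ e ≤ n with hp
  have hle : ∀ t, p t → t ≤ n := fun t h => by
    rcases Nat.eq_zero_or_pos t with rfl | htp
    · exact Nat.zero_le n
    · have : (t : ℝ) ≤ n := by
        refine le_trans ?_ ((le_mul_of_one_le_left (by positivity) hC₀).trans h)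
        exact le_self_pow₀ (Nat.one_le_cast.2 htp) (by omega)
      exact_mod_cast this
  set t := Nat.findGreatest p n with ht
  have ht1 : t₁ ≤ t := Nat.le_findGreatest (hle _ hn1) hn1
  have hpt : p t := Nat.findGreatest_spec (hle _ hn1) hn1
  have htn : t < n := by
    rcases (hle t hpt).lt_or_eq with h | h
    · exact h
    · exfalso
      have h2 : (2 : ℝ) ≤ n := Nat.ofNat_le_cast.2 hn2
      have h3 : C₀ * (n : ℝ) ^ e ≤ n := by have h5 := hpt; rw [h] at h5; exact h5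
      have h4 : (n : ℝ) ^ 2 ≤ (n : ℝ) ^ e := pow_le_pow_right₀ (by linarith) (by omega)
      nlinarith [le_mul_of_one_le_left (by positivity : (0:ℝ) ≤ (n : ℝ) ^ e) hC₀]
  have hgt : ¬p (t + 1) := Nat.findGreatest_is_greatest (lt_add_one t) htn
  have htp : 1 ≤ t := ht₁1.trans ht1
  obtain ⟨u, v, A, B, g, hG⟩ := ht₀ t (((le_max_left _ _).trans (le_max_left _ _)).trans ht1)
  have hlen : u.length ≤ n := by
    have : (u.length : ℝ) ≤ n := hG.len_le.trans hpt
    exact_mod_cast this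
  have hS := samples_of_pair q hq0 hq1 hG.len_eq hG.words_ne hlen
  have hT := mul_le_mul_of_nonneg_left (good_close hG hC₀ htp)
    (Nat.cast_nonneg (α := ℝ) (sampleComplexity q n))
  set T := (sampleComplexity q n : ℝ)
  set X := (t : ℝ)
  have hX : 1 ≤ X := Nat.one_le_cast.2 htp
  set r := Real.sqrt (X ^ a)
  have hr : X ^ (e * C + 1) ≤ r := by
    refine Real.le_sqrt_of_sq_le ?_
    rw [← pow_mul]
    exact pow_le_pow_right₀ hX (by linarith)
  have hr0 : 0 < r := lt_of_lt_of_le (by positivity) hr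
  have h23 : 2 * r / (9 * C₀) ≤ T := by
    have h := hS.trans hT
    rw [← mul_div_assoc, le_div_iff₀ hr0] at h
    rw [div_le_iff₀ (by positivity)]
    linarith
  have hn' : (n : ℝ) ≤ C₀ * 2 ^ e * X ^ e := by
    have h := (not_le.1 hgt).le
    refine h.trans ?_
    rw [mul_assoc, ← mul_pow]
    refine mul_le_mul_of_nonneg_left (pow_le_pow_left₀ (by positivity) ?_ e) (by linarith)
    push_cast
    linarith
  have hKX : K ≤ X := (Nat.le_ceil K).trans (Nat.cast_le.2 ((le_max_right _ _).trans ht1))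
  calc (n : ℝ) ^ C ≤ (C₀ * 2 ^ e * X ^ e) ^ C := pow_le_pow_left₀ (Nat.cast_nonneg n) hn' C
    _ = K * X ^ (e * C) * (2 / (9 * C₀)) := by
        rw [hK, mul_pow, ← pow_mul]
        field_simp
    _ ≤ X * X ^ (e * C) * (2 / (9 * C₀)) := by gcongr
    _ ≤ r * (2 / (9 * C₀)) := mul_le_mul_of_nonneg_right (by rwa [← pow_succ']) (by positivity)
    _ = 2 * r / (9 * C₀) := by ring
    _ ≤ T := h23

end Vale.Agent.P321
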