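import Vale.Agent.P321.Words

/-!
# P321: bookkeeping of patterns
-/

namespace Vale.Agent.P321

open Finset

variable {α : Type*} [Monoid α]

theorem patProd_zero (x y : α) (P : Finset ℕ) : patProd x y P 0 = 1 := by simp [patProd]

theorem patProd_empty (x y : α) (K : ℕ) : patProd x y ∅ K = x ^ K := by
  induction K with
  | zero => simp [patProd]
  | succ K ih => rw [patProd_succ, ih, pow_succ]; simp

theorem patProd_append (x y : α) (P Q : Finset ℕ) (K L : ℕ) :
    patProd x y P K * patProd x y Q L =
      patProd x y (P.filter (· < K) ∪ Q.image (· + K)) (K + L) := by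
  induction L with
  | zero =>
    rw [patProd_zero, mul_one]
    refine patProd_congr x y fun i hi => ?_
    simp only [mem_union, mem_filter, mem_image]
    constructor
    · exact fun h => Or.inl ⟨h, hi⟩
    · rintro (⟨h, -⟩ | ⟨a, -, rfl⟩)
      · exact h
      · omega
  | succ L ih =>
    rw [patProd_succ, ← mul_assoc, ih, ← Nat.add_assoc, patProd_succ]
    congr 1
    have : (K + L ∈ P.filter (· < K) ∪ Q.image (· + K)) ↔ L ∈ Q := by
      simp only [mem_union, mem_filter, mem_image]
      constructor
      · rintro (⟨-, h⟩ | ⟨a, ha, e⟩)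
        · omega
        · rwa [show L = a by omega]
      · exact fun h => Or.inr ⟨L, h, by omega⟩
    simp only [this]

theorem blockProd_eq (x y : α) (P : Finset ℕ) (R r : ℕ) (hP : P ⊆ range (2 ^ r)) :
    blockProd x y P R r = patProd x y (P.image (· + R)) (2 * R + 2 ^ r) := by
  unfold blockProd
  rw [← patProd_empty x y R, patProd_append, patProd_append]
  rw [show R + 2 ^ r + R = 2 * R + 2 ^ r by ring]
  refine patProd_congr x y fun i _ => ?_
  simp only [mem_union, mem_filter, mem_image, notMem_empty, false_and, false_or, exists_false,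
    or_false]
  constructor
  · exact fun h => h.1
  · rintro ⟨a, ha, rfl⟩
    have := mem_range.mp (hP ha)
    exact ⟨⟨a, ha, rfl⟩, by omega⟩

theorem blockProd_empty (x y : α) (R r : ℕ) : blockProd x y ∅ R r = x ^ (2 * R + 2 ^ r) := by
  unfold blockProd
  rw [patProd_empty, ← pow_add, ← pow_add]
  congr 1
  ring

/-- The positions of the units in `n` periods. -/
def periodSet (P : Finset ℕ) (G n : ℕ) : Finset ℕ := (range (n * G)).filter fun i => i % G ∈ P

theorem patProd_pow (x y : α) (P : Finset ℕ) (G n : ℕ) :
    patProd x y P G ^ n = patProd x y (periodSet P G n) (n * G) := by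
  induction n with
  | zero => simp [patProd]
  | succ n ih =>
    rw [pow_succ, ih, patProd_append, Nat.succ_mul]
    refine patProd_congr x y fun i hi => ?_
    simp only [periodSet, mem_union, mem_filter, mem_image, mem_range]
    constructor
    · rintro (⟨⟨-, h⟩, -⟩ | ⟨a, ha, rfl⟩)
      · exact ⟨by rw [Nat.succ_mul]; exact hi, h⟩
      · have hG : a < G := by omega
        refine ⟨by rw [Nat.succ_mul]; exact hi, ?_⟩
        rw [Nat.add_mul_mod_self_right, Nat.mod_eq_of_lt hG]
        exact ha
    · rintro ⟨-, h⟩
      by_cases hlt : i < n * G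
      · exact Or.inl ⟨⟨hlt, h⟩, hlt⟩
      · refine Or.inr ⟨i - n * G, ?_, by omega⟩
        have e : i = (i - n * G) + n * G := by omega
        have hG : i - n * G < G := by omega
        rw [e, Nat.add_mul_mod_self_right, Nat.mod_eq_of_lt hG] at h
        exact h

theorem card_periodSet_le (P : Finset ℕ) (G n : ℕ) : (periodSet P G n).card ≤ n * P.card := by
  have h : periodSet P G n ⊆ (range n ×ˢ P).image fun z => z.1 * G + z.2 := by
    intro i hi
    simp only [periodSet, mem_filter, mem_range] at hi
    refine mem_image.mpr ⟨(i / G, i % G), mem_product.mpr ⟨mem_range.mpr ?_, hi.2⟩, ?_⟩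
    · exact Nat.div_lt_of_lt_mul (by rw [Nat.mul_comm]; exact hi.1)
    · exact Nat.div_add_mod' i G
  refine (card_le_card h).trans (card_image_le.trans ?_)
  simp

theorem length_pow (x : FreeMonoid Bool) (n : ℕ) : (x ^ n).length = n * x.length := by
  induction n with
  | zero => simp
  | succ n ih => rw [pow_succ, FreeMonoid.length_mul, ih]; ring

theorem length_patProd {x y : FreeMonoid Bool} (h : x.length = y.length) (P : Finset ℕ) (K : ℕ) :
    (patProd x y P K).length = K * x.length := by
  induction K with
  | zero => simp [patProd]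
  | succ K ih =>
    rw [patProd_succ, FreeMonoid.length_mul, ih]
    split_ifs
    · rw [← h]; ring
    · ring

theorem length_blockProd {x y : FreeMonoid Bool} (h : x.length = y.length) (P : Finset ℕ)
    (R r : ℕ) : (blockProd x y P R r).length = (2 * R + 2 ^ r) * x.length := by
  simp only [blockProd, FreeMonoid.length_mul, length_pow, length_patProd h]
  ring

theorem mul_inj_of_length {a a' b b' : FreeMonoid Bool} (h : a.length = a'.length)
    (e : a * b = a' * b') : a = a' ∧ b = b' := by
  have := congrArg FreeMonoid.toList e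
  simp only [FreeMonoid.toList_mul] at this
  obtain ⟨h1, h2⟩ := List.append_inj this (by simpa [FreeMonoid.length] using h)
  exact ⟨FreeMonoid.toList.injective h1, FreeMonoid.toList.injective h2⟩

theorem patProd_inj {x y : FreeMonoid Bool} (h : x.length = y.length) (hne : x ≠ y)
    {P P' : Finset ℕ} {K : ℕ} (e : patProd x y P K = patProd x y P' K) :
    ∀ i < K, (i ∈ P ↔ i ∈ P') := by
  induction K with
  | zero => intro i hi; omega
  | succ K ih =>
    rw [patProd_succ, patProd_succ] at e
    obtain ⟨e1, e2⟩ := mul_inj_of_length (by rw [length_patProd h, length_patProd h]) e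
    intro i hi
    rcases Nat.lt_succ_iff_lt_or_eq.mp hi with hlt | rfl
    · exact ih e1 i hlt
    · by_cases h1 : i ∈ P <;> by_cases h2 : i ∈ P' <;> simp_all

theorem blockProd_ne {x y : FreeMonoid Bool} (h : x.length = y.length) (hne : x ≠ y)
    {P P' : Finset ℕ} (R r : ℕ) {i : ℕ} (hi : i < 2 ^ r) (h1 : i ∈ P) (h2 : i ∉ P') :
    blockProd x y P R r ≠ blockProd x y P' R r := by
  intro e
  unfold blockProd at e
  obtain ⟨e1, -⟩ := mul_inj_of_length (by
    simp only [FreeMonoid.length_mul, length_patProd h]) e
  obtain ⟨-, e2⟩ := mul_inj_of_length rfl e1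
  exact h2 ((patProd_inj h hne e2 i hi).mp h1)

/-- Atoms against a pure reference. -/
theorem patProd_atoms {A D : Law} (hA : IsProb A) (hd : Dom D A) (S : Finset ℕ) (K : ℕ) :
    Dom (patProd A D S K) (A ^ K) ∧
      nsq (patProd A D S K) (A ^ K) ≤ nsq D A ^ (S.filter (· < K)).card := by
  induction K with
  | zero =>
    rw [patProd_zero, pow_zero]
    exact ⟨dom_self 1, by simp [nsq_self isProb_one]⟩
  | succ K ih =>
    rw [patProd_succ, pow_succ]
    have hd' : Dom (if K ∈ S then D else A) A := by
      split_ifs
      · exact hd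
      · exact dom_self A
    refine ⟨Dom.mul (hA.pow K).1 hA.1 ih.1 hd', (nsq_mul (hA.pow K).1 hA.1 ih.1 hd').trans ?_⟩
    refine le_trans (mul_le_mul_of_nonneg_right ih.2 (nsq_nonneg hA.1)) (le_of_eq ?_)
    by_cases hK : K ∈ S
    · have : S.filter (· < K + 1) = insert K (S.filter (· < K)) := by
        ext i
        simp only [mem_filter, mem_insert]
        constructor
        · rintro ⟨a, b⟩
          rcases Nat.lt_succ_iff_lt_or_eq.mp b with h | h
          · exact Or.inr ⟨a, h⟩
          · exact Or.inl h
        · rintro (rfl | ⟨a, b⟩)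
          · exact ⟨hK, Nat.lt_succ_self _⟩
          · exact ⟨a, by omega⟩
      rw [if_pos hK, this, card_insert_of_notMem (by simp), pow_succ]
    · have : S.filter (· < K + 1) = S.filter (· < K) := by
        ext i
        simp only [mem_filter]
        constructor
        · rintro ⟨a, b⟩
          rcases Nat.lt_succ_iff_lt_or_eq.mp b with h | h
          · exact ⟨a, h⟩
          · exact absurd (h ▸ a) hK
        · rintro ⟨a, b⟩
          exact ⟨a, by omega⟩
      rw [if_neg hK, this, nsq_self hA, mul_one]

theorem approx_patProd {q : ℝ} (hq0 : 0 ≤ q) (hq1 : q ≤ 1) {A B : Law} (hA : IsProb A)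
    (hB : IsProb B) {u v : TW} {e : ℝ} (hu : l1 (A - lawHom q u) ≤ e)
    (hv : l1 (B - lawHom q v) ≤ e) (P : Finset ℕ) (K : ℕ) :
    IsProb (patProd A B P K) ∧
      l1 (patProd A B P K - lawHom q (patProd u v P K)) ≤ K * e := by
  induction K with
  | zero =>
    rw [patProd_zero, patProd_zero, map_one, sub_self]
    refine ⟨isProb_one, le_of_eq ?_⟩
    simp [l1, supp]
  | succ K ih =>
    rw [patProd_succ, patProd_succ, map_mul]
    set X := (if K ∈ P then B else A) with hX
    set w := (if K ∈ P then v else u) with hw
    have hXp : IsProb X := by rw [hX]; split_ifs <;> assumption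
    have hXw : l1 (X - lawHom q w) ≤ e := by rw [hX, hw]; split_ifs <;> assumption
    refine ⟨ih.1.mul hXp, ?_⟩
    have e1 : patProd A B P K * X - lawHom q (patProd u v P K) * lawHom q w =
        (patProd A B P K - lawHom q (patProd u v P K)) * X +
        lawHom q (patProd u v P K) * (X - lawHom q w) := by
      rw [sub_mul, mul_sub]; abel
    rw [e1]
    refine (l1_add _ _).trans ?_
    have a1 := l1_mul (patProd A B P K - lawHom q (patProd u v P K)) X
    have a2 := l1_mul (lawHom q (patProd u v P K)) (X - lawHom q w)
    rw [l1_of_isProb hXp, mul_one] at a1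
    rw [l1_of_isProb (isProb_lawHom hq0 hq1 _), one_mul] at a2
    push_cast
    linarith [ih.2]

end Vale.Agent.P321
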