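import Vale.Agent.P321.Window
import Vale.Agent.P321.Block
import Vale.Agent.P321.StepPat

/-!
# P321: the pair of pairs inside the periodic background
-/

namespace Vale.Agent.P321

open Finset

theorem ratio_block_pure {A B : Law} {Lam : ℝ} (hL : 1 ≤ Lam) (hA : IsProb A) (hB : IsProb B)
    (h : Ratio Lam A B) (P : Finset ℕ) (R r : ℕ) :
    Ratio (Lam ^ (2 ^ r)) (blockProd A B P R r) (A ^ (2 * R + 2 ^ r)) := by
  have := block_ratio hL hA hB h P ∅ R r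
  rwa [blockProd_empty] at this

theorem Ratio.bdd {A B : Law} {Lam : ℝ} (hA : IsProb A) (h : Ratio Lam A B) : Bdd Lam A B := by
  intro y
  rw [abs_of_nonneg (hA.1 y)]
  exact (h y).1

theorem Ratio.symm' {A B : Law} {Lam : ℝ} (h : Ratio Lam A B) : Ratio Lam B A :=
  fun y => ⟨(h y).2, (h y).1⟩

theorem Ratio.dom {A B : Law} {Lam : ℝ} (hA : IsProb A) (h : Ratio Lam A B) : Dom A B :=
  dom_of_bdd (h.bdd hA)

theorem nsq_neg (X R : Law) : nsq (-X) R = nsq X R := by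
  have h : -X = (-1 : ℝ) • X := by simp
  rw [h, nsq_smul]; ring

theorem pow_add_one_sub_one_le {x : ℝ} {W : ℕ} (hx : 0 ≤ x) (hW : (W : ℝ) * x ≤ 1) :
    (1 + x) ^ W - 1 ≤ 2 * (W : ℝ) * x := by
  have h1 : (1 + x) ^ W ≤ Real.exp ((W : ℝ) * x) := by
    rw [Real.exp_nat_mul]
    exact pow_le_pow_left₀ (by linarith) (by linarith [Real.add_one_le_exp x]) W
  have h0 : 0 ≤ (W : ℝ) * x := by positivity
  have h2 := Real.abs_exp_sub_one_le (x := (W : ℝ) * x) (by rwa [abs_of_nonneg h0])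
  rw [abs_of_nonneg h0] at h2
  have h3 := le_abs_self (Real.exp ((W : ℝ) * x) - 1)
  linarith

theorem nsq_three {X Y Z R S T : Law} (hR : IsProb R) (hS : IsProb S) (hT : IsProb T)
    (hX : Dom X R) (hY : Dom Y S) (hZ : Dom Z T) :
    Dom (X * Y * Z) (R * S * T) ∧ nsq (X * Y * Z) (R * S * T) ≤ nsq X R * nsq Y S * nsq Z T := by
  refine ⟨Dom.mul (hR.mul hS).1 hT.1 (Dom.mul hR.1 hS.1 hX hY) hZ, ?_⟩
  refine (nsq_mul (hR.mul hS).1 hT.1 (Dom.mul hR.1 hS.1 hX hY) hZ).trans ?_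
  exact mul_le_mul_of_nonneg_right (nsq_mul hR.1 hS.1 hX hY) (nsq_nonneg hT.1)

theorem nsq_five {X₁ X₂ X₃ X₄ X₅ R₁ R₂ R₃ R₄ R₅ : Law} (h₁ : IsProb R₁) (h₂ : IsProb R₂)
    (h₃ : IsProb R₃) (h₄ : IsProb R₄) (h₅ : IsProb R₅) (d₁ : Dom X₁ R₁) (d₂ : Dom X₂ R₂)
    (d₃ : Dom X₃ R₃) (d₄ : Dom X₄ R₄) (d₅ : Dom X₅ R₅) :
    Dom (X₁ * X₂ * X₃ * X₄ * X₅) (R₁ * R₂ * R₃ * R₄ * R₅) ∧
      nsq (X₁ * X₂ * X₃ * X₄ * X₅) (R₁ * R₂ * R₃ * R₄ * R₅) ≤
        nsq X₁ R₁ * nsq X₂ R₂ * nsq X₃ R₃ * nsq X₄ R₄ * nsq X₅ R₅ := by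
  obtain ⟨e1, e2⟩ := nsq_three h₁ h₂ h₃ d₁ d₂ d₃
  have h123 := (h₁.mul h₂).mul h₃
  obtain ⟨e3, e4⟩ := nsq_three h123 h₄ h₅ e1 d₄ d₅
  refine ⟨e3, e4.trans ?_⟩
  exact mul_le_mul_of_nonneg_right (mul_le_mul_of_nonneg_right e2 (nsq_nonneg h₄.1))
    (nsq_nonneg h₅.1)

/-- Positions of the four atoms of two pattern blocks. -/
def atomPos (G W m R a b c e : ℕ) : Fin 4 → ℕ :=
  ![W * G + R + a, W * G + R + b, (W + 1 + m) * G + R + c, (W + 1 + m) * G + R + e]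

theorem pair_subset {r a b : ℕ} (hab : a < b) (hb : b < 2 ^ r) :
    ({a, b} : Finset ℕ) ⊆ range (2 ^ r) := by
  intro i hi
  simp only [mem_insert, mem_singleton] at hi
  rcases hi with rfl | rfl <;> simp <;> omega

theorem pure_window_eq {α : Type*} [Monoid α] (x y : α) {R r W m a b c e : ℕ} (hab : a < b)
    (hb : b < 2 ^ r) (hce : c < e) (he : e < 2 ^ r) :
    x ^ ((2 * R + 2 ^ r) * W) * blockProd x y {a, b} R r * x ^ ((2 * R + 2 ^ r) * m) *
        blockProd x y {c, e} R r * x ^ ((2 * R + 2 ^ r) * W) =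
      patProd x y ((univ : Finset (Fin 4)).image fun j => atomPos (2 * R + 2 ^ r) W m R a b c e j + 0)
        ((W + 1 + m + 1 + W) * (2 * R + 2 ^ r)) := by
  rw [blockProd_eq _ _ _ R r (pair_subset hab hb), blockProd_eq _ _ _ R r (pair_subset hce he)]
  set G := 2 * R + 2 ^ r with hG
  rw [← patProd_empty x y (G * W), ← patProd_empty x y (G * m), patProd_append, patProd_append,
    patProd_append, patProd_append]
  have hlen : G * W + G + G * m + G + G * W = (W + 1 + m + 1 + W) * G := by ring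
  have e1 : (W + 1 + m) * G = G * W + G + G * m := by ring
  have e2 : W * G = G * W := Nat.mul_comm _ _
  rw [hlen]
  refine patProd_congr _ _ fun i _ => ?_
  simp only [mem_union, mem_filter, mem_image, mem_insert, mem_singleton, notMem_empty,
    false_and, exists_false, or_false, false_or, mem_univ, true_and, atomPos,
    Fin.exists_fin_succ, Matrix.cons_val_zero, Matrix.cons_val_succ, Matrix.cons_val_fin_one,
    IsEmpty.exists_iff, Nat.add_zero, exists_eq_or_imp, exists_eq_left]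
  have hG2 : 2 ^ r + R ≤ G := by omega
  constructor
  · rintro ⟨(⟨⟨⟨z, hz | hz, rfl⟩, _⟩, _⟩ | ⟨z, hz | hz, rfl⟩), _⟩ <;> omega
  · rintro (rfl | rfl | rfl | rfl)
    · exact ⟨Or.inl ⟨⟨⟨a + R, Or.inl rfl, by omega⟩, by omega⟩, by omega⟩, by omega⟩
    · exact ⟨Or.inl ⟨⟨⟨b + R, Or.inr rfl, by omega⟩, by omega⟩, by omega⟩, by omega⟩
    · exact ⟨Or.inr ⟨c + R, Or.inl rfl, by omega⟩, by omega⟩
    · exact ⟨Or.inr ⟨e + R, Or.inr rfl, by omega⟩, by omega⟩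

theorem atomPos_props {R r W m M a b c e : ℕ} (hab : a < b) (hb : b < 2 ^ r) (hce : c < e)
    (he : e < 2 ^ r) (hMR : 2 * 2 ^ r + M < R) {P : Finset ℕ} (hP : P ⊆ range (2 ^ r)) :
    StrictMono (atomPos (2 * R + 2 ^ r) W m R a b c e) ∧
    W * (2 * R + 2 ^ r) ≤ atomPos (2 * R + 2 ^ r) W m R a b c e 0 ∧
    atomPos (2 * R + 2 ^ r) W m R a b c e 3 + 2 ^ r + M + W * (2 * R + 2 ^ r) <
      (W + 1 + m + 1 + W) * (2 * R + 2 ^ r) ∧
    ∀ k, k < M → ∀ j, atomPos (2 * R + 2 ^ r) W m R a b c e j + 2 ^ r + k ∉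
      periodSet (P.image (· + R)) (2 * R + 2 ^ r) (W + 1 + m + 1 + W) := by
  set G := 2 * R + 2 ^ r with hG
  have h1 : (W + 1 + m) * G = W * G + G + m * G := by ring
  have h2 : (W + 1 + m + 1 + W) * G = (W + 1 + m) * G + G + W * G := by ring
  refine ⟨?_, by simp [atomPos]; omega, by simp [atomPos]; omega, ?_⟩
  · rw [Fin.strictMono_iff_lt_succ]
    intro i
    fin_cases i <;> simp [atomPos] <;> omega
  · intro k hk j hmem
    have hmod := (mem_filter.mp hmem).2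
    obtain ⟨z, hz, hzR⟩ := mem_image.mp hmod
    have hzlt := mem_range.mp (hP hz)
    have key : ∀ p o : ℕ, o < 2 ^ r →
        (p * G + R + o + 2 ^ r + k) % G = R + o + 2 ^ r + k := by
      intro p o ho
      rw [show p * G + R + o + 2 ^ r + k = (R + o + 2 ^ r + k) + p * G by ring,
        Nat.add_mul_mod_self_right, Nat.mod_eq_of_lt (by omega)]
    fin_cases j <;> simp [atomPos, key _ a (by omega), key _ b hb, key _ c (by omega),
      key _ e he] at hzR <;> omega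

/-- A pair block against the block without atoms. -/
theorem pair_block_bound {A B : Law} {Lam : ℝ} (hL : 1 ≤ Lam) (hA : IsProb A) (hB : IsProb B)
    (h : Ratio Lam A B) (P : Finset ℕ) (R r : ℕ) {a b : ℕ} (hab : a < b) (hb : b < 2 ^ r) :
    Dom (blockProd A (B - A) {a, b} R r) (blockProd A B P R r) ∧
      nsq (blockProd A (B - A) {a, b} R r) (blockProd A B P R r) ≤
        Lam ^ (2 ^ r) * nsq (B - A) A ^ 2 := by
  have hdD : Dom (B - A) A := Dom.sub (h.symm'.dom hB) (dom_self A)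
  have hsub := pair_subset hab hb
  have hrat := ratio_block_pure hL hA hB h P R r
  obtain ⟨d1, d2⟩ :=
    patProd_atoms hA hdD (({a, b} : Finset ℕ).image (· + R)) (2 * R + 2 ^ r)
  rw [← blockProd_eq A (B - A) _ R r hsub] at d1 d2
  have hcard : ((({a, b} : Finset ℕ).image (· + R)).filter (· < 2 * R + 2 ^ r)).card = 2 := by
    rw [filter_true_of_mem (fun i hi => by
      obtain ⟨j, hj, rfl⟩ := mem_image.mp hi
      have := mem_range.mp (hsub hj)
      omega), card_image_of_injective _ (add_left_injective R), card_pair hab.ne]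
  rw [hcard] at d2
  have hAG := hA.pow (2 * R + 2 ^ r)
  refine ⟨fun y hy => d1 y ((hrat.symm'.dom hAG) y hy), ?_⟩
  refine (nsq_change (by positivity : (0:ℝ) ≤ Lam ^ (2 ^ r)) hAG.1 d1
    (fun y => (hrat y).2)).trans ?_
  exact mul_le_mul_of_nonneg_left d2 (by positivity)

/-- Pure periods against blocks. -/
theorem pure_periods {A B : Law} {Lam Cn : ℝ} (hL : 1 ≤ Lam) (hCn : 0 ≤ Cn) (hA : IsProb A)
    (hB : IsProb B) (h : Ratio Lam A B) (P : Finset ℕ) (R r W : ℕ)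
    (hnear : nsq (blockProd A B P R r - A ^ (2 * R + 2 ^ r)) (A ^ (2 * R + 2 ^ r)) ≤ Cn)
    (hW : (W : ℝ) * (Lam ^ (2 ^ r) * Cn) ≤ 1) (k : ℕ) (hk : k ≤ W) :
    Dom (A ^ ((2 * R + 2 ^ r) * k)) (blockProd A B P R r ^ k) ∧
      nsq (A ^ ((2 * R + 2 ^ r) * k)) (blockProd A B P R r ^ k) ≤ 3 ∧
      nsq (blockProd A B P R r ^ k - A ^ ((2 * R + 2 ^ r) * k)) (blockProd A B P R r ^ k) ≤
        2 * (W : ℝ) * (Lam ^ (2 ^ r) * Cn) := by
  have hrat := ratio_block_pure hL hA hB h P R r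
  set A₁ := blockProd A B P R r
  set G := 2 * R + 2 ^ r
  have hA₁ : IsProb A₁ := block_isProb hA hB P R r
  have hAG : IsProb (A ^ G) := hA.pow G
  have hdA₁ : Dom A₁ (A ^ G) := hrat.dom hA₁
  have hdAG : Dom (A ^ G) A₁ := hrat.symm'.dom hAG
  set x := Lam ^ (2 ^ r) * Cn
  have hx : 0 ≤ x := by positivity
  have hone : nsq (A ^ G) A₁ ≤ 1 + x := by
    rw [nsq_probability hAG hA₁ hdAG]
    have h3 := nsq_change (X := A₁ - A ^ G) (S := A₁) (by positivity : (0:ℝ) ≤ Lam ^ (2 ^ r))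
      hAG.1 (Dom.sub hdA₁ (dom_self _)) (fun y => (hrat y).2)
    have h4 : A ^ G - A₁ = -(A₁ - A ^ G) := by abel
    rw [h4, nsq_neg]
    have h5 : Lam ^ (2 ^ r) * nsq (A₁ - A ^ G) (A ^ G) ≤ x :=
      mul_le_mul_of_nonneg_left hnear (by positivity)
    linarith
  have hd : Dom (A ^ (G * k)) (A₁ ^ k) := by
    rw [pow_mul]
    clear hk
    induction k with
    | zero => exact dom_self 1
    | succ k ih => rw [pow_succ, pow_succ]; exact Dom.mul (hA₁.pow k).1 hA₁.1 ih hdAG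
  have hsub := nsq_pow_sub hA₁ hAG hdAG k
  rw [← pow_mul] at hsub
  have hkx : nsq (A ^ G) A₁ ^ k - 1 ≤ 2 * (W : ℝ) * x := by
    have h1 : nsq (A ^ G) A₁ ^ k ≤ (1 + x) ^ W :=
      le_trans (pow_le_pow_left₀ (nsq_nonneg hA₁.1) hone k)
        (pow_le_pow_right₀ (by linarith) hk)
    have h2 := pow_add_one_sub_one_le hx hW
    linarith
  refine ⟨hd, ?_, ?_⟩
  · rw [nsq_probability (hA.pow _) (hA₁.pow k) hd]
    nlinarith
  · have e : A₁ ^ k - A ^ (G * k) = -(A ^ (G * k) - A₁ ^ k) := by abel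
    rw [e, nsq_neg]
    linarith

/-- Replacing the periods around two factors by pure ones. -/
theorem replace_periods {A₁ S T X Y : Law} {W m : ℕ} {ew w : ℝ} (hA₁ : IsProb A₁)
    (hdS : Dom S (A₁ ^ W)) (hdT : Dom T (A₁ ^ m)) (hdX : Dom X A₁) (hdY : Dom Y A₁)
    (hnS : nsq S (A₁ ^ W) ≤ 3) (hnT : nsq T (A₁ ^ m) ≤ 3) (hew : 0 ≤ ew) (hw : 0 ≤ w)
    (heS : nsq (A₁ ^ W - S) (A₁ ^ W) ≤ ew) (heT : nsq (A₁ ^ m - T) (A₁ ^ m) ≤ ew)
    (hnX : nsq X A₁ ≤ w) (hnY : nsq Y A₁ ≤ w) :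
    Dom (A₁ ^ W * X * A₁ ^ m * Y * A₁ ^ W) (A₁ ^ W * A₁ * A₁ ^ m * A₁ * A₁ ^ W) ∧
    nsq (A₁ ^ W * X * A₁ ^ m * Y * A₁ ^ W) (A₁ ^ W * A₁ * A₁ ^ m * A₁ * A₁ ^ W) ≤
      8 * nsq (S * X * T * Y * S) (A₁ ^ W * A₁ * A₁ ^ m * A₁ * A₁ ^ W) + 104 * ew * w ^ 2 := by
  have hPW := hA₁.pow W
  have hPm := hA₁.pow m
  have hdW' : Dom (A₁ ^ W - S) (A₁ ^ W) := Dom.sub (dom_self _) hdS
  have hdm' : Dom (A₁ ^ m - T) (A₁ ^ m) := Dom.sub (dom_self _) hdT
  set Ref := A₁ ^ W * A₁ * A₁ ^ m * A₁ * A₁ ^ W with hRef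
  have hRefp : IsProb Ref := (((hPW.mul hA₁).mul hPm).mul hA₁).mul hPW
  refine ⟨(nsq_five hPW hA₁ hPm hA₁ hPW (dom_self _) hdX (dom_self _) hdY (dom_self _)).1, ?_⟩
  have hsW := nsq_self hPW
  have hsm := nsq_self hPm
  have n0 := @nsq_nonneg
  have b₁ : nsq ((A₁ ^ W - S) * X * A₁ ^ m * Y * A₁ ^ W) Ref ≤ ew * w ^ 2 := by
    refine (nsq_five hPW hA₁ hPm hA₁ hPW hdW' hdX (dom_self _) hdY (dom_self _)).2.trans ?_
    rw [hsW, hsm, mul_one, mul_one, sq, ← mul_assoc]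
    exact mul_le_mul (mul_le_mul heS hnX (n0 hA₁.1) hew) hnY (n0 hA₁.1) (by positivity)
  have b₂ : nsq (S * X * (A₁ ^ m - T) * Y * A₁ ^ W) Ref ≤ 3 * (ew * w ^ 2) := by
    refine (nsq_five hPW hA₁ hPm hA₁ hPW hdS hdX hdm' hdY (dom_self _)).2.trans ?_
    rw [hsW, mul_one]
    calc nsq S (A₁ ^ W) * nsq X A₁ * nsq (A₁ ^ m - T) (A₁ ^ m) * nsq Y A₁
        ≤ 3 * w * ew * w :=
          mul_le_mul (mul_le_mul (mul_le_mul hnS hnX (n0 hA₁.1) (by norm_num)) heT (n0 hPm.1)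
            (by positivity)) hnY (n0 hA₁.1) (by positivity)
      _ = _ := by ring
  have b₃ : nsq (S * X * T * Y * (A₁ ^ W - S)) Ref ≤ 9 * (ew * w ^ 2) := by
    refine (nsq_five hPW hA₁ hPm hA₁ hPW hdS hdX hdT hdY hdW').2.trans ?_
    calc nsq S (A₁ ^ W) * nsq X A₁ * nsq T (A₁ ^ m) * nsq Y A₁ * nsq (A₁ ^ W - S) (A₁ ^ W)
        ≤ 3 * w * 3 * w * ew :=
          mul_le_mul (mul_le_mul (mul_le_mul (mul_le_mul hnS hnX (n0 hA₁.1) (by norm_num)) hnT
            (n0 hPm.1) (by positivity)) hnY (n0 hA₁.1) (by positivity)) heS (n0 hPW.1)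
            (by positivity)
      _ = _ := by ring
  have hsplit : A₁ ^ W * X * A₁ ^ m * Y * A₁ ^ W =
      S * X * T * Y * S + (A₁ ^ W - S) * X * A₁ ^ m * Y * A₁ ^ W +
      S * X * (A₁ ^ m - T) * Y * A₁ ^ W + S * X * T * Y * (A₁ ^ W - S) := by
    simp only [sub_mul, mul_sub]
    abel
  rw [hsplit]
  set V₀ := S * X * T * Y * S
  set V₁ := (A₁ ^ W - S) * X * A₁ ^ m * Y * A₁ ^ W
  set V₂ := S * X * (A₁ ^ m - T) * Y * A₁ ^ W
  set V₃ := S * X * T * Y * (A₁ ^ W - S)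
  have a1 := nsq_add (X := V₀ + V₁ + V₂) (Y := V₃) hRefp.1
  have a2 := nsq_add (X := V₀ + V₁) (Y := V₂) hRefp.1
  have a3 := nsq_add (X := V₀) (Y := V₁) hRefp.1
  have : 0 ≤ ew * w ^ 2 := by positivity
  linarith

/-- The main term: two pairs, with `W` pure periods available on each side. -/
theorem pair_term (Lam th : ℝ) (hL : 1 ≤ Lam) (hth : 0 < th) (r : ℕ) : ∃ C : ℝ, 0 < C ∧
    ∀ (A B : Law) (g R W M a' m b' : ℕ) (P : Finset ℕ) (a b c e : ℕ),
      IsProb A → IsProb B → Ratio Lam A B → Overlap A g th → 1 ≤ g → 1 ≤ R → 1 ≤ W → 1 ≤ M →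
      P ⊆ range (2 ^ r) → a < b → b < 2 ^ r → c < e → e < 2 ^ r → W ≤ a' → W ≤ b' →
      m ≤ W → 2 * 2 ^ r + M < R → nsq (B - A) A ≤ 1 →
      (W : ℝ) * nsq (B - A) A * C ≤ 1 →
      nsq (blockProd A B P R r ^ a' * blockProd A (B - A) {a, b} R r * blockProd A B P R r ^ m *
          blockProd A (B - A) {c, e} R r * blockProd A B P R r ^ b')
          (blockProd A B P R r ^ a' * blockProd A B P R r * blockProd A B P R r ^ m *
          blockProd A B P R r * blockProd A B P R r ^ b') ≤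
        C * nsq (B - A) A ^ 4 * ((W : ℝ) * nsq (B - A) A + 1 / (M : ℝ) +
          (((2 : ℝ) ^ r + M) * Real.sqrt ((g : ℝ) / ((W : ℝ) * (2 * R + 2 ^ r)))) ^ ((2 : ℝ) / 3)) := by
  obtain ⟨C₁, hC₁, hwin⟩ := window_gain Lam th hL hth
  obtain ⟨C₂, hC₂, hnear⟩ := block_near Lam hL r
  set Λ' : ℝ := Lam ^ (2 ^ r) with hΛ'
  have hΛ'0 : 0 < Λ' := pow_pos (by linarith) _
  set CC := 8 * C₁ + 208 * Λ' ^ 3 * C₂ + 5 * (2 : ℝ) ^ r + Λ' * C₂ with hCC
  refine ⟨CC, by positivity,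
    fun A B g R W M a' m b' P a b c e hA hB hAB hov hg hR hW hM hP hab hb hce he hWa hWb hmW
      hMR hchi hsmall => ?_⟩
  set chi := nsq (B - A) A with hchidef
  have hchi0 : 0 ≤ chi := nsq_nonneg hA.1
  have hWchi : 0 ≤ (W : ℝ) * chi := by positivity
  have hpos3 : (0 : ℝ) ≤ 208 * Λ' ^ 3 * C₂ := by positivity
  have hpos5 : (0 : ℝ) ≤ 5 * (2 : ℝ) ^ r := by positivity
  have hposK : (0 : ℝ) ≤ Λ' * C₂ := by positivity
  have hKW : (W : ℝ) * (Λ' * (C₂ * chi)) ≤ 1 := by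
    refine le_trans ?_ hsmall
    calc (W : ℝ) * (Λ' * (C₂ * chi)) = (W : ℝ) * chi * (Λ' * C₂) := by ring
      _ ≤ _ := mul_le_mul_of_nonneg_left (by linarith) hWchi
  have hnA := hnear A B R hA hB hAB hchi P hP
  have hA₁ : IsProb (blockProd A B P R r) := block_isProb hA hB P R r
  obtain ⟨hdS, hnS, heS⟩ :=
    pure_periods hL (by positivity) hA hB hAB P R r W hnA hKW W le_rfl
  obtain ⟨hdT, hnT, heT⟩ :=
    pure_periods hL (by positivity) hA hB hAB P R r W hnA hKW m hmW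
  obtain ⟨hdX, hnX⟩ := pair_block_bound hL hA hB hAB P R r hab hb
  obtain ⟨hdY, hnY⟩ := pair_block_bound hL hA hB hAB P R r hce he
  obtain ⟨hdin, hin⟩ := replace_periods hA₁ hdS hdT hdX hdY hnS hnT (by positivity)
    (by positivity) heS heT hnX hnY
  -- the pure window
  obtain ⟨hmono, ho0, ho3, havoid⟩ := atomPos_props (W := W) (m := m) hab hb hce he hMR hP
  have hRefU : blockProd A B P R r ^ W * blockProd A B P R r * blockProd A B P R r ^ m *
      blockProd A B P R r * blockProd A B P R r ^ W =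
      patProd A B (periodSet (P.image (· + R)) (2 * R + 2 ^ r) (W + 1 + m + 1 + W))
        ((W + 1 + m + 1 + W) * (2 * R + 2 ^ r)) := by
    rw [← patProd_pow, blockProd_eq A B P R r hP]
    simp only [pow_add, pow_one]
  have hcardU : ((periodSet (P.image (· + R)) (2 * R + 2 ^ r) (W + 1 + m + 1 + W)).card : ℝ) * chi
      ≤ 1 := by
    have h2 : (P.image (· + R)).card ≤ 2 ^ r :=
      card_image_le.trans ((card_le_card hP).trans (by simp))
    have h3 := (card_periodSet_le (P.image (· + R)) (2 * R + 2 ^ r) (W + 1 + m + 1 + W)).trans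
      (Nat.mul_le_mul (show W + 1 + m + 1 + W ≤ 5 * W by omega) h2)
    refine le_trans (mul_le_mul_of_nonneg_right (Nat.cast_le.mpr h3) hchi0) (le_trans ?_ hsmall)
    push_cast
    calc 5 * (W : ℝ) * 2 ^ r * chi = (W : ℝ) * chi * (5 * 2 ^ r) := by ring
      _ ≤ _ := mul_le_mul_of_nonneg_left (by linarith) hWchi
  have hmain := hwin A B g ((W + 1 + m + 1 + W) * (2 * R + 2 ^ r)) M (W * (2 * R + 2 ^ r)) (2 ^ r)
    (periodSet (P.image (· + R)) (2 * R + 2 ^ r) (W + 1 + m + 1 + W))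
    (atomPos (2 * R + 2 ^ r) W m R a b c e) hA hB hAB hov hg hM (Nat.mul_pos hW (by omega))
    hmono ho0 ho3 (filter_subset _ _) havoid hcardU hchi
  unfold atomsWord at hmain
  rw [← hRefU, ← pure_window_eq A (B - A) hab hb hce he] at hmain
  push_cast at hmain
  have houter : nsq (blockProd A B P R r ^ a' * blockProd A (B - A) {a, b} R r *
        blockProd A B P R r ^ m * blockProd A (B - A) {c, e} R r * blockProd A B P R r ^ b')
      (blockProd A B P R r ^ a' * blockProd A B P R r * blockProd A B P R r ^ m *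
        blockProd A B P R r * blockProd A B P R r ^ b') ≤
      nsq (blockProd A B P R r ^ W * blockProd A (B - A) {a, b} R r * blockProd A B P R r ^ m *
        blockProd A (B - A) {c, e} R r * blockProd A B P R r ^ W)
      (blockProd A B P R r ^ W * blockProd A B P R r * blockProd A B P R r ^ m *
        blockProd A B P R r * blockProd A B P R r ^ W) := by
    obtain ⟨i, rfl⟩ : ∃ i, a' = i + W := ⟨a' - W, by omega⟩
    obtain ⟨j, rfl⟩ : ∃ j, b' = W + j := ⟨b' - W, by omega⟩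
    have hp := (((hA₁.pow W).mul hA₁).mul (hA₁.pow m)).mul hA₁ |>.mul (hA₁.pow W)
    have h3 := (nsq_three (hA₁.pow i) hp (hA₁.pow j) (dom_self _) hdin (dom_self _)).2
    rw [nsq_self (hA₁.pow i), nsq_self (hA₁.pow j), one_mul, mul_one] at h3
    refine le_trans (le_of_eq ?_) h3
    simp only [pow_add, mul_assoc]
  refine houter.trans (hin.trans ?_)
  set gain := 1 / (M : ℝ) +
    (((2 : ℝ) ^ r + M) * Real.sqrt ((g : ℝ) / ((W : ℝ) * (2 * R + 2 ^ r)))) ^ ((2 : ℝ) / 3)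
    with hgain
  have hgain0 : 0 ≤ gain := by positivity
  rw [show (W : ℝ) * chi + 1 / (M : ℝ) +
      (((2 : ℝ) ^ r + M) * Real.sqrt ((g : ℝ) / ((W : ℝ) * (2 * R + 2 ^ r)))) ^ ((2 : ℝ) / 3)
      = (W : ℝ) * chi + gain by rw [hgain]; ring]
  have hchi4 : 0 ≤ chi ^ 4 := by positivity
  have a1 : (8 * C₁) * (chi ^ 4 * gain) ≤ CC * (chi ^ 4 * gain) :=
    mul_le_mul_of_nonneg_right (by linarith) (by positivity)
  have a2 : (208 * Λ' ^ 3 * C₂) * (chi ^ 4 * ((W : ℝ) * chi)) ≤ CC * (chi ^ 4 * ((W : ℝ) * chi)) :=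
    mul_le_mul_of_nonneg_right (by linarith) (by positivity)
  linarith

end Vale.Agent.P321
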