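import Vale.Agent.P321.LawDefs

/-!
# P321: pushforwards of finite weighted families to laws
-/

namespace Vale.Agent.P321.Push

open Finset
open scoped Classical

theorem val_add (X Y : Law) (y : TW) : val (X + Y) y = val X y + val Y y := by
  simp [val, MonoidAlgebra.coeff_add]

theorem val_neg (X : Law) (y : TW) : val (-X) y = -val X y := by
  simp [val]

theorem val_sub (X Y : Law) (y : TW) : val (X - Y) y = val X y - val Y y := by
  rw [sub_eq_add_neg, val_add, val_neg, sub_eq_add_neg]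

theorem val_smul (c : ℝ) (X : Law) (y : TW) : val (c • X) y = c * val X y := by
  simp [val]

theorem val_zero (y : TW) : val (0 : Law) y = 0 := by simp [val]

theorem val_single (a y : TW) (c : ℝ) :
    val (MonoidAlgebra.single a c) y = if a = y then c else 0 := by
  classical
  simp [val, Finsupp.single_apply]

theorem val_finset_sum {ι : Type*} (s : Finset ι) (X : ι → Law) (y : TW) :
    val (∑ i ∈ s, X i) y = ∑ i ∈ s, val (X i) y := by
  classical
  induction s using Finset.induction_on with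
  | empty => simp [val_zero]
  | insert a s ha ih => rw [sum_insert ha, sum_insert ha, val_add, ih]

theorem mem_supp {X : Law} {y : TW} : y ∈ supp X ↔ val X y ≠ 0 := Finsupp.mem_support_iff

theorem val_eq_zero {X : Law} {y : TW} (h : y ∉ supp X) : val X y = 0 := by
  rwa [mem_supp, not_not] at h

theorem sum_supp_eq (X : Law) {T : Finset TW} (hT : supp X ⊆ T) (F : TW → ℝ → ℝ)
    (h0 : ∀ y, F y 0 = 0) :
    ∑ y ∈ supp X, F y (val X y) = ∑ y ∈ T, F y (val X y) :=
  sum_subset hT fun y _ hy => by rw [val_eq_zero hy, h0]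

theorem law_eq_sum (X : Law) {T : Finset TW} (hT : supp X ⊆ T) :
    X = ∑ a ∈ T, MonoidAlgebra.single a (val X a) := by
  classical
  refine MonoidAlgebra.coeff_injective (Finsupp.ext fun y => ?_)
  change val X y = val _ y
  rw [val_finset_sum]
  simp only [val_single, sum_ite_eq']
  split
  · rfl
  · exact val_eq_zero fun h => by simp_all [Finset.subset_iff]

theorem mul_eq_sum (X Y : Law) {S T : Finset TW} (hS : supp X ⊆ S) (hT : supp Y ⊆ T) :
    X * Y = ∑ p ∈ S ×ˢ T, MonoidAlgebra.single (p.1 * p.2) (val X p.1 * val Y p.2) := by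
  conv_lhs => rw [law_eq_sum X hS, law_eq_sum Y hT]
  rw [sum_mul_sum, sum_product]
  simp only [MonoidAlgebra.single_mul_single]

theorem mul_mul_eq_sum (X Y Z : Law) {S T U : Finset TW} (hS : supp X ⊆ S) (hT : supp Y ⊆ T)
    (hU : supp Z ⊆ U) :
    X * Y * Z = ∑ p ∈ (S ×ˢ T) ×ˢ U,
      MonoidAlgebra.single (p.1.1 * p.1.2 * p.2) (val X p.1.1 * val Y p.1.2 * val Z p.2) := by
  conv_lhs => rw [mul_eq_sum X Y hS hT, law_eq_sum Z hU]
  rw [sum_mul_sum, sum_product (s := S ×ˢ T)]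
  simp only [MonoidAlgebra.single_mul_single]

/-- The pushforward of a finite weighted family. -/
noncomputable def pushLaw {ι : Type*} (I : Finset ι) (φ : ι → TW) (w : ι → ℝ) : Law :=
  ∑ i ∈ I, MonoidAlgebra.single (φ i) (w i)

variable {ι : Type*} (I : Finset ι) (φ : ι → TW)

theorem val_pushLaw (w : ι → ℝ) (y : TW) :
    val (pushLaw I φ w) y = ∑ i ∈ I.filter (fun i => φ i = y), w i := by
  classical
  simp [pushLaw, val_finset_sum, val_single, sum_filter]

theorem supp_pushLaw (w : ι → ℝ) : supp (pushLaw I φ w) ⊆ I.image φ := by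
  intro y hy
  by_contra hc
  refine mem_supp.1 hy ?_
  rw [val_pushLaw, sum_eq_zero]
  intro i hi
  simp only [mem_filter] at hi
  exact absurd (mem_image.2 ⟨i, hi.1, hi.2⟩) hc

theorem sum_fiber (g : ι → ℝ) :
    ∑ y ∈ I.image φ, ∑ i ∈ I.filter (fun i => φ i = y), g i = ∑ i ∈ I, g i :=
  sum_fiberwise_of_maps_to (fun _ hi => mem_image_of_mem φ hi) g

theorem mass_pushLaw (w : ι → ℝ) : mass (pushLaw I φ w) = ∑ i ∈ I, w i := by
  rw [mass, sum_supp_eq _ (supp_pushLaw I φ w) (fun _ v => v) fun _ => rfl]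
  simp only [val_pushLaw, sum_fiber]

theorem l1_pushLaw (x : ι → ℝ) : l1 (pushLaw I φ x) ≤ ∑ i ∈ I, |x i| := by
  rw [l1, sum_supp_eq _ (supp_pushLaw I φ x) (fun _ v => |v|) fun _ => abs_zero,
    ← sum_fiber I φ fun i => |x i|]
  exact sum_le_sum fun y _ => by rw [val_pushLaw]; exact abs_sum_le_sum_abs _ _

variable {x w : ι → ℝ} {X : Law}

theorem fiber_cases (hd : ∀ i ∈ I, w i = 0 → x i = 0)
    (hw : ∀ i ∈ I, 0 ≤ w i) (hX : ∀ y, val (pushLaw I φ w) y ≤ val X y) (y : TW) :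
    val (pushLaw I φ x) y = ∑ i ∈ (I.filter fun i => φ i = y).filter (fun i => 0 < w i), x i ∧
      ∑ i ∈ (I.filter fun i => φ i = y).filter (fun i => 0 < w i), w i ≤ val X y := by
  refine ⟨?_, le_trans ?_ (hX y)⟩
  · rw [val_pushLaw]
    refine (sum_subset (filter_subset _ _) fun i hi hn => hd i (mem_filter.1 hi).1 ?_).symm
    have h1 : ¬0 < w i := fun h => hn (mem_filter.2 ⟨hi, h⟩)
    exact le_antisymm (not_lt.1 h1) (hw i (mem_filter.1 hi).1)
  · rw [val_pushLaw]
    exact sum_le_sum_of_subset_of_nonneg (filter_subset _ _)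
      fun i hi _ => hw i (mem_filter.1 hi).1

theorem nsq_pushLaw (hd : ∀ i ∈ I, w i = 0 → x i = 0) (hw : ∀ i ∈ I, 0 ≤ w i)
    (hX : ∀ y, val (pushLaw I φ w) y ≤ val X y) :
    nsq (pushLaw I φ x) X ≤ ∑ i ∈ I, x i ^ 2 / w i := by
  rw [nsq, sum_supp_eq _ (supp_pushLaw I φ x) (fun y v => v ^ 2 / val X y) (fun y => by simp),
    ← sum_fiber I φ fun i => x i ^ 2 / w i]
  refine sum_le_sum fun y _ => ?_
  obtain ⟨e, hle⟩ := fiber_cases I φ hd hw hX y
  have hpos : ∀ i ∈ (I.filter fun i => φ i = y).filter (fun i => 0 < w i), 0 < w i :=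
    fun i hi => (mem_filter.1 hi).2
  rcases ((I.filter fun i => φ i = y).filter fun i => 0 < w i).eq_empty_or_nonempty with h | h
  · rw [e, h]
    simp only [sum_empty, ne_eq, OfNat.ofNat_ne_zero, not_false_eq_true, zero_pow, zero_div]
    exact sum_nonneg fun i hi => div_nonneg (sq_nonneg _) (hw i (mem_filter.1 hi).1)
  · rw [e]
    refine (div_le_div_of_nonneg_left (sq_nonneg _) (sum_pos hpos h) hle).trans ?_
    refine (sq_sum_div_le_sum_sq_div _ x hpos).trans ?_
    exact sum_le_sum_of_subset_of_nonneg (filter_subset _ _)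
      fun i hi _ => div_nonneg (sq_nonneg _) (hw i (mem_filter.1 hi).1)

theorem nq_pushLaw (hd : ∀ i ∈ I, w i = 0 → x i = 0) (hw : ∀ i ∈ I, 0 ≤ w i)
    (hX : ∀ y, val (pushLaw I φ w) y ≤ val X y) :
    nq (pushLaw I φ x) X ≤ ∑ i ∈ I, x i ^ 4 / w i ^ 3 := by
  rw [nq, sum_supp_eq _ (supp_pushLaw I φ x) (fun y v => v ^ 4 / val X y ^ 3) (fun y => by simp),
    ← sum_fiber I φ fun i => x i ^ 4 / w i ^ 3]
  refine sum_le_sum fun y _ => ?_
  obtain ⟨e, hle⟩ := fiber_cases I φ hd hw hX y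
  set s := (I.filter fun i => φ i = y).filter fun i => 0 < w i
  have hpos : ∀ i ∈ s, 0 < w i := fun i hi => (mem_filter.1 hi).2
  have hnn : ∀ i ∈ I.filter (fun i => φ i = y), 0 ≤ x i ^ 4 / w i ^ 3 := fun i hi =>
    div_nonneg (Even.pow_nonneg (by decide) _) (pow_nonneg (hw i (mem_filter.1 hi).1) 3)
  rw [e]
  rcases s.eq_empty_or_nonempty with h | h
  · rw [h]; simpa using sum_nonneg hnn
  · have hW := sum_pos hpos h
    have h1 := sq_sum_div_le_sum_sq_div s x hpos
    have h2 := sq_sum_div_le_sum_sq_div s (fun i => x i ^ 2 / w i) hpos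
    have hxn : (0 : ℝ) ≤ (∑ i ∈ s, x i) ^ 2 / ∑ i ∈ s, w i := div_nonneg (sq_nonneg _) hW.le
    have h4 : (0 : ℝ) ≤ (∑ i ∈ s, x i) ^ 4 := Even.pow_nonneg (by decide) _
    calc (∑ i ∈ s, x i) ^ 4 / val X y ^ 3
        ≤ (∑ i ∈ s, x i) ^ 4 / (∑ i ∈ s, w i) ^ 3 :=
          div_le_div_of_nonneg_left h4 (pow_pos hW 3) (pow_le_pow_left₀ hW.le hle 3)
      _ = ((∑ i ∈ s, x i) ^ 2 / ∑ i ∈ s, w i) ^ 2 / ∑ i ∈ s, w i := by field_simp
      _ ≤ (∑ i ∈ s, x i ^ 2 / w i) ^ 2 / ∑ i ∈ s, w i :=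
          div_le_div_of_nonneg_right (pow_le_pow_left₀ hxn h1 2) hW.le
      _ ≤ ∑ i ∈ s, (x i ^ 2 / w i) ^ 2 / w i := h2
      _ = ∑ i ∈ s, x i ^ 4 / w i ^ 3 := sum_congr rfl fun i hi => by
          have := (hpos i hi).ne'; field_simp
      _ ≤ ∑ i ∈ I.filter (fun i => φ i = y), x i ^ 4 / w i ^ 3 :=
          sum_le_sum_of_subset_of_nonneg (filter_subset _ _) fun i hi _ => hnn i hi

end Vale.Agent.P321.Push
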