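import Vale.Agent.P321.PairTerm

/-!
# P321: the distance of two twice iterated pattern blocks
-/

namespace Vale.Agent.P321

open Finset

theorem nsq_sub_le {X Y R : Law} (hR : Pos R) : nsq (X - Y) R ≤ 2 * nsq X R + 2 * nsq Y R := by
  have := nsq_add (X := X) (Y := -Y) hR
  rwa [nsq_neg, ← sub_eq_add_neg] at this

theorem dom_sum {ι : Type*} (s : Finset ι) (X : ι → Law) {R : Law}
    (h : ∀ i ∈ s, Dom (X i) R) : Dom (∑ i ∈ s, X i) R := by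
  intro y hy
  rw [val_sum]
  exact sum_eq_zero fun i hi => h i hi y hy

theorem nsq_sum_le_bound {ι : Type*} (s : Finset ι) (X : ι → Law) {R : Law} {b : ℝ} {N : ℕ}
    (hR : Pos R) (hN : s.card ≤ N) (hb0 : 0 ≤ b) (h : ∀ i ∈ s, nsq (X i) R ≤ b) :
    nsq (∑ i ∈ s, X i) R ≤ (N : ℝ) ^ 2 * b := by
  refine (nsq_sum s X hR).trans ?_
  have h1 : ∑ i ∈ s, nsq (X i) R ≤ (s.card : ℝ) * b := by
    simpa using sum_le_card_nsmul s _ b h
  have h2 : (s.card : ℝ) ≤ N := by exact_mod_cast hN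
  calc (s.card : ℝ) * ∑ i ∈ s, nsq (X i) R ≤ (s.card : ℝ) * ((s.card : ℝ) * b) :=
        mul_le_mul_of_nonneg_left h1 (by positivity)
    _ = (s.card : ℝ) ^ 2 * b := by ring
    _ ≤ _ := mul_le_mul_of_nonneg_right (pow_le_pow_left₀ (by positivity) h2 2) hb0

/-- A bilinear term with two sums. -/
theorem nsq_bilin_le {ι : Type*} (s s' : Finset ι) (X : ι → Law) {R L M K : Law} {b : ℝ} {N : ℕ}
    (hR : Pos R) (hN : s.card ≤ N) (hN' : s'.card ≤ N) (hb0 : 0 ≤ b)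
    (h : ∀ i ∈ s, ∀ j ∈ s', nsq (L * X i * M * X j * K) R ≤ b) :
    nsq (L * (∑ i ∈ s, X i) * M * (∑ j ∈ s', X j) * K) R ≤ (N : ℝ) ^ 4 * b := by
  have e : L * (∑ i ∈ s, X i) * M * (∑ j ∈ s', X j) * K =
      ∑ i ∈ s, ∑ j ∈ s', L * X i * M * X j * K := by
    simp only [Finset.mul_sum, Finset.sum_mul]
    exact sum_comm
  rw [e, show (N : ℝ) ^ 4 * b = (N : ℝ) ^ 2 * ((N : ℝ) ^ 2 * b) by ring]
  exact nsq_sum_le_bound s _ hR hN (by positivity) fun i hi =>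
    nsq_sum_le_bound s' _ hR hN' hb0 (h i hi)

theorem blockProd_pair {α : Type*} [Monoid α] (x y : α) {R r i j : ℕ} (hij : i < j)
    (hj : j < 2 ^ r) :
    blockProd x y {i, j} R r =
      x ^ (R + i) * y * x ^ (j - i - 1) * y * x ^ (R + (2 ^ r - 1 - j)) := by
  have hy : y = patProd x y {0} 1 := by simp [patProd, List.range_succ]
  have key : ∀ a m b : ℕ, x ^ a * y * x ^ m * y * x ^ b =
      patProd x y {a, a + 1 + m} (a + 1 + m + 1 + b) := by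
    intro a m b
    conv_lhs => rw [hy, ← patProd_empty x y a, ← patProd_empty x y m, ← patProd_empty x y b]
    rw [patProd_append, patProd_append, patProd_append, patProd_append]
    refine patProd_congr _ _ fun k _ => ?_
    simp only [mem_union, mem_filter, mem_image, mem_insert, mem_singleton, notMem_empty,
      false_and, exists_false, or_false, false_or, exists_eq_left]
    omega
  rw [blockProd_eq x y _ R r (pair_subset hij hj), key, image_insert, image_singleton]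
  congr 1
  · rw [show R + i + 1 + (j - i - 1) = j + R by omega, Nat.add_comm R i]
  · omega

theorem mem_pairs {r : ℕ} {P S : Finset ℕ} (hP : P ⊆ range (2 ^ r))
    (hS : S ∈ P.powersetCard 2) : ∃ i j, i < j ∧ j < 2 ^ r ∧ S = {i, j} := by
  rw [mem_powersetCard] at hS
  obtain ⟨a, b, hab, rfl⟩ := card_eq_two.mp hS.2
  have ha := mem_range.mp (hP (hS.1 (mem_insert_self a {b})))
  have hb := mem_range.mp (hP (hS.1 (mem_insert_of_mem (mem_singleton_self b))))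
  rcases Nat.lt_or_gt_of_ne hab with h | h
  · exact ⟨a, b, h, hb, rfl⟩
  · exact ⟨b, a, h, ha, Finset.pair_comm a b⟩

theorem card_pairs_le {r : ℕ} {P : Finset ℕ} (hP : P ⊆ range (2 ^ r)) :
    (P.powersetCard 2).card ≤ 2 ^ 2 ^ r := by
  refine (card_le_card fun S hS => mem_powerset.mpr
    ((mem_powersetCard.mp hS).1.trans hP)).trans ?_
  simp

/-- The main bound of the step. -/
theorem diff_two (Lam th : ℝ) (hL : 1 ≤ Lam) (hth : 0 < th) (r : ℕ) : ∃ C : ℝ, 1 ≤ C ∧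
    ∀ (A B A₁ B₁ : Law) (g R g₁ R₂ W M : ℕ),
      A₁ = blockProd A B (tmSets r).1 R r → B₁ = blockProd A B (tmSets r).2 R r →
      IsProb A → IsProb B → Ratio Lam A B → Overlap A g th → 1 ≤ g → 1 ≤ R →
      Overlap A₁ g₁ (1 / 2) → 1 ≤ g₁ → 1 ≤ R₂ → 2 ^ r ≤ W → W ≤ R₂ → 1 ≤ M →
      2 * 2 ^ r + M < R → nsq (B - A) A ≤ 1 → nsq (B₁ - A₁) A₁ ≤ 1 →
      (W : ℝ) * nsq (B - A) A * C ≤ 1 →
      nsq (blockProd A₁ B₁ (tmSets r).2 R₂ r - blockProd A₁ B₁ (tmSets r).1 R₂ r)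
          (blockProd A₁ B₁ (tmSets r).1 R₂ r) ≤
        C * (nsq (B₁ - A₁) A₁ ^ 3 + Real.sqrt ((g₁ : ℝ) / R₂) ^ r +
          (nsq (B - A) A ^ 2 + nsq (B₁ - A₁) A₁) *
            (nsq (B - A) A ^ 3 + Real.sqrt ((g : ℝ) / R) ^ r) +
          nsq (B - A) A ^ 4 * ((W : ℝ) * nsq (B - A) A + 1 / (M : ℝ) +
            (((2 : ℝ) ^ r + M) * Real.sqrt ((g : ℝ) / ((W : ℝ) * (2 * R + 2 ^ r)))) ^
              ((2 : ℝ) / 3))) := by
  set Λ₁ : ℝ := Lam ^ (2 ^ r) with hΛ₁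
  have hΛ₁1 : 1 ≤ Λ₁ := one_le_pow₀ hL
  set Λ₂ : ℝ := Λ₁ ^ (2 ^ r) with hΛ₂
  have hΛ₂1 : 1 ≤ Λ₂ := one_le_pow₀ hΛ₁1
  obtain ⟨C₁, hC₁, hpairs₁⟩ := block_pairs Lam th hL hth r
  obtain ⟨C₂, hC₂, hpairs₂⟩ := block_pairs Λ₁ (1 / 2) hΛ₁1 (by norm_num) r
  obtain ⟨C₃, hC₃, hterm⟩ := pair_term Lam th hL hth r
  set N : ℕ := 2 ^ 2 ^ r with hN
  set K₀ : ℝ := 2 * C₂ + 8 * (N : ℝ) ^ 2 * Λ₂ *
    (64 * (N : ℝ) ^ 4 * C₃ + 16 * (N : ℝ) ^ 2 * Λ₁ * C₁ + 2 * C₁) with hK₀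
  refine ⟨K₀ + C₃ + 1, by
    have : 0 ≤ K₀ := by positivity
    linarith, fun A B A₁ B₁ g R g₁ R₂ W M hA₁eq hB₁eq hA hB hAB hov hg hR hov₁ hg₁ hR₂ hκW hWR hM
      hMR hchi hchi₁ hsmall => ?_⟩
  set chi := nsq (B - A) A with hchidef
  set chi₁ := nsq (B₁ - A₁) A₁ with hchi₁def
  set rho := chi ^ 3 + Real.sqrt ((g : ℝ) / R) ^ r with hrho
  set gain := (W : ℝ) * chi + 1 / (M : ℝ) +
    (((2 : ℝ) ^ r + M) * Real.sqrt ((g : ℝ) / ((W : ℝ) * (2 * R + 2 ^ r)))) ^ ((2 : ℝ) / 3)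
    with hgain
  have hchi0 : 0 ≤ chi := nsq_nonneg hA.1
  have hgain0 : 0 ≤ gain := by positivity
  have hrho0 : 0 ≤ rho := by positivity
  have hW1 : 1 ≤ W := le_trans Nat.one_le_two_pow hκW
  have hK₀0 : 0 ≤ K₀ := by positivity
  have hsmall' : (W : ℝ) * chi * C₃ ≤ 1 :=
    le_trans (mul_le_mul_of_nonneg_left (by linarith) (by positivity)) hsmall
  obtain ⟨hP, hP'⟩ := tmSets_subset r
  have hA₁ : IsProb A₁ := hA₁eq ▸ block_isProb hA hB _ R r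
  have hB₁ : IsProb B₁ := hB₁eq ▸ block_isProb hA hB _ R r
  have hAB₁ : Ratio Λ₁ A₁ B₁ := by
    rw [hA₁eq, hB₁eq]; exact block_ratio hL hA hB hAB _ _ R r
  have hchi₁0 : 0 ≤ chi₁ := nsq_nonneg hA₁.1
  have hdD : Dom (B₁ - A₁) A₁ := Dom.sub (hAB₁.symm'.dom hB₁) (dom_self A₁)
  -- pair blocks of the first level
  set f : Finset ℕ → Law := fun S => blockProd A (B - A) S R r with hf
  set V := ∑ S ∈ (tmSets r).2.powersetCard 2, f S with hV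
  set U := ∑ S ∈ (tmSets r).1.powersetCard 2, f S with hU
  set P₁ := V - U with hP₁
  set E := B₁ - A₁ - P₁ with hE
  have hfS : ∀ P : Finset ℕ, P ⊆ range (2 ^ r) → ∀ S ∈ P.powersetCard 2,
      Dom (f S) A₁ ∧ nsq (f S) A₁ ≤ Λ₁ * chi ^ 2 := by
    intro P hPs S hS
    obtain ⟨i, j, hij, hj, rfl⟩ := mem_pairs hPs hS
    rw [hA₁eq]
    exact pair_block_bound hL hA hB hAB _ R r hij hj
  have hdP₁ : Dom P₁ A₁ := Dom.sub (dom_sum _ _ fun S hS => (hfS _ hP' S hS).1)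
    (dom_sum _ _ fun S hS => (hfS _ hP S hS).1)
  have hnP₁ : nsq P₁ A₁ ≤ 4 * (N : ℝ) ^ 2 * Λ₁ * chi ^ 2 := by
    have h1 := nsq_sum_le_bound _ f hA₁.1 (card_pairs_le hP') (by positivity)
      fun S hS => (hfS _ hP' S hS).2
    have h2 := nsq_sum_le_bound _ f hA₁.1 (card_pairs_le hP) (by positivity)
      fun S hS => (hfS _ hP S hS).2
    refine (nsq_sub_le hA₁.1).trans ?_
    linarith
  have hdE : Dom E A₁ := Dom.sub hdD hdP₁
  have hnE : nsq E A₁ ≤ C₁ * rho := by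
    have := hpairs₁ A B g R hA hB hAB hg hR hov hchi
    rw [← hA₁eq, ← hB₁eq] at this
    exact this
  -- one pair term of the second level
  set b₀ : ℝ := 64 * (N : ℝ) ^ 4 * (C₃ * (chi ^ 4 * gain)) +
    (16 * (N : ℝ) ^ 2 * Λ₁ * C₁) * (chi ^ 2 * rho) + 2 * C₁ * (chi₁ * rho) with hb₀
  have hb₀0 : 0 ≤ b₀ := by positivity
  have hterm₂ : ∀ P : Finset ℕ, P ⊆ range (2 ^ r) → ∀ S ∈ P.powersetCard 2,
      nsq (blockProd A₁ (B₁ - A₁) S R₂ r) (blockProd A₁ B₁ (tmSets r).1 R₂ r) ≤ Λ₂ * b₀ := by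
    intro P hPs S hS
    obtain ⟨i, j, hij, hj, rfl⟩ := mem_pairs hPs hS
    have hsub := pair_subset hij hj
    have hrat := ratio_block_pure hΛ₁1 hA₁ hB₁ hAB₁ (tmSets r).1 R₂ r
    obtain ⟨d1, -⟩ := patProd_atoms hA₁ hdD (({i, j} : Finset ℕ).image (· + R₂)) (2 * R₂ + 2 ^ r)
    rw [← blockProd_eq A₁ (B₁ - A₁) _ R₂ r hsub] at d1
    refine (nsq_change (by positivity : (0 : ℝ) ≤ Λ₂) (hA₁.pow _).1 d1
      (fun y => (hrat y).2)).trans (mul_le_mul_of_nonneg_left ?_ (by positivity))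
    rw [blockProd_pair A₁ (B₁ - A₁) hij hj]
    set a' := R₂ + i
    set m := j - i - 1
    set b' := R₂ + (2 ^ r - 1 - j)
    have hRef : A₁ ^ (2 * R₂ + 2 ^ r) = A₁ ^ a' * A₁ * A₁ ^ m * A₁ * A₁ ^ b' := by
      rw [show 2 * R₂ + 2 ^ r = a' + 1 + m + 1 + b' by omega, pow_add, pow_add, pow_add,
        pow_add, pow_one]
    rw [hRef]
    have pa := hA₁.pow a'
    have pm := hA₁.pow m
    have pb := hA₁.pow b'
    have hRp : Pos (A₁ ^ a' * A₁ * A₁ ^ m * A₁ * A₁ ^ b') :=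
      ((((pa.mul hA₁).mul pm).mul hA₁).mul pb).1
    have hDsplit : A₁ ^ a' * (B₁ - A₁) * A₁ ^ m * (B₁ - A₁) * A₁ ^ b' =
        (A₁ ^ a' * P₁ * A₁ ^ m * P₁ * A₁ ^ b' + A₁ ^ a' * P₁ * A₁ ^ m * E * A₁ ^ b') +
          A₁ ^ a' * E * A₁ ^ m * (B₁ - A₁) * A₁ ^ b' := by
      have : B₁ - A₁ = P₁ + E := by rw [hE]; abel
      rw [this]
      simp only [mul_add, add_mul]
      abel
    have t₁ : nsq (A₁ ^ a' * P₁ * A₁ ^ m * E * A₁ ^ b')
        (A₁ ^ a' * A₁ * A₁ ^ m * A₁ * A₁ ^ b') ≤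
          (4 * (N : ℝ) ^ 2 * Λ₁ * chi ^ 2) * (C₁ * rho) := by
      refine (nsq_five pa hA₁ pm hA₁ pb (dom_self _) hdP₁ (dom_self _) hdE (dom_self _)).2.trans ?_
      rw [nsq_self pa, nsq_self pm, nsq_self pb, one_mul, mul_one, mul_one]
      exact mul_le_mul hnP₁ hnE (nsq_nonneg hA₁.1) (by positivity)
    have t₂ : nsq (A₁ ^ a' * E * A₁ ^ m * (B₁ - A₁) * A₁ ^ b')
        (A₁ ^ a' * A₁ * A₁ ^ m * A₁ * A₁ ^ b') ≤ (C₁ * rho) * chi₁ := by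
      refine (nsq_five pa hA₁ pm hA₁ pb (dom_self _) hdE (dom_self _) hdD (dom_self _)).2.trans ?_
      rw [nsq_self pa, nsq_self pm, nsq_self pb, one_mul, mul_one, mul_one]
      exact mul_le_mul_of_nonneg_right hnE hchi₁0
    have hone : ∀ Q Q' : Finset ℕ, Q ⊆ range (2 ^ r) → Q' ⊆ range (2 ^ r) →
        ∀ S ∈ Q.powersetCard 2, ∀ S' ∈ Q'.powersetCard 2,
          nsq (A₁ ^ a' * f S * A₁ ^ m * f S' * A₁ ^ b')
            (A₁ ^ a' * A₁ * A₁ ^ m * A₁ * A₁ ^ b') ≤ C₃ * (chi ^ 4 * gain) := by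
      intro Q Q' hQ hQ' S hS S' hS'
      obtain ⟨a, b, hab, hb, rfl⟩ := mem_pairs hQ hS
      obtain ⟨c, e, hce, he, rfl⟩ := mem_pairs hQ' hS'
      rw [← mul_assoc, hA₁eq]
      exact hterm A B g R W M a' m b' _ a b c e hA hB hAB hov hg hR hW1 hM hP hab hb hce he
        (by omega) (by omega) (by omega) hMR hchi hsmall'
    have t₀ : nsq (A₁ ^ a' * P₁ * A₁ ^ m * P₁ * A₁ ^ b')
        (A₁ ^ a' * A₁ * A₁ ^ m * A₁ * A₁ ^ b') ≤ 16 * ((N : ℝ) ^ 4 * (C₃ * (chi ^ 4 * gain))) := by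
      have e : A₁ ^ a' * P₁ * A₁ ^ m * P₁ * A₁ ^ b' =
          (A₁ ^ a' * V * A₁ ^ m * V * A₁ ^ b' - A₁ ^ a' * V * A₁ ^ m * U * A₁ ^ b') -
          (A₁ ^ a' * U * A₁ ^ m * V * A₁ ^ b' - A₁ ^ a' * U * A₁ ^ m * U * A₁ ^ b') := by
        rw [hP₁]
        simp only [mul_sub, sub_mul]
        abel
      rw [e]
      have hbd : 0 ≤ C₃ * (chi ^ 4 * gain) := by positivity
      have u1 := nsq_bilin_le _ _ f hRp (card_pairs_le hP') (card_pairs_le hP') hbd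
        (hone _ _ hP' hP')
      have u2 := nsq_bilin_le _ _ f hRp (card_pairs_le hP') (card_pairs_le hP) hbd
        (hone _ _ hP' hP)
      have u3 := nsq_bilin_le _ _ f hRp (card_pairs_le hP) (card_pairs_le hP') hbd
        (hone _ _ hP hP')
      have u4 := nsq_bilin_le _ _ f hRp (card_pairs_le hP) (card_pairs_le hP) hbd
        (hone _ _ hP hP)
      rw [← hV] at u1
      rw [← hV, ← hU] at u2 u3
      rw [← hU] at u4
      refine (nsq_sub_le hRp).trans ((add_le_add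
        (mul_le_mul_of_nonneg_left (nsq_sub_le hRp) zero_le_two)
        (mul_le_mul_of_nonneg_left (nsq_sub_le hRp) zero_le_two)).trans ?_)
      linarith
    rw [hDsplit]
    refine (nsq_add hRp).trans (le_trans (add_le_add
      (mul_le_mul_of_nonneg_left (nsq_add hRp) zero_le_two) le_rfl) ?_)
    rw [hb₀]
    linarith
  -- summing
  have hA₂p : Pos (blockProd A₁ B₁ (tmSets r).1 R₂ r) := (block_isProb hA₁ hB₁ _ R₂ r).1
  set A₂ := blockProd A₁ B₁ (tmSets r).1 R₂ r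
  set B₂ := blockProd A₁ B₁ (tmSets r).2 R₂ r
  set V₂ := ∑ S ∈ (tmSets r).2.powersetCard 2, blockProd A₁ (B₁ - A₁) S R₂ r
  set U₂ := ∑ S ∈ (tmSets r).1.powersetCard 2, blockProd A₁ (B₁ - A₁) S R₂ r
  have hrest : nsq (B₂ - A₂ - (V₂ - U₂)) A₂ ≤
      C₂ * (chi₁ ^ 3 + Real.sqrt ((g₁ : ℝ) / R₂) ^ r) :=
    hpairs₂ A₁ B₁ g₁ R₂ hA₁ hB₁ hAB₁ hg₁ hR₂ hov₁ hchi₁
  have hnV : nsq V₂ A₂ ≤ (N : ℝ) ^ 2 * (Λ₂ * b₀) :=
    nsq_sum_le_bound _ _ hA₂p (card_pairs_le hP') (by positivity) (hterm₂ _ hP')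
  have hnU : nsq U₂ A₂ ≤ (N : ℝ) ^ 2 * (Λ₂ * b₀) :=
    nsq_sum_le_bound _ _ hA₂p (card_pairs_le hP) (by positivity) (hterm₂ _ hP)
  rw [show B₂ - A₂ = (B₂ - A₂ - (V₂ - U₂)) + (V₂ - U₂) by abel]
  refine (nsq_add hA₂p).trans ((add_le_add (mul_le_mul_of_nonneg_left hrest zero_le_two)
    (mul_le_mul_of_nonneg_left ((nsq_sub_le hA₂p).trans (add_le_add
      (mul_le_mul_of_nonneg_left hnV zero_le_two) (mul_le_mul_of_nonneg_left hnU zero_le_two)))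
      zero_le_two)).trans ?_)
  have hx : (0 : ℝ) ≤ chi₁ ^ 3 + Real.sqrt ((g₁ : ℝ) / R₂) ^ r := by positivity
  have hy : (0 : ℝ) ≤ (chi ^ 2 + chi₁) * rho := by positivity
  have hz : (0 : ℝ) ≤ chi ^ 4 * gain := by positivity
  have hc : (0 : ℝ) ≤ 8 * (N : ℝ) ^ 2 * Λ₂ := by positivity
  have h1 : (0 : ℝ) ≤ 64 * (N : ℝ) ^ 4 * C₃ := by positivity
  have h2 : (0 : ℝ) ≤ 16 * (N : ℝ) ^ 2 * Λ₁ * C₁ := by positivity
  set K₁ : ℝ := 64 * (N : ℝ) ^ 4 * C₃ + 16 * (N : ℝ) ^ 2 * Λ₁ * C₁ + 2 * C₁ with hK₁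
  have hK₁0 : 0 ≤ K₁ := by positivity
  have hb : b₀ ≤ K₁ * ((chi ^ 2 + chi₁) * rho + chi ^ 4 * gain) := by
    have a0 : 0 ≤ chi ^ 2 * rho := by positivity
    have a1 : 0 ≤ chi₁ * rho := by positivity
    have e : (chi ^ 2 + chi₁) * rho = chi ^ 2 * rho + chi₁ * rho := by ring
    have w1 := mul_le_mul_of_nonneg_left
      (show chi ^ 4 * gain ≤ (chi ^ 2 + chi₁) * rho + chi ^ 4 * gain by linarith) h1
    have w2 := mul_le_mul_of_nonneg_left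
      (show chi ^ 2 * rho ≤ (chi ^ 2 + chi₁) * rho + chi ^ 4 * gain by linarith) h2
    have w3 := mul_le_mul_of_nonneg_left
      (show chi₁ * rho ≤ (chi ^ 2 + chi₁) * rho + chi ^ 4 * gain by linarith)
      (show (0 : ℝ) ≤ 2 * C₁ by positivity)
    rw [hb₀, hK₁]
    linarith
  have hb' := mul_le_mul_of_nonneg_left hb hc
  have hcK : 0 ≤ 8 * (N : ℝ) ^ 2 * Λ₂ * K₁ := mul_nonneg hc hK₁0
  have w4 := mul_le_mul_of_nonneg_right (show 2 * C₂ ≤ K₀ + C₃ + 1 by rw [hK₀]; linarith) hx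
  have w5 := mul_le_mul_of_nonneg_right
    (show 8 * (N : ℝ) ^ 2 * Λ₂ * K₁ ≤ K₀ + C₃ + 1 by rw [hK₀]; linarith) (add_nonneg hy hz)
  linarith

end Vale.Agent.P321
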