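import Vale.Agent.P321.Words
import Vale.Agent.P321.Smoothing

/-!
# P321 module 4b: the gain from translating four atoms inside a pure window

Proof: with `Phi s` = the word with the atoms moved by `s0 + s`, write `Phi 0` as the average of
`Phi s` over `s < M` (orthogonal, since the atoms have mass zero and avoid the units, gain `1/M`)
plus differences, each bounded by `nsq_sandwich`, `l1_pow_shift` and `nq_probability`.
-/

namespace Vale.Agent.P321

/-- Word with `D` at the four positions `o + s` and `A` elsewhere. -/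
noncomputable def atomsWord (A D : Law) (N : ℕ) (o : Fin 4 → ℕ) (s : ℕ) : Law :=
  patProd A D ((Finset.univ : Finset (Fin 4)).image fun j => o j + s) N

/-! ### Products over an interval of slots -/

/-- The product of `f` over the slots `a, …, a + n - 1`. -/
noncomputable def wSeg (f : ℕ → Law) (a n : ℕ) : Law :=
  ((List.range n).map fun i => f (a + i)).prod

lemma wSeg_add (f : ℕ → Law) (a m n : ℕ) :
    wSeg f a (m + n) = wSeg f a m * wSeg f (a + m) n := by
  unfold wSeg
  rw [List.range_add, List.map_append, List.prod_append, List.map_map]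
  simp [Function.comp_def, add_assoc]

lemma wSeg_congr {f g : ℕ → Law} {a b n : ℕ} (h : ∀ i, i < n → f (a + i) = g (b + i)) :
    wSeg f a n = wSeg g b n :=
  congrArg List.prod (List.map_congr_left fun i hi => h i (List.mem_range.1 hi))

lemma wSeg_eq_pow {f : ℕ → Law} {a n : ℕ} {A : Law} (h : ∀ i, i < n → f (a + i) = A) :
    wSeg f a n = A ^ n := by
  unfold wSeg
  rw [List.map_congr_left fun i hi => h i (List.mem_range.1 hi), List.map_const', List.prod_replicate,
    List.length_range]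

lemma wSeg_eq_wordL (f : ℕ → Law) (a n : ℕ) :
    wSeg f a n = wordL (fun i : Fin n => f (a + i)) := by
  unfold wSeg wordL
  rw [List.ofFn_eq_map, ← List.map_coe_finRange_eq_range, List.map_map]
  rfl

lemma patProd_eq_wSeg (x y : Law) (P : Finset ℕ) (K : ℕ) :
    patProd x y P K = wSeg (fun i => if i ∈ P then y else x) 0 K := by
  simp [patProd, wSeg]

lemma prod_fin_shift (f : ℕ → ℝ) (a n : ℕ) :
    ∏ i : Fin n, f (a + i) = ∏ i ∈ Finset.Ico a (a + n), f i := by
  rw [Finset.prod_Ico_eq_prod_range, Nat.add_sub_cancel_left]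
  exact Fin.prod_univ_eq_prod_range (fun i => f (a + i)) n

/-- A product with few factors different from one. -/
lemma prod_le_pow_mul_exp {I S U : Finset ℕ} {n : ℕ → ℝ} {a b : ℝ} (hS : S ⊆ I)
    (hn : ∀ i, 0 ≤ n i) (hb : 0 ≤ b) (h1 : ∀ i ∈ S, n i ≤ a)
    (h2 : ∀ i, i ∉ S → i ∈ U → n i ≤ 1 + b) (h3 : ∀ i, i ∉ S → i ∉ U → n i ≤ 1) :
    ∏ i ∈ I, n i ≤ a ^ S.card * Real.exp (b * (U.card : ℝ)) := by
  have e1 : ∏ i ∈ S, n i ≤ a ^ S.card := by
    rw [← Finset.prod_const]
    exact Finset.prod_le_prod (fun i _ => hn i) h1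
  have e2 : ∏ i ∈ I \ S, n i ≤ Real.exp (b * (U.card : ℝ)) := by
    calc ∏ i ∈ I \ S, n i ≤ ∏ i ∈ I \ S, Real.exp (if i ∈ U then b else 0) := by
          refine Finset.prod_le_prod (fun i _ => hn i) fun i hi => ?_
          have hiS := (Finset.mem_sdiff.1 hi).2
          split_ifs with hU
          · exact (h2 i hiS hU).trans (by linarith [Real.add_one_le_exp b])
          · rw [Real.exp_zero]
            exact h3 i hiS hU
      _ = Real.exp (b * (((I \ S).filter (· ∈ U)).card : ℝ)) := by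
          rw [← Real.exp_sum, ← Finset.sum_filter, Finset.sum_const, nsmul_eq_mul, mul_comm]
      _ ≤ _ := by
          refine Real.exp_le_exp.2 (mul_le_mul_of_nonneg_left ?_ hb)
          exact_mod_cast Finset.card_le_card fun i hi => (Finset.mem_filter.1 hi).2
  rw [← Finset.prod_sdiff hS, mul_comm]
  exact mul_le_mul e1 e2 (Finset.prod_nonneg fun i _ => hn i)
    ((Finset.prod_nonneg fun i _ => hn i).trans e1)

section

variable {Lam : ℝ} {A B : Law}

lemma bdd_of_ratio (hA : IsProb A) (hR : Ratio Lam A B) : Bdd Lam A B := fun y => by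
  rw [abs_of_nonneg (hA.1 y)]
  exact (hR y).1

lemma dom_diff (hB : IsProb B) (hR : Ratio Lam A B) : Dom (B - A) A :=
  Dom.sub (dom_of_bdd fun y => by rw [abs_of_nonneg (hB.1 y)]; exact (hR y).2) (dom_self A)

lemma dom_diff' (hA : IsProb A) (hR : Ratio Lam A B) : Dom (B - A) B :=
  Dom.sub (dom_self B) (dom_of_bdd (bdd_of_ratio hA hR))

/-- The unit law at slot `i`. -/
noncomputable def unitAt (A B : Law) (U : Finset ℕ) (i : ℕ) : Law := if i ∈ U then B else A

/-- The atom law at slot `i`. -/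
noncomputable def atomAt (A D : Law) (o : Fin 4 → ℕ) (s i : ℕ) : Law :=
  if i ∈ (Finset.univ : Finset (Fin 4)).image (fun j => o j + s) then D else A

lemma isProb_unitAt (hA : IsProb A) (hB : IsProb B) (U : Finset ℕ) (i : ℕ) :
    IsProb (unitAt A B U i) := by
  unfold unitAt; split_ifs <;> assumption

lemma dom_atomAt (hA : IsProb A) (hB : IsProb B) (hR : Ratio Lam A B) (U : Finset ℕ)
    (o : Fin 4 → ℕ) (s i : ℕ) : Dom (atomAt A (B - A) o s i) (unitAt A B U i) := by
  unfold atomAt unitAt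
  split_ifs
  · exact dom_diff' hA hR
  · exact dom_diff hB hR
  · exact dom_of_bdd (bdd_of_ratio hA hR)
  · exact dom_self A

lemma nsq_diff_B (hL : 1 ≤ Lam) (hA : IsProb A) (hB : IsProb B) (hR : Ratio Lam A B) :
    nsq (B - A) B ≤ Lam * nsq (B - A) A :=
  nsq_change (zero_le_one.trans hL) hA.1 (dom_diff hB hR) fun y => (hR y).1

lemma nsq_A_B (hL : 1 ≤ Lam) (hA : IsProb A) (hB : IsProb B) (hR : Ratio Lam A B) :
    nsq A B ≤ 1 + Lam * nsq (B - A) A := by
  rw [nsq_probability hA hB (dom_of_bdd (bdd_of_ratio hA hR)),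
    show A - B = (-1 : ℝ) • (B - A) by rw [neg_one_smul, neg_sub], nsq_smul]
  simpa using nsq_diff_B hL hA hB hR

lemma nq_A_B (hL : 1 ≤ Lam) (hA : IsProb A) (hB : IsProb B) (hR : Ratio Lam A B) :
    nq A B ≤ 1 + (6 + 4 * Lam + Lam ^ 2) * Lam * nsq (B - A) A := by
  refine (nq_probability hL hA hB (bdd_of_ratio hA hR)).trans ?_
  rw [show A - B = (-1 : ℝ) • (B - A) by rw [neg_one_smul, neg_sub], nsq_smul, mul_assoc]
  have := mul_le_mul_of_nonneg_left (nsq_diff_B hL hA hB hR)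
    (show (0 : ℝ) ≤ 6 + 4 * Lam + Lam ^ 2 by positivity)
  simpa using this

/-- Chi-square of a run of pure slots or atoms relative to the units. -/
lemma nsq_atom_slots (hL : 1 ≤ Lam) (hA : IsProb A) (hB : IsProb B) (hR : Ratio Lam A B)
    {U : Finset ℕ} (hU : (U.card : ℝ) * nsq (B - A) A ≤ 1) {o : Fin 4 → ℕ} (ho : StrictMono o)
    (s a n : ℕ) (hin : ∀ j, a ≤ o j + s ∧ o j + s < a + n) (c : ℝ)
    (hc : ∀ i, nsq (B - A) (unitAt A B U i) ≤ c ∨ ∀ j, o j + s ≠ i) :
    ∏ i : Fin n, nsq (atomAt A (B - A) o s (a + i)) (unitAt A B U (a + i)) ≤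
      c ^ 4 * Real.exp Lam := by
  rw [prod_fin_shift (fun i => nsq (atomAt A (B - A) o s i) (unitAt A B U i))]
  set S := (Finset.univ : Finset (Fin 4)).image (fun j => o j + s) with hSdef
  have hcard : S.card = 4 := by
    rw [hSdef, Finset.card_image_of_injective _ fun x y h => ho.injective (by simpa using h)]
    simp
  have hε : 0 ≤ nsq (B - A) A := nsq_nonneg hA.1
  have hc0 : 0 ≤ c := by
    rcases hc (o 0 + s) with h | h
    · exact (nsq_nonneg (isProb_unitAt hA hB U _).1).trans h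
    · exact absurd rfl (h 0)
  refine (prod_le_pow_mul_exp (S := S) (U := U) (a := c) (b := Lam * nsq (B - A) A) ?_
    (fun i => nsq_nonneg (isProb_unitAt hA hB U i).1) (by positivity) ?_ ?_ ?_).trans ?_
  · intro i hi
    obtain ⟨j, -, rfl⟩ := Finset.mem_image.1 hi
    exact Finset.mem_Ico.2 (hin j)
  · intro i hi
    rw [atomAt, if_pos hi]
    rcases hc i with h | h
    · exact h
    · obtain ⟨j, -, e⟩ := Finset.mem_image.1 hi
      exact absurd e (h j)
  · intro i hi hiU
    rw [atomAt, if_neg hi, unitAt, if_pos hiU]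
    exact nsq_A_B hL hA hB hR
  · intro i hi hiU
    rw [atomAt, if_neg hi, unitAt, if_neg hiU, nsq_self hA]
  · rw [hcard]
    refine mul_le_mul_of_nonneg_left (Real.exp_le_exp.2 ?_) (by positivity)
    rw [mul_assoc, mul_comm (nsq _ _)]
    exact mul_le_of_le_one_right (zero_le_one.trans hL) hU

/-- Fourth moment of a run of pure slots relative to the units. -/
lemma nq_pure_slots (hL : 1 ≤ Lam) (hA : IsProb A) (hB : IsProb B) (hR : Ratio Lam A B)
    {U : Finset ℕ} (hU : (U.card : ℝ) * nsq (B - A) A ≤ 1) (a n : ℕ) :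
    nq (A ^ n) (wSeg (unitAt A B U) a n) ≤ Real.exp ((6 + 4 * Lam + Lam ^ 2) * Lam) := by
  have hε : 0 ≤ nsq (B - A) A := nsq_nonneg hA.1
  have e : (A ^ n : Law) = wordL (fun _ : Fin n => A) := by
    unfold wordL; rw [List.ofFn_const, List.prod_replicate]
  rw [e, wSeg_eq_wordL]
  refine (nq_wordL (fun i => isProb_unitAt hA hB U _) fun i => ?_).trans ?_
  · unfold unitAt
    split_ifs
    · exact dom_of_bdd (bdd_of_ratio hA hR)
    · exact dom_self A
  rw [prod_fin_shift (fun i => nq A (unitAt A B U i))]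
  refine (prod_le_pow_mul_exp (S := ∅) (U := U) (a := 1)
    (b := (6 + 4 * Lam + Lam ^ 2) * Lam * nsq (B - A) A) (Finset.empty_subset _)
    (fun i => nq_nonneg (isProb_unitAt hA hB U i).1) (by positivity) (fun i hi => by simp at hi)
    (fun i _ hiU => by rw [unitAt, if_pos hiU]; exact nq_A_B hL hA hB hR)
    (fun i _ hiU => by rw [unitAt, if_neg hiU, nq_self hA])).trans ?_
  rw [Finset.card_empty, pow_zero, one_mul, Real.exp_le_exp, mul_assoc,
    mul_comm (nsq _ _)]
  exact mul_le_of_le_one_right (by positivity) hU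

/-- The translate as left run, middle, right run. -/
lemma atomsWord_split {D : Law} {N : ℕ} {o : Fin 4 → ℕ} (ho : StrictMono o) {s : ℕ}
    (hs : o 3 + s < N) :
    atomsWord A D N o s = A ^ (o 0 + s) * wSeg (atomAt A D o 0) (o 0) (o 3 - o 0 + 1) *
      A ^ (N - (o 3 + s + 1)) := by
  have h03 : o 0 ≤ o 3 := ho.monotone (by decide)
  have hj : ∀ j, o 0 ≤ o j ∧ o j ≤ o 3 := fun j =>
    ⟨ho.monotone (Fin.zero_le j), ho.monotone (Fin.le_last j)⟩
  have hN : N = (o 0 + s) + (o 3 - o 0 + 1) + (N - (o 3 + s + 1)) := by omega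
  rw [atomsWord, patProd_eq_wSeg]
  conv_lhs => rw [hN, wSeg_add, wSeg_add]
  refine congrArg₂ (· * ·) (congrArg₂ (· * ·) (wSeg_eq_pow fun i hi => if_neg fun h => ?_)
    (wSeg_congr fun i _ => ?_)) (wSeg_eq_pow fun i hi => if_neg fun h => ?_)
  · obtain ⟨j, -, e⟩ := Finset.mem_image.1 h
    have := hj j
    omega
  · unfold atomAt
    simp only [add_zero]
    refine if_congr ?_ rfl rfl
    simp only [Finset.mem_image, Finset.mem_univ, true_and]
    exact exists_congr fun j => by omega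
  · obtain ⟨j, -, e⟩ := Finset.mem_image.1 h
    have := hj j
    omega

lemma unit_split (U : Finset ℕ) {N : ℕ} {o : Fin 4 → ℕ} (ho : StrictMono o) {s : ℕ}
    (hs : o 3 + s < N) :
    wSeg (unitAt A B U) 0 (o 0 + s) * wSeg (unitAt A B U) (o 0 + s) (o 3 - o 0 + 1) *
        wSeg (unitAt A B U) (o 3 + s + 1) (N - (o 3 + s + 1)) = patProd A B U N := by
  have h03 : o 0 ≤ o 3 := ho.monotone (by decide)
  rw [patProd_eq_wSeg]
  conv_rhs => rw [show N = (o 0 + s) + (o 3 - o 0 + 1) + (N - (o 3 + s + 1)) by omega,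
    wSeg_add, wSeg_add]
  rw [show 0 + (o 0 + s) = o 0 + s by omega,
    show 0 + (o 0 + s + (o 3 - o 0 + 1)) = o 3 + s + 1 by omega]
  rfl

/-- The middle of the translate relative to the units under it. -/
lemma nsq_middle (hL : 1 ≤ Lam) (hA : IsProb A) (hB : IsProb B) (hR : Ratio Lam A B)
    {U : Finset ℕ} (hU : (U.card : ℝ) * nsq (B - A) A ≤ 1) {o : Fin 4 → ℕ} (ho : StrictMono o)
    (s : ℕ) :
    Dom (wSeg (atomAt A (B - A) o 0) (o 0) (o 3 - o 0 + 1))
        (wSeg (unitAt A B U) (o 0 + s) (o 3 - o 0 + 1)) ∧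
      nsq (wSeg (atomAt A (B - A) o 0) (o 0) (o 3 - o 0 + 1))
        (wSeg (unitAt A B U) (o 0 + s) (o 3 - o 0 + 1)) ≤
      (Lam * nsq (B - A) A) ^ 4 * Real.exp Lam := by
  have he : wSeg (atomAt A (B - A) o 0) (o 0) (o 3 - o 0 + 1) =
      wSeg (atomAt A (B - A) o s) (o 0 + s) (o 3 - o 0 + 1) := wSeg_congr fun i _ => by
    unfold atomAt
    simp only [add_zero]
    refine if_congr ?_ rfl rfl
    simp only [Finset.mem_image, Finset.mem_univ, true_and]
    exact exists_congr fun j => by omega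
  rw [he, wSeg_eq_wordL, wSeg_eq_wordL]
  have hd := fun i : Fin (o 3 - o 0 + 1) => dom_atomAt hA hB hR U o s (o 0 + s + i)
  refine ⟨wordL_dom (fun i => isProb_unitAt hA hB U _) hd,
    (nsq_wordL (fun i => isProb_unitAt hA hB U _) hd).trans
      (nsq_atom_slots hL hA hB hR hU ho s _ _ (fun j => ?_) _ fun i => Or.inl ?_)⟩
  · have := ho.monotone (Fin.zero_le j)
    have := ho.monotone (Fin.le_last j)
    have : o (Fin.last 3) = o 3 := rfl
    omega
  · unfold unitAt
    split_ifs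
    · exact nsq_diff_B hL hA hB hR
    · exact le_mul_of_one_le_left (nsq_nonneg hA.1) hL

/-- Moving the atoms costs the sensitivity of `A ^ a` to shifts. -/
lemma nsq_shift (hL : 1 ≤ Lam) (hA : IsProb A) (hB : IsProb B) (hR : Ratio Lam A B)
    {U : Finset ℕ} (hU : (U.card : ℝ) * nsq (B - A) A ≤ 1) {N : ℕ} {o : Fin 4 → ℕ}
    (ho : StrictMono o) {s : ℕ} (hs : o 3 + s < N) {lam : ℝ}
    (hl : l1 (A ^ (o 0 + s) - A ^ o 0) ≤ lam)
    (hr : l1 (A ^ (N - (o 3 + 1)) - A ^ (N - (o 3 + s + 1))) ≤ lam) :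
    nsq (atomsWord A (B - A) N o 0 - atomsWord A (B - A) N o s) (patProd A B U N) ≤
      16 * (2 * lam) ^ ((2 : ℝ) / 3) *
        (2 * Real.exp ((6 + 4 * Lam + Lam ^ 2) * Lam) ^ 2) ^ ((1 : ℝ) / 3) *
        (2 * ((Lam * nsq (B - A) A) ^ 4 * Real.exp Lam)) := by
  set K := (6 + 4 * Lam + Lam ^ 2) * Lam
  set u := unitAt A B U
  have hs0 : o 3 + 0 < N := by omega
  have pu : ∀ a n, IsProb (wSeg u a n) := fun a n => by
    rw [wSeg_eq_wordL]; exact wordL_isProb fun i => isProb_unitAt hA hB U _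
  have du : ∀ a n, Dom (A ^ n) (wSeg u a n) := fun a n => by
    rw [show (A ^ n : Law) = wordL (fun _ : Fin n => A) by
      unfold wordL; rw [List.ofFn_const, List.prod_replicate], wSeg_eq_wordL]
    refine wordL_dom (fun i => isProb_unitAt hA hB U _) fun i => ?_
    simp only [u, unitAt]
    split_ifs
    · exact dom_of_bdd (bdd_of_ratio hA hR)
    · exact dom_self A
  obtain ⟨d0, b0⟩ := nsq_middle hL hA hB hR hU ho 0
  obtain ⟨d1, b1⟩ := nsq_middle hL hA hB hR hU ho s
  rw [atomsWord_split ho hs0, atomsWord_split ho hs]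
  refine (nsq_sandwich (hA.pow _) (hA.pow _) (hA.pow _) (hA.pow _) (pu _ _) (pu _ _) (pu _ _)
    (pu _ _) (pu _ _) (pu _ _) (du 0 _) (du (o 3 + 0 + 1) _) (du 0 _) (du (o 3 + s + 1) _) d0 d1
    (unit_split U ho hs0) (unit_split U ho hs)).trans ?_
  have q : ∀ a n, nq (A ^ n) (wSeg u a n) ≤ Real.exp K := fun a n =>
    nq_pure_slots hL hA hB hR hU a n
  have q0 : ∀ a n, 0 ≤ nq (A ^ n) (wSeg u a n) := fun a n => nq_nonneg (pu a n).1
  have m0 : ∀ a n, 0 ≤ nsq (wSeg (atomAt A (B - A) o 0) (o 0) n) (wSeg u a n) := fun a n =>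
    nsq_nonneg (pu a n).1
  have hl' : l1 (A ^ (o 0 + 0) - A ^ (o 0 + s)) ≤ lam := by
    rw [add_zero, ← neg_sub, l1_neg]; exact hl
  have hr' : l1 (A ^ (N - (o 3 + 0 + 1)) - A ^ (N - (o 3 + s + 1))) ≤ lam := by
    rw [add_zero]; exact hr
  have n1 := l1_nonneg (A ^ (o 0 + 0) - A ^ (o 0 + s))
  have n2 := l1_nonneg (A ^ (N - (o 3 + 0 + 1)) - A ^ (N - (o 3 + s + 1)))
  refine mul_le_mul (mul_le_mul (mul_le_mul_of_nonneg_left
    (Real.rpow_le_rpow (add_nonneg n1 n2) (by linarith) (by norm_num)) (by norm_num))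
    (Real.rpow_le_rpow ?_ ?_ (by norm_num)) (Real.rpow_nonneg ?_ _) ?_) (by linarith)
    (add_nonneg (m0 _ _) (m0 _ _)) ?_
  · exact add_nonneg (mul_nonneg (q0 _ _) (q0 _ _)) (mul_nonneg (q0 _ _) (q0 _ _))
  · have e := fun a b c d => mul_le_mul (q a b) (q c d) (q0 c d) (Real.exp_pos K).le
    calc _ ≤ Real.exp K * Real.exp K + Real.exp K * Real.exp K :=
          add_le_add (e _ _ _ _) (e _ _ _ _)
      _ = _ := by ring
  · exact add_nonneg (mul_nonneg (q0 _ _) (q0 _ _)) (mul_nonneg (q0 _ _) (q0 _ _))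
  · have : 0 ≤ 2 * lam := by linarith
    positivity
  · have : 0 ≤ 2 * lam := by linarith
    positivity

/-- Distinct translates are orthogonal. -/
lemma nsq_average (hL : 1 ≤ Lam) (hA : IsProb A) (hB : IsProb B) (hR : Ratio Lam A B)
    {U : Finset ℕ} (hU : (U.card : ℝ) * nsq (B - A) A ≤ 1) {N M s0 : ℕ} {o : Fin 4 → ℕ}
    (ho : StrictMono o) (hM : 1 ≤ M) (hN : o 3 + s0 + M ≤ N)
    (hav : ∀ k, k < M → ∀ j, o j + s0 + k ∉ U) :
    nsq (∑ k ∈ Finset.range M, (1 / (M : ℝ)) • atomsWord A (B - A) N o (s0 + k))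
        (patProd A B U N) ≤ nsq (B - A) A ^ 4 * Real.exp Lam / M := by
  set D := B - A
  set f := fun (k : ℕ) (i : Fin N) => atomAt A D o (s0 + k) (0 + i)
  set R := fun i : Fin N => unitAt A B U (0 + i)
  have hf : ∀ k, atomsWord A D N o (s0 + k) = wordL (f k) := fun k => by
    rw [atomsWord, patProd_eq_wSeg, wSeg_eq_wordL]; rfl
  have hRw : patProd A B U N = wordL R := by rw [patProd_eq_wSeg, wSeg_eq_wordL]; rfl
  have hmass : mass D = 0 := by rw [mass_sub, hB.2, hA.2, sub_self]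
  have key : ∀ a ∈ Finset.range M, ∀ b, a < b →
      ∃ i, inn (f a i) (f b i) (R i) = 0 ∧ inn (f b i) (f a i) (R i) = 0 := by
    intro a ha b hab
    have hlt : o 0 + (s0 + a) < N := by
      have := ho.monotone (show (0 : Fin 4) ≤ 3 by decide)
      have := Finset.mem_range.1 ha
      omega
    refine ⟨⟨o 0 + (s0 + a), hlt⟩, ?_⟩
    have e1 : f a ⟨o 0 + (s0 + a), hlt⟩ = D := by
      simp [f, atomAt]
    have e2 : f b ⟨o 0 + (s0 + a), hlt⟩ = A := by
      simp only [f, atomAt]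
      rw [if_neg]
      intro h
      obtain ⟨j, -, e⟩ := Finset.mem_image.1 h
      have := ho.monotone (Fin.zero_le j)
      omega
    have e3 : R ⟨o 0 + (s0 + a), hlt⟩ = A := by
      simp only [R, unitAt, zero_add]
      rw [if_neg (by simpa [add_assoc] using hav a (Finset.mem_range.1 ha) 0)]
    rw [e1, e2, e3, (inn_ref (dom_diff hB hR)).1, (inn_ref (dom_diff hB hR)).2, hmass]
    exact ⟨rfl, rfl⟩
  simp only [hf, hRw]
  refine (nsq_wordL_orth (Finset.range M) (fun _ => 1 / (M : ℝ)) f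
    (fun i => isProb_unitAt hA hB U _) (fun a _ i => dom_atomAt hA hB hR U o _ _)
    fun a ha b hb hne => ?_).trans ?_
  · rcases lt_or_gt_of_ne hne with h | h
    · obtain ⟨i, hi, -⟩ := key a ha b h
      exact ⟨i, hi⟩
    · obtain ⟨i, -, hi⟩ := key b hb a h
      exact ⟨i, hi⟩
  calc _ ≤ ∑ _k ∈ Finset.range M, (1 / (M : ℝ)) ^ 2 * (nsq D A ^ 4 * Real.exp Lam) := by
        refine Finset.sum_le_sum fun k hk => mul_le_mul_of_nonneg_left ?_ (sq_nonneg _)
        refine nsq_atom_slots hL hA hB hR hU ho (s0 + k) 0 N (fun j => ?_) _ fun i => ?_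
        · have := ho.monotone (Fin.le_last j)
          have : o (Fin.last 3) = o 3 := rfl
          have := Finset.mem_range.1 hk
          omega
        · by_cases hi : ∀ j, o j + (s0 + k) ≠ i
          · exact Or.inr hi
          · push Not at hi
            obtain ⟨j, rfl⟩ := hi
            refine Or.inl (le_of_eq ?_)
            rw [unitAt, if_neg (by simpa [add_assoc] using hav k (Finset.mem_range.1 hk) j)]
    _ = _ := by
        rw [Finset.sum_const, Finset.card_range, nsmul_eq_mul]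
        have : (M : ℝ) ≠ 0 := Nat.cast_ne_zero.2 (by omega)
        field_simp

end

/-- The gain from translating four atoms inside a pure window. -/
theorem window_gain (Lam th : ℝ) (hL : 1 ≤ Lam) (hth : 0 < th) : ∃ C : ℝ, 0 < C ∧
    ∀ (A B : Law) (g N M Gam s0 : ℕ) (U : Finset ℕ) (o : Fin 4 → ℕ),
      IsProb A → IsProb B → Ratio Lam A B → Overlap A g th → 1 ≤ g → 1 ≤ M → 1 ≤ Gam →
      StrictMono o → Gam ≤ o 0 → o 3 + s0 + M + Gam < N → U ⊆ Finset.range N →
      (∀ k, k < M → ∀ j, o j + s0 + k ∉ U) → (U.card : ℝ) * nsq (B - A) A ≤ 1 →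
      nsq (B - A) A ≤ 1 →
      nsq (atomsWord A (B - A) N o 0) (patProd A B U N) ≤
        C * nsq (B - A) A ^ 4 *
          (1 / (M : ℝ) + (((s0 : ℝ) + M) * Real.sqrt ((g : ℝ) / Gam)) ^ ((2 : ℝ) / 3)) := by
  obtain ⟨C1, hC1, hshift⟩ := l1_pow_shift th hth
  set K := 16 * (2 * C1) ^ ((2 : ℝ) / 3) *
    (2 * Real.exp ((6 + 4 * Lam + Lam ^ 2) * Lam) ^ 2) ^ ((1 : ℝ) / 3) *
    (2 * (Lam ^ 4 * Real.exp Lam)) with hK
  have hK0 : 0 ≤ K := by positivity
  refine ⟨2 * Real.exp Lam + 2 * K, by positivity, ?_⟩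
  intro A B g N M Gam s0 U o hA hB hR hov hg hM hGam ho hlo hhi _ hav hU _
  have hX : IsProb (patProd A B U N) := by
    rw [patProd_eq_wSeg, wSeg_eq_wordL]
    exact wordL_isProb fun i => isProb_unitAt hA hB U _
  set D := B - A
  set w := ((s0 : ℝ) + M) * Real.sqrt ((g : ℝ) / Gam)
  have hε : 0 ≤ nsq D A := nsq_nonneg hA.1
  have hM0 : (0 : ℝ) < M := Nat.cast_pos.2 hM
  have hw : 0 ≤ w := by positivity
  have hsh : ∀ k ∈ Finset.range M,
      nsq (atomsWord A D N o 0 - atomsWord A D N o (s0 + k)) (patProd A B U N) ≤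
        K * (nsq D A ^ 4 * w ^ ((2 : ℝ) / 3)) := by
    intro k hk
    rw [Finset.mem_range] at hk
    have hG : ∀ a, Gam ≤ a → l1 (A ^ (a + (s0 + k)) - A ^ a) ≤ C1 * w := fun a ha => by
      refine (hshift A g a (s0 + k) hA hg (by omega) hov).trans ?_
      rw [mul_assoc]
      refine mul_le_mul_of_nonneg_left (mul_le_mul ?_ ?_ (Real.sqrt_nonneg _) (by positivity)) hC1.le
      · push_cast
        have : (k : ℝ) ≤ M := Nat.cast_le.2 hk.le
        linarith
      · exact Real.sqrt_le_sqrt (div_le_div_of_nonneg_left (Nat.cast_nonneg g)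
          (Nat.cast_pos.2 hGam) (Nat.cast_le.2 ha))
    refine (nsq_shift hL hA hB hR hU ho (s := s0 + k) (by omega) (lam := C1 * w)
      (hG (o 0) hlo) ?_).trans (le_of_eq ?_)
    · have e := hG (N - (o 3 + (s0 + k) + 1)) (by omega)
      rwa [show N - (o 3 + (s0 + k) + 1) + (s0 + k) = N - (o 3 + 1) by omega] at e
    · rw [hK, ← mul_assoc 2 C1 w, Real.mul_rpow (by positivity) hw]
      ring
  have hsplit : atomsWord A D N o 0 =
      ∑ k ∈ Finset.range M, (1 / (M : ℝ)) • atomsWord A D N o (s0 + k) +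
        ∑ k ∈ Finset.range M, (1 / (M : ℝ)) •
          (atomsWord A D N o 0 - atomsWord A D N o (s0 + k)) := by
    rw [← Finset.sum_add_distrib]
    simp only [← smul_add, add_sub_cancel, Finset.sum_const, Finset.card_range,
      ← Nat.cast_smul_eq_nsmul ℝ, smul_smul, mul_one_div_cancel hM0.ne', one_smul]
  have hdiff : nsq (∑ k ∈ Finset.range M, (1 / (M : ℝ)) •
      (atomsWord A D N o 0 - atomsWord A D N o (s0 + k))) (patProd A B U N) ≤
        K * (nsq D A ^ 4 * w ^ ((2 : ℝ) / 3)) := by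
    refine (nsq_sum _ _ hX.1).trans ?_
    simp only [nsq_smul, Finset.card_range, ← Finset.mul_sum]
    refine (mul_le_mul_of_nonneg_left (mul_le_mul_of_nonneg_left
      (Finset.sum_le_card_nsmul _ _ _ hsh) (sq_nonneg _)) hM0.le).trans (le_of_eq ?_)
    rw [Finset.card_range, nsmul_eq_mul]
    field_simp
  have havg := nsq_average hL hA hB hR hU (N := N) (s0 := s0) ho hM (by omega) hav
  rw [hsplit]
  refine (nsq_add hX.1).trans ?_
  refine (add_le_add (mul_le_mul_of_nonneg_left havg (by norm_num))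
    (mul_le_mul_of_nonneg_left hdiff (by norm_num))).trans ?_
  have p1 : 0 ≤ nsq D A ^ 4 * w ^ ((2 : ℝ) / 3) := by positivity
  have p2 : 0 ≤ nsq D A ^ 4 / M := by positivity
  have := mul_le_mul_of_nonneg_right (le_add_of_nonneg_right (mul_nonneg two_pos.le hK0) :
    2 * Real.exp Lam ≤ 2 * Real.exp Lam + 2 * K) p2
  have := mul_le_mul_of_nonneg_right (le_add_of_nonneg_left (by positivity) :
    2 * K ≤ 2 * Real.exp Lam + 2 * K) p1
  calc _ = 2 * Real.exp Lam * (nsq D A ^ 4 / M) + 2 * K * (nsq D A ^ 4 * w ^ ((2 : ℝ) / 3)) := by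
        ring
    _ ≤ (2 * Real.exp Lam + 2 * K) * (nsq D A ^ 4 / M) +
          (2 * Real.exp Lam + 2 * K) * (nsq D A ^ 4 * w ^ ((2 : ℝ) / 3)) := by linarith
    _ = _ := by ring

end Vale.Agent.P321
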