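import Vale.Agent.P321.Algebra

/-!
# P321 module 2: products over slots
-/

namespace Vale.Agent.P321

open Finset

attribute [local instance] Classical.propDecidable

theorem wordL_zero (f : Fin 0 → Law) : wordL f = 1 := by simp [wordL]

theorem wordL_succ {K : ℕ} (f : Fin (K + 1) → Law) :
    wordL f = f 0 * wordL (fun i => f i.succ) := by
  simp [wordL, List.ofFn_succ]

theorem wordL_isProb {K : ℕ} {R : Fin K → Law} (hR : ∀ i, IsProb (R i)) : IsProb (wordL R) := by
  induction K with
  | zero => rw [wordL_zero]; exact isProb_one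
  | succ K ih => rw [wordL_succ]; exact (hR 0).mul (ih fun i => hR i.succ)

theorem wordL_dom {K : ℕ} {f R : Fin K → Law} (hR : ∀ i, IsProb (R i))
    (hd : ∀ i, Dom (f i) (R i)) : Dom (wordL f) (wordL R) := by
  induction K with
  | zero => rw [wordL_zero, wordL_zero]; exact dom_self 1
  | succ K ih =>
    rw [wordL_succ, wordL_succ R]
    exact Dom.mul (hR 0).1 (wordL_isProb fun i => hR i.succ).1 (hd 0)
      (ih (fun i => hR i.succ) fun i => hd i.succ)

theorem nsq_wordL {K : ℕ} {f R : Fin K → Law} (hR : ∀ i, IsProb (R i))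
    (hd : ∀ i, Dom (f i) (R i)) : nsq (wordL f) (wordL R) ≤ ∏ i, nsq (f i) (R i) := by
  induction K with
  | zero => rw [wordL_zero, wordL_zero]; simp [nsq_self isProb_one]
  | succ K ih =>
    rw [wordL_succ, wordL_succ R, Fin.prod_univ_succ]
    exact (nsq_mul (hR 0).1 (wordL_isProb fun i => hR i.succ).1 (hd 0)
      (wordL_dom (fun i => hR i.succ) fun i => hd i.succ)).trans
        (mul_le_mul_of_nonneg_left (ih (fun i => hR i.succ) fun i => hd i.succ)
          (nsq_nonneg (hR 0).1))

theorem nq_wordL {K : ℕ} {f R : Fin K → Law} (hR : ∀ i, IsProb (R i))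
    (hd : ∀ i, Dom (f i) (R i)) : nq (wordL f) (wordL R) ≤ ∏ i, nq (f i) (R i) := by
  induction K with
  | zero => rw [wordL_zero, wordL_zero]; simp [nq_self isProb_one]
  | succ K ih =>
    rw [wordL_succ, wordL_succ R, Fin.prod_univ_succ]
    exact (nq_mul (hR 0).1 (wordL_isProb fun i => hR i.succ).1 (hd 0)
      (wordL_dom (fun i => hR i.succ) fun i => hd i.succ)).trans
        (mul_le_mul_of_nonneg_left (ih (fun i => hR i.succ) fun i => hd i.succ)
          (nq_nonneg (hR 0).1))

theorem bdd_wordL {K : ℕ} {f R : Fin K → Law} {a : Fin K → ℝ} (ha : ∀ i, 0 ≤ a i)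
    (h : ∀ i, Bdd (a i) (f i) (R i)) : Bdd (∏ i, a i) (wordL f) (wordL R) := by
  induction K with
  | zero =>
    rw [wordL_zero, wordL_zero]
    intro y
    simp [abs_of_nonneg (isProb_one.1 y)]
  | succ K ih =>
    rw [wordL_succ, wordL_succ R, Fin.prod_univ_succ]
    exact Bdd.mul (ha 0) (prod_nonneg fun i _ => ha i.succ) (h 0)
      (ih (fun i => ha i.succ) fun i => h i.succ)

/-! ### Contraction of sums of products -/

theorem val_eq_zero_of_not_mem {X : Law} {y : TW} (h : y ∉ supp X) : val X y = 0 :=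
  Finsupp.notMem_support_iff.mp h

theorem val_pos_of_mem {R : Law} (hR : Pos R) {y : TW} (h : y ∈ supp R) : 0 < val R y :=
  lt_of_le_of_ne (hR y) (Ne.symm (Finsupp.mem_support_iff.mp h))

theorem dom_supp {X R : Law} (hd : Dom X R) {y : TW} (h : y ∉ supp R) : val X y = 0 :=
  hd y (val_eq_zero_of_not_mem h)

theorem nsq_eq_sum_supp {X R : Law} (hd : Dom X R) :
    nsq X R = ∑ y ∈ supp R, val X y ^ 2 / val R y := by
  rw [nsq]
  refine Finset.sum_subset (fun y hy => ?_) fun y _ hy => by simp [val_eq_zero_of_not_mem hy]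
  by_contra h
  exact Finsupp.mem_support_iff.mp hy (dom_supp hd h)

theorem inn_eq_sum_supp {X Y R : Law} (hd : Dom X R) :
    inn X Y R = ∑ y ∈ supp R, val X y * val Y y / val R y := by
  rw [inn]
  refine Finset.sum_subset (fun y hy => ?_) fun y _ hy => by simp [val_eq_zero_of_not_mem hy]
  by_contra h
  exact Finsupp.mem_support_iff.mp hy (dom_supp hd h)

theorem val_sum {ι : Type*} (s : Finset ι) (X : ι → Law) (y : TW) :
    val (∑ i ∈ s, X i) y = ∑ i ∈ s, val (X i) y := by
  simp [val]

theorem val_smul (c : ℝ) (X : Law) (y : TW) : val (c • X) y = c * val X y := by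
  simp [val]

theorem val_mul_eq_sum {A B : Law} {U V : Finset TW} (hA : supp A ⊆ U) (hB : supp B ⊆ V)
    (y : TW) : val (A * B) y =
      ∑ b ∈ (U ×ˢ V).filter (fun b => b.1 * b.2 = y), val A b.1 * val B b.2 := by
  classical
  have eA : A = ∑ u ∈ U, MonoidAlgebra.single u (val A u) := by
    apply MonoidAlgebra.coeff_injective
    refine Finsupp.ext fun z => ?_
    simp only [val, MonoidAlgebra.coeff_sum, MonoidAlgebra.coeff_single, Finsupp.coe_finsetSum,
      Finset.sum_apply, Finsupp.single_apply]
    rw [Finset.sum_ite_eq' U z]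
    split
    · rfl
    · rename_i hz
      exact val_eq_zero_of_not_mem (X := A) fun h => hz (hA h)
  have eB : B = ∑ u ∈ V, MonoidAlgebra.single u (val B u) := by
    apply MonoidAlgebra.coeff_injective
    refine Finsupp.ext fun z => ?_
    simp only [val, MonoidAlgebra.coeff_sum, MonoidAlgebra.coeff_single, Finsupp.coe_finsetSum,
      Finset.sum_apply, Finsupp.single_apply]
    rw [Finset.sum_ite_eq' V z]
    split
    · rfl
    · rename_i hz
      exact val_eq_zero_of_not_mem (X := B) fun h => hz (hB h)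
  conv_lhs => rw [eA, eB, Finset.sum_mul_sum]
  simp only [val, MonoidAlgebra.single_mul_single, MonoidAlgebra.coeff_sum,
    MonoidAlgebra.coeff_single, Finsupp.coe_finsetSum, Finset.sum_apply, Finsupp.single_apply]
  rw [Finset.sum_filter, Finset.sum_product]

/-- A sum of products is contracted by concatenation. -/
theorem nsq_sum_mul_le {ι : Type*} (s : Finset ι) (c : ι → ℝ) (A B : ι → Law) {R S : Law}
    (hR : Pos R) (hS : Pos S) (hA : ∀ a ∈ s, Dom (A a) R) (hB : ∀ a ∈ s, Dom (B a) S) :
    nsq (∑ a ∈ s, c a • (A a * B a)) (R * S) ≤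
      ∑ u ∈ supp R, nsq (∑ a ∈ s, (c a * val (A a) u) • B a) S / val R u := by
  classical
  let g : TW × TW → TW := fun b => b.1 * b.2
  let I := supp R ×ˢ supp S
  let x : TW × TW → ℝ := fun b => ∑ a ∈ s, c a * val (A a) b.1 * val (B a) b.2
  let d : TW × TW → ℝ := fun b => val R b.1 * val S b.2
  have hd : ∀ b ∈ I, 0 < d b := fun b hb =>
    mul_pos (val_pos_of_mem hR (Finset.mem_product.mp hb).1)
      (val_pos_of_mem hS (Finset.mem_product.mp hb).2)
  have sub : ∀ {X Z : Law}, Dom X Z → supp X ⊆ supp Z := fun hdom y hy => by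
    by_contra h
    exact Finsupp.mem_support_iff.mp hy (dom_supp hdom h)
  set X := ∑ a ∈ s, c a • (A a * B a) with hXdef
  have hX : ∀ y, val X y = ∑ b ∈ I.filter (fun b => g b = y), x b := by
    intro y
    rw [hXdef, val_sum]
    simp only [val_smul, x]
    rw [Finset.sum_comm]
    refine Finset.sum_congr rfl fun a ha => ?_
    rw [val_mul_eq_sum (sub (hA a ha)) (sub (hB a ha)), Finset.mul_sum]
    exact Finset.sum_congr rfl fun b _ => by ring
  have hZ : ∀ y, val (R * S) y = ∑ b ∈ I.filter (fun b => g b = y), d b := fun y =>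
    val_mul_eq_sum subset_rfl subset_rfl y
  have hsupp : supp X ⊆ I.image g := by
    intro y hy
    by_contra h
    refine Finsupp.mem_support_iff.mp hy ((hX y).trans (Finset.sum_eq_zero fun b hb => ?_))
    obtain ⟨hb1, hb2⟩ := Finset.mem_filter.mp hb
    exact absurd (Finset.mem_image.mpr ⟨b, hb1, hb2⟩) h
  calc nsq X (R * S) = ∑ y ∈ supp X, val X y ^ 2 / val (R * S) y := rfl
    _ ≤ ∑ y ∈ I.image g, val X y ^ 2 / val (R * S) y := by
      refine Finset.sum_le_sum_of_subset_of_nonneg hsupp fun y _ _ => ?_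
      rw [hZ]
      exact div_nonneg (sq_nonneg _)
        (Finset.sum_nonneg fun b hb => (hd b (Finset.mem_filter.mp hb).1).le)
    _ ≤ ∑ y ∈ I.image g, ∑ b ∈ I.filter (fun b => g b = y), x b ^ 2 / d b := by
      refine Finset.sum_le_sum fun y _ => ?_
      rw [hX, hZ]
      exact Finset.sq_sum_div_le_sum_sq_div _ _ fun b hb => hd b (Finset.mem_filter.mp hb).1
    _ = ∑ b ∈ I, x b ^ 2 / d b :=
      Finset.sum_fiberwise_of_maps_to (fun b hb => Finset.mem_image_of_mem g hb) _
    _ = _ := by
      rw [Finset.sum_product]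
      refine Finset.sum_congr rfl fun u _ => ?_
      rw [nsq_eq_sum_supp, Finset.sum_div]
      · refine Finset.sum_congr rfl fun z _ => ?_
        simp only [x, d, val_sum, val_smul]
        rw [div_div, mul_comm (val S z)]
      · intro z hz
        rw [val_sum]
        exact Finset.sum_eq_zero fun a ha => by rw [val_smul, hB a ha z hz, mul_zero]

/-- The squared norm of a combination of products is at most its quadratic form on slots. -/
theorem nsq_wordL_le_form {K : ℕ} {ι : Type*} (s : Finset ι) (c : ι → ℝ) (f : ι → Fin K → Law)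
    {R : Fin K → Law} (hR : ∀ i, IsProb (R i)) (hd : ∀ a ∈ s, ∀ i, Dom (f a i) (R i)) :
    nsq (∑ a ∈ s, c a • wordL (f a)) (wordL R) ≤
      ∑ a ∈ s, ∑ b ∈ s, c a * c b * ∏ i, inn (f a i) (f b i) (R i) := by
  induction K generalizing c with
  | zero =>
    simp only [wordL_zero, ← Finset.sum_smul, nsq_smul, nsq_self isProb_one, Finset.univ_eq_empty,
      Finset.prod_empty, mul_one, ← Finset.mul_sum, ← Finset.sum_mul, sq, le_refl]
  | succ K ih =>
    have hS : IsProb (wordL fun i => R i.succ) := wordL_isProb fun i => hR i.succ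
    simp only [wordL_succ, Fin.prod_univ_succ]
    refine (nsq_sum_mul_le s c (fun a => f a 0) (fun a => wordL fun i => f a i.succ) (hR 0).1 hS.1
      (fun a ha => hd a ha 0)
      (fun a ha => wordL_dom (fun i => hR i.succ) fun i => hd a ha i.succ)).trans ?_
    refine le_trans (Finset.sum_le_sum fun u hu => div_le_div_of_nonneg_right
      (ih (fun a => c a * val (f a 0) u) (fun a i => f a i.succ) (fun i => hR i.succ)
        fun a ha i => hd a ha i.succ) (val_pos_of_mem (hR 0).1 hu).le) (le_of_eq ?_)
    simp only [Finset.sum_div]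
    rw [Finset.sum_comm]
    refine Finset.sum_congr rfl fun a ha => ?_
    rw [Finset.sum_comm]
    refine Finset.sum_congr rfl fun b _ => ?_
    rw [inn_eq_sum_supp (hd a ha 0), Finset.sum_mul, Finset.mul_sum]
    exact Finset.sum_congr rfl fun u _ => by ring

/-- Products that are orthogonal in some slot add in squares. -/
theorem nsq_wordL_orth {K : ℕ} {ι : Type*} (s : Finset ι) (c : ι → ℝ) (f : ι → Fin K → Law)
    {R : Fin K → Law} (hR : ∀ i, IsProb (R i)) (hd : ∀ a ∈ s, ∀ i, Dom (f a i) (R i))
    (horth : ∀ a ∈ s, ∀ b ∈ s, a ≠ b → ∃ i, inn (f a i) (f b i) (R i) = 0) :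
    nsq (∑ a ∈ s, c a • wordL (f a)) (wordL R) ≤
      ∑ a ∈ s, c a ^ 2 * ∏ i, nsq (f a i) (R i) := by
  refine (nsq_wordL_le_form s c f hR hd).trans (le_of_eq (Finset.sum_congr rfl fun a ha => ?_))
  rw [Finset.sum_eq_single_of_mem a ha, sq]
  · simp only [inn_self]
  · intro b hb hne
    obtain ⟨i, hi⟩ := horth a ha b hb hne.symm
    exact mul_eq_zero_of_right _ (Finset.prod_eq_zero (Finset.mem_univ i) hi)

/-- Replacing the factors of a product of probability laws. -/
theorem nsq_wordL_sub {K : ℕ} {f R : Fin K → Law} (hR : ∀ i, IsProb (R i))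
    (hf : ∀ i, IsProb (f i)) (hd : ∀ i, Dom (f i) (R i)) :
    nsq (wordL f - wordL R) (wordL R) ≤ (∏ i, nsq (f i) (R i)) - 1 := by
  have h1 := nsq_probability (wordL_isProb hf) (wordL_isProb hR) (wordL_dom hR hd)
  have h2 := nsq_wordL hR hd
  linarith

theorem nsq_pow_sub {A R : Law} (hR : IsProb R) (hA : IsProb A) (hd : Dom A R) (n : ℕ) :
    nsq (A ^ n - R ^ n) (R ^ n) ≤ nsq A R ^ n - 1 := by
  have h := nsq_wordL_sub (K := n) (f := fun _ => A) (R := fun _ => R) (fun _ => hR) (fun _ => hA)
    fun _ => hd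
  simpa [wordL, List.ofFn_const, List.prod_replicate] using h

/-! ### Patterns -/

theorem patProd_succ {α : Type*} [Monoid α] (x y : α) (P : Finset ℕ) (K : ℕ) :
    patProd x y P (K + 1) = patProd x y P K * (if K ∈ P then y else x) := by
  simp [patProd, List.range_succ]

theorem patProd_congr {α : Type*} [Monoid α] (x y : α) {P Q : Finset ℕ} {K : ℕ}
    (h : ∀ i < K, (i ∈ P ↔ i ∈ Q)) : patProd x y P K = patProd x y Q K := by
  induction K with
  | zero => simp [patProd]
  | succ K ih =>
    rw [patProd_succ, patProd_succ, ih fun i hi => h i (hi.trans K.lt_succ_self)]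
    simp [h K K.lt_succ_self]

/-- Expansion of a pattern in the difference of its two letters. -/
theorem patProd_expand (A B : Law) (P : Finset ℕ) (K : ℕ) (hP : P ⊆ Finset.range K) :
    patProd A B P K = ∑ S ∈ P.powerset, patProd A (B - A) S K := by
  classical
  induction K generalizing P with
  | zero =>
    obtain rfl : P = ∅ := Finset.subset_empty.mp (by simpa using hP)
    simp [patProd]
  | succ K ih =>
    have low : ∀ {Q : Finset ℕ}, Q ⊆ Finset.range (K + 1) → K ∉ Q → Q ⊆ Finset.range K := by
      intro Q hQ hK i hi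
      have := Finset.mem_range.mp (hQ hi)
      have : i ≠ K := fun e => hK (e ▸ hi)
      exact Finset.mem_range.mpr (by omega)
    by_cases hK : K ∈ P
    · have hK' : K ∉ P.erase K := Finset.notMem_erase K P
      have hP' : P.erase K ⊆ Finset.range K :=
        low ((Finset.erase_subset K P).trans hP) hK'
      rw [← Finset.insert_erase hK, Finset.sum_powerset_insert hK', patProd_succ,
        if_pos (Finset.mem_insert_self K _),
        patProd_congr A B (Q := P.erase K) (fun i hi => by simp [Finset.mem_insert, ne_of_lt hi]),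
        ih _ hP', Finset.sum_mul, ← Finset.sum_add_distrib]
      refine Finset.sum_congr rfl fun S hS => ?_
      have hKS : K ∉ S := fun h => hK' (Finset.mem_powerset.mp hS h)
      rw [patProd_succ, patProd_succ, if_neg hKS, if_pos (Finset.mem_insert_self K S),
        patProd_congr A (B - A) (P := insert K S) (Q := S)
          (fun i hi => by simp [Finset.mem_insert, ne_of_lt hi]), ← mul_add,
        add_sub_cancel]
    · rw [patProd_succ, if_neg hK, ih P (low hP hK), Finset.sum_mul]
      refine Finset.sum_congr rfl fun S hS => ?_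
      rw [patProd_succ, if_neg fun h => hK (Finset.mem_powerset.mp hS h)]

end Vale.Agent.P321
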